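import Vale.Agent.P007.S11.Defs
import Vale.Agent.P013.Bdl.B4

/-! [S6] from real characters to `QC` and `IsL`, with the bound of Pólya and Vinogradov for the
character sums and Siegel's theorem for `L(1, χ)`. -/

set_option autoImplicit false
set_option linter.all false

open Finset MeasureTheory

namespace Vale.Agent.P007.S11.C137

variable {q : ℕ}

theorem two_le [NeZero q] {χ : DirichletCharacter ℂ q} (hχ : χ ≠ 1) : 2 ≤ q := by
  have h0 : q ≠ 0 := NeZero.ne q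
  have h1 : q ≠ 1 := fun h => hχ (DirichletCharacter.level_one' χ h)
  omega

theorem chi_zero [NeZero q] {χ : DirichletCharacter ℂ q} (hχ : χ ≠ 1) :
    χ (((0 : ℕ)) : ZMod q) = 0 := by
  haveI : Fact (1 < q) := ⟨two_le hχ⟩
  rw [Nat.cast_zero]
  exact MulChar.map_zero χ

theorem val {χ : DirichletCharacter ℂ q} (hχ2 : χ ^ 2 = 1) (a : ZMod q) :
    χ a = 1 ∨ χ a = 0 ∨ χ a = -1 := by
  rcases MulChar.isQuadratic_iff_sq_eq_one.mpr hχ2 a with h | h | h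
  · exact Or.inr (Or.inl h)
  · exact Or.inl h
  · exact Or.inr (Or.inr h)

theorem qc [NeZero q] {χ : DirichletCharacter ℂ q} (hχ : χ ≠ 1) (hχ2 : χ ^ 2 = 1) {Q : ℝ}
    (hQ1 : 1 ≤ Q) (hQ : ∀ N : ℕ, ‖∑ m ∈ Icc 1 N, χ (m : ZMod q)‖ ≤ Q) :
    QC Q (fun m => (χ (m : ZMod q)).re) where
  zero := by
    show (χ (((0 : ℕ)) : ZMod q)).re = 0
    rw [chi_zero hχ, Complex.zero_re]
  one := by
    show (χ (((1 : ℕ)) : ZMod q)).re = 1
    rw [Nat.cast_one, map_one, Complex.one_re]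
  mul a b := by
    show (χ (((a * b : ℕ)) : ZMod q)).re = (χ (a : ZMod q)).re * (χ (b : ZMod q)).re
    rw [Nat.cast_mul, map_mul, Complex.mul_re, Vale.Agent.P013.J.Siegel.im_chi hχ2, zero_mul,
      sub_zero]
  val m := by
    show (χ (m : ZMod q)).re = 1 ∨ (χ (m : ZMod q)).re = 0 ∨ (χ (m : ZMod q)).re = -1
    rcases val hχ2 (m : ZMod q) with h | h | h <;> simp [h]
  Q1 := hQ1
  sum N := by
    have h := (Complex.abs_re_le_norm _).trans (hQ N)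
    rwa [Complex.re_sum] at h

theorem cpow_eq {t : ℝ} (ht : 1 ≤ t) : (t : ℂ) ^ (-((1 : ℂ) + 1)) = ((t : ℂ) ^ 2)⁻¹ := by
  rw [show (-((1 : ℂ) + 1)) = -((2 : ℕ) : ℂ) by push_cast; ring, Complex.cpow_neg,
    Complex.cpow_natCast]

/-- Abel summation -/
theorem abel [NeZero q] {χ : DirichletCharacter ℂ q} (hχ : χ ≠ 1) {K : ℕ} (hK : 1 ≤ K) :
    ∑ k ∈ Icc 1 K, χ (k : ZMod q) / (k : ℂ) =
      (∑ k ∈ Icc 1 K, χ (k : ZMod q)) / (K : ℂ) +
        ∫ t in Set.Ioc (1 : ℝ) K, Vale.Agent.P013.J.Siegel.S χ t * (t : ℂ) ^ (-((1 : ℂ) + 1)) := by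
  have hd : ∀ t : ℝ, t ≠ 0 → HasDerivAt (fun t : ℝ => ((t : ℂ))⁻¹) (-((t : ℂ) ^ 2)⁻¹) t := by
    intro t ht
    have h1 : HasDerivAt (fun z : ℂ => z⁻¹) (-((t : ℂ) ^ 2)⁻¹) (t : ℂ) :=
      hasDerivAt_inv (Complex.ofReal_ne_zero.mpr ht)
    exact h1.comp_ofReal
  have h0 : ∀ g : ℕ → ℂ, g 0 = 0 → ∀ n : ℕ, ∑ k ∈ Icc 0 n, g k = ∑ k ∈ Icc 1 n, g k := by
    intro g hg n
    rw [Icc_eq_cons_Ioc (Nat.zero_le _), sum_cons, hg, zero_add]
    rfl
  have hderiv : ∀ t : ℝ, t ≠ 0 → deriv (fun t : ℝ => ((t : ℂ))⁻¹) t = -((t : ℂ) ^ 2)⁻¹ :=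
    fun t ht => (hd t ht).deriv
  have hint : IntegrableOn (deriv (fun t : ℝ => ((t : ℂ))⁻¹)) (Set.Icc (1 : ℝ) K) := by
    have h1 : ContinuousOn (fun t : ℝ => -((t : ℂ) ^ 2)⁻¹) (Set.Icc (1 : ℝ) K) := by
      refine ContinuousOn.neg (ContinuousOn.inv₀ (by fun_prop) fun t ht => ?_)
      have : (t : ℂ) ≠ 0 := Complex.ofReal_ne_zero.mpr (by linarith [ht.1])
      exact pow_ne_zero 2 this
    refine (h1.integrableOn_Icc).congr_fun (fun t ht => ?_) measurableSet_Icc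
    exact (hderiv t (by linarith [ht.1])).symm
  have h := sum_mul_eq_sub_integral_mul₀' (𝕜 := ℂ) (f := fun t : ℝ => ((t : ℂ))⁻¹)
    (fun k => χ (k : ZMod q)) (chi_zero hχ) K
    (fun t ht => (hd t (by linarith [ht.1])).differentiableAt) hint
  rw [h0 _ (by simp), h0 _ (chi_zero hχ)] at h
  have h2 : ∫ t in Set.Ioc (1 : ℝ) K, deriv (fun t : ℝ => ((t : ℂ))⁻¹) t *
      ∑ k ∈ Icc 0 ⌊t⌋₊, χ (k : ZMod q) =
      -∫ t in Set.Ioc (1 : ℝ) K, Vale.Agent.P013.J.Siegel.S χ t * (t : ℂ) ^ (-((1 : ℂ) + 1)) := by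
    rw [← integral_neg]
    refine setIntegral_congr_fun measurableSet_Ioc fun t ht => ?_
    show deriv (fun t : ℝ => ((t : ℂ))⁻¹) t * ∑ k ∈ Icc 0 ⌊t⌋₊, χ (k : ZMod q) =
      -(Vale.Agent.P013.J.Siegel.S χ t * (t : ℂ) ^ (-((1 : ℂ) + 1)))
    rw [hderiv t (by linarith [ht.1]), h0 _ (chi_zero hχ), cpow_eq ht.1.le,
      Vale.Agent.P013.J.Siegel.S]
    ring
  rw [h2, sub_neg_eq_add] at h
  calc ∑ k ∈ Icc 1 K, χ (k : ZMod q) / (k : ℂ)
      = ∑ k ∈ Icc 1 K, (((k : ℝ) : ℂ))⁻¹ * χ (k : ZMod q) := by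
        refine sum_congr rfl fun k _ => ?_
        rw [div_eq_mul_inv, mul_comm]
        simp
    _ = _ := by
        rw [h, div_eq_mul_inv, mul_comm]
        simp

theorem norm_integrand_le {χ : DirichletCharacter ℂ q} {Q : ℝ}
    (hQ : ∀ N : ℕ, ‖∑ m ∈ Icc 1 N, χ (m : ZMod q)‖ ≤ Q) {t : ℝ} (ht : 1 ≤ t) :
    ‖Vale.Agent.P013.J.Siegel.S χ t * (t : ℂ) ^ (-((1 : ℂ) + 1))‖ ≤ Q * t ^ (-2 : ℝ) := by
  have ht0 : 0 < t := by linarith
  rw [norm_mul, Complex.norm_cpow_eq_rpow_re_of_pos ht0]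
  have h1 : (-((1 : ℂ) + 1)).re = -2 := by
    simp
    norm_num
  rw [h1]
  exact mul_le_mul_of_nonneg_right (hQ _) (Real.rpow_nonneg ht0.le _)

theorem integrableOn {χ : DirichletCharacter ℂ q} {Q : ℝ}
    (hQ : ∀ N : ℕ, ‖∑ m ∈ Icc 1 N, χ (m : ZMod q)‖ ≤ Q) :
    IntegrableOn (fun t : ℝ => Vale.Agent.P013.J.Siegel.S χ t * (t : ℂ) ^ (-((1 : ℂ) + 1)))
      (Set.Ioi (1 : ℝ)) := by
  have hint : IntegrableOn (fun t : ℝ => Q * t ^ (-2 : ℝ)) (Set.Ioi 1) :=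
    (integrableOn_Ioi_rpow_of_lt (by norm_num) one_pos).const_mul _
  refine hint.mono' ?_ ?_
  · exact ((Vale.Agent.P013.J.Siegel.measurable_S χ).mul
      (Complex.measurable_ofReal.pow_const _)).aestronglyMeasurable
  · filter_upwards [ae_restrict_mem measurableSet_Ioi] with t ht
    exact norm_integrand_le hQ (le_of_lt ht)

theorem isL [NeZero q] {χ : DirichletCharacter ℂ q} (hχ : χ ≠ 1) {Q : ℝ}
    (hQ : ∀ N : ℕ, ‖∑ m ∈ Icc 1 N, χ (m : ZMod q)‖ ≤ Q) :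
    IsL (fun m => (χ (m : ZMod q)).re) Q (DirichletCharacter.LFunction χ 1).re := by
  intro K hK
  have hK1 : (1 : ℝ) ≤ K := by exact_mod_cast hK
  have hK0 : (0 : ℝ) < K := by linarith
  have hI := integrableOn hQ
  have hL : DirichletCharacter.LFunction χ 1 =
      ∫ t in Set.Ioi (1 : ℝ), Vale.Agent.P013.J.Siegel.S χ t * (t : ℂ) ^ (-((1 : ℂ) + 1)) := by
    rw [Vale.Agent.P013.J.Siegel.LFunction_eq_integral hχ (by simp), one_mul]
  have hsplit : ∫ t in Set.Ioi (1 : ℝ), Vale.Agent.P013.J.Siegel.S χ t *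
      (t : ℂ) ^ (-((1 : ℂ) + 1)) =
      (∫ t in Set.Ioc (1 : ℝ) K, Vale.Agent.P013.J.Siegel.S χ t * (t : ℂ) ^ (-((1 : ℂ) + 1))) +
      ∫ t in Set.Ioi (K : ℝ), Vale.Agent.P013.J.Siegel.S χ t * (t : ℂ) ^ (-((1 : ℂ) + 1)) := by
    rw [← Set.Ioc_union_Ioi_eq_Ioi hK1]
    refine setIntegral_union (Set.Ioc_disjoint_Ioi le_rfl) measurableSet_Ioi ?_ ?_
    · exact hI.mono_set Set.Ioc_subset_Ioi_self
    · exact hI.mono_set (Set.Ioi_subset_Ioi hK1)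
  have hJ : ‖∫ t in Set.Ioi (K : ℝ), Vale.Agent.P013.J.Siegel.S χ t *
      (t : ℂ) ^ (-((1 : ℂ) + 1))‖ ≤ Q / K := by
    have hint : IntegrableOn (fun t : ℝ => Q * t ^ (-2 : ℝ)) (Set.Ioi (K : ℝ)) :=
      (integrableOn_Ioi_rpow_of_lt (by norm_num) hK0).const_mul _
    refine (norm_integral_le_of_norm_le hint ?_).trans_eq ?_
    · filter_upwards [ae_restrict_mem measurableSet_Ioi] with t ht
      exact norm_integrand_le hQ (hK1.trans (le_of_lt ht))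
    · rw [integral_const_mul, integral_Ioi_rpow_of_lt (by norm_num) hK0]
      rw [show ((-2 : ℝ) + 1) = -1 by norm_num, Real.rpow_neg_one]
      field_simp
  have hS : ‖(∑ k ∈ Icc 1 K, χ (k : ZMod q)) / (K : ℂ)‖ ≤ Q / K := by
    rw [norm_div, Complex.norm_natCast]
    exact div_le_div_of_nonneg_right (hQ K) hK0.le
  have hA := abel hχ hK
  have hdiff : ∑ k ∈ Icc 1 K, χ (k : ZMod q) / (k : ℂ) - DirichletCharacter.LFunction χ 1 =
      (∑ k ∈ Icc 1 K, χ (k : ZMod q)) / (K : ℂ) -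
      ∫ t in Set.Ioi (K : ℝ), Vale.Agent.P013.J.Siegel.S χ t * (t : ℂ) ^ (-((1 : ℂ) + 1)) := by
    rw [hA, hL, hsplit]
    ring
  have hn : ‖∑ k ∈ Icc 1 K, χ (k : ZMod q) / (k : ℂ) - DirichletCharacter.LFunction χ 1‖ ≤
      2 * Q / K := by
    rw [hdiff]
    refine (norm_sub_le _ _).trans ((add_le_add hS hJ).trans_eq ?_)
    ring
  have hre : (∑ k ∈ Icc 1 K, χ (k : ZMod q) / (k : ℂ) - DirichletCharacter.LFunction χ 1).re =
      ∑ k ∈ Icc 1 K, (χ (k : ZMod q)).re / (k : ℝ) - (DirichletCharacter.LFunction χ 1).re := by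
    rw [Complex.sub_re, Complex.re_sum]
    congr 1
    refine sum_congr rfl fun k _ => ?_
    exact Complex.div_natCast_re _ _
  have h := (Complex.abs_re_le_norm _).trans hn
  rwa [hre] at h

theorem re_pos [NeZero q] {χ : DirichletCharacter ℂ q} (hχ : χ ≠ 1) (hχ2 : χ ^ 2 = 1) :
    0 < (DirichletCharacter.LFunction χ 1).re := by
  by_contra hcon
  push Not at hcon
  have hcont : Continuous (fun σ : ℝ => (DirichletCharacter.LFunction χ (σ : ℂ)).re) :=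
    Complex.continuous_re.comp
      ((DirichletCharacter.differentiable_LFunction hχ).continuous.comp Complex.continuous_ofReal)
  have hle : (1 : ℝ) ≤ 2 := by norm_num
  have hmem : (0 : ℝ) ∈ Set.Icc (DirichletCharacter.LFunction χ ((1 : ℝ) : ℂ)).re
      (DirichletCharacter.LFunction χ ((2 : ℝ) : ℂ)).re := by
    refine ⟨?_, ?_⟩
    · rw [Complex.ofReal_one]
      exact hcon
    · have h2 := (Vale.Agent.P013.J.Siegel.re_two_pos hχ2).le
      rwa [Complex.ofReal_ofNat]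
  obtain ⟨σ, hσ, hσ0⟩ := intermediate_value_Icc hle hcont.continuousOn hmem
  have hz : DirichletCharacter.LFunction χ (σ : ℂ) = 0 :=
    Complex.ext (by simpa using hσ0)
      (by simpa using Vale.Agent.P013.J.Siegel.im_LFunction hχ hχ2 (s := σ) (by linarith [hσ.1]))
  exact DirichletCharacter.LFunction_ne_zero_of_one_le_re χ (Or.inl hχ) (by simpa using hσ.1) hz

end Vale.Agent.P007.S11.C137

namespace Vale.Agent.P007.S11

/-- [S6] (second typist's copy) -/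
theorem char137 (h : PVStmt) : CharStmt := by
  obtain ⟨C, hC, hPV⟩ := h
  refine ⟨C, hC, fun ε hε => ?_⟩
  obtain ⟨c, hc, hS⟩ := Vale.Agent.P013.J.siegel ε hε
  refine ⟨c, hc, fun q _ χ hχ hχ2 => ⟨(DirichletCharacter.LFunction χ 1).re, ?_, ?_, ?_⟩⟩
  · refine C137.qc hχ hχ2 ?_ (hPV q χ hχ)
    have h1 : (1 : ℝ) ≤ (q : ℝ) ^ (3 / 4 : ℝ) :=
      Real.one_le_rpow Vale.Agent.P013.J.Siegel.one_le_q (by norm_num)
    nlinarith
  · exact C137.isL hχ (hPV q χ hχ)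
  · have h1 := hS q χ hχ hχ2
    have h2 : ‖DirichletCharacter.LFunction χ 1‖ = (DirichletCharacter.LFunction χ 1).re := by
      have h3 : (DirichletCharacter.LFunction χ 1).im = 0 := by
        simpa using Vale.Agent.P013.J.Siegel.im_LFunction hχ hχ2 (s := 1) one_pos
      rw [← Complex.abs_re_eq_norm.mpr h3, abs_of_pos (C137.re_pos hχ hχ2)]
    rwa [h2] at h1

end Vale.Agent.P007.S11
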