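import Mathlib

/-! Real characters, the coefficients `∑_{k ∣ m} χ(k)`, the sieve product, and the statements of
an upper bound of Shiu type with the factor `L(1, χ)`. -/

set_option autoImplicit false

namespace Vale.Agent.P007.S11

/-- `∑_{k ∣ m} χ(k)` -/
noncomputable def ac (χ : ℕ → ℝ) (m : ℕ) : ℝ := ∑ k ∈ m.divisors, χ k

/-- real completely multiplicative functions with values in `{1, 0, -1}` and sums bounded by `Q` -/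
structure QC (Q : ℝ) (χ : ℕ → ℝ) : Prop where
  zero : χ 0 = 0
  one : χ 1 = 1
  mul : ∀ a b : ℕ, χ (a * b) = χ a * χ b
  val : ∀ m : ℕ, χ m = 1 ∨ χ m = 0 ∨ χ m = -1
  Q1 : 1 ≤ Q
  sum : ∀ N : ℕ, |∑ m ∈ Finset.Icc 1 N, χ m| ≤ Q

/-- `L` is the value at `1` of the `L`-series of `χ` -/
def IsL (χ : ℕ → ℝ) (Q L : ℝ) : Prop :=
  ∀ K : ℕ, 1 ≤ K → |∑ k ∈ Finset.Icc 1 K, χ k / (k : ℝ) - L| ≤ 2 * Q / K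

/-- the primes up to `x` -/
noncomputable def pr (x : ℝ) : Finset ℕ := (Finset.range (⌊x⌋₊ + 1)).filter Nat.Prime

/-- `∏_{p ≤ x} (1 - 1/p) (1 - χ(p)/p)` -/
noncomputable def Wp (χ : ℕ → ℝ) (x : ℝ) : ℝ :=
  ∏ p ∈ pr x, (1 - 1 / (p : ℝ)) * (1 - χ p / (p : ℝ))

/-- the density of the multiples of `d` -/
noncomputable def rho (χ : ℕ → ℝ) (d : ℕ) : ℝ :=
  ∏ p ∈ d.primeFactors, ((1 + χ p) / (p : ℝ) - χ p / (p : ℝ) ^ 2)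

/-- all prime factors are at most `y` or in `T` -/
def SmS (T : Finset ℕ) (y : ℝ) (b : ℕ) : Prop := ∀ p : ℕ, p.Prime → p ∣ b → (p : ℝ) ≤ y ∨ p ∈ T

/-- all prime factors are larger than `y` and not in `T` -/
def RoS (T : Finset ℕ) (y : ℝ) (c : ℕ) : Prop := ∀ p : ℕ, p.Prime → p ∣ c → y < (p : ℝ) ∧ p ∉ T

/-- submultiplicative functions with Hall–Tenenbaum bounds, bounded by `(k+1)^n ac χ (p^k)` at the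
prime powers outside `T`, with local sums at most `U p` -/
structure GF (n : ℕ) (B : ℝ) (T : Finset ℕ) (χ g U : ℕ → ℝ) : Prop where
  nonneg : ∀ m, 0 ≤ g m
  one : g 1 = 1
  sub : ∀ a b : ℕ, a.Coprime b → g (a * b) ≤ g a * g b
  pow : ∀ p k : ℕ, p.Prime → 1 ≤ k → g (p ^ k) * (p : ℝ) ^ ((k + n - 1) / n) ≤ B * (p : ℝ) ^ k
  U1 : ∀ p, p.Prime → 1 ≤ U p
  sum : ∀ p M : ℕ, p.Prime → ∑ k ∈ Finset.range M, g (p ^ k) / (p : ℝ) ^ k ≤ U p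
  good : ∀ p k : ℕ, p.Prime → p ∉ T → g (p ^ k) ≤ ((k : ℝ) + 1) ^ n * ac χ (p ^ k)

/-! ### The statements of the blocks -/

/-- [S1] the hyperbola method -/
def HyperStmt : Prop := ∃ C : ℝ, 0 < C ∧ ∀ (Q L : ℝ) (χ : ℕ → ℝ), QC Q χ → IsL χ Q L →
  ∀ y : ℝ, 0 ≤ y → |∑ m ∈ Finset.Icc 1 ⌊y⌋₊, ac χ m - L * y| ≤
    C * (1 + Real.log Q) * √(Q * y)

/-- [S2] divisibility -/
def DivisStmt : Prop := ∃ C : ℝ, 0 < C ∧ ∀ (Q L : ℝ) (χ : ℕ → ℝ), QC Q χ → IsL χ Q L →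
  ∀ d : ℕ, Squarefree d → ∀ y : ℝ, 0 ≤ y →
    |∑ m ∈ (Finset.Icc 1 ⌊y⌋₊).filter (fun m => d ∣ m), ac χ m - L * y * rho χ d| ≤
      C * (1 + Real.log Q) * √(Q * y)

open Classical in
/-- [S3] the upper bound sieve -/
def SieveStmt : Prop := ∃ C C₁ : ℝ, 0 < C ∧ 1 ≤ C₁ ∧ ∀ (Q L : ℝ) (χ : ℕ → ℝ), QC Q χ →
  IsL χ Q L → 0 ≤ L → ∀ z x h : ℝ, 2 ≤ z → 0 ≤ x → 0 ≤ h →
    ∑ m ∈ (Finset.Ioc ⌊x⌋₊ ⌊x + h⌋₊).filter (fun m => ∀ p : ℕ, p.Prime → p ∣ m → z < (p : ℝ)),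
      ac χ m ≤ C * L * h * Wp χ z + C * z ^ C₁ * (1 + Real.log Q) * √(Q * (x + h + 1))

open Classical in
/-- [S4a] rough sums -/
def RoughB (n : ℕ) (C C₁ : ℝ) : Prop := ∀ (Q L B : ℝ) (T : Finset ℕ) (χ g U : ℕ → ℝ), QC Q χ →
  IsL χ Q L → 0 ≤ L → GF n B T χ g U → ∀ y u v W : ℝ, 2 ≤ y → 0 ≤ u → 0 ≤ v → u + v ≤ W → 2 ≤ W →
    ∑ c ∈ (Finset.Ioc ⌊u⌋₊ ⌊u + v⌋₊).filter (fun c => RoS T y c), g c ≤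
      2 ^ ((n : ℝ) * (Real.log W / Real.log y)) * (C * L * v * Wp χ y +
        C * y ^ C₁ * (1 + Real.log Q) * √(Q * (u + v + 1)))

/-- [S4b] Rankin's trick -/
def RankinStmt (n : ℕ) (B : ℝ) : Prop := ∀ A : ℝ, 0 ≤ A → ∃ C X₀ : ℝ, 0 < C ∧
  ∀ (T : Finset ℕ) (χ g U : ℕ → ℝ), GF n B T χ g U → ∀ x y M : ℝ, X₀ ≤ x →
    (T.card : ℝ) ≤ 4 * Real.log x → Real.log x ^ 4 ≤ y → y ≤ x → 1 ≤ M → ∀ S : Finset ℕ,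
    (∀ b ∈ S, M ≤ (b : ℝ) ∧ (b : ℝ) ≤ 2 * x ∧ SmS T y b) →
    ∑ b ∈ S, g b / (b : ℝ) ≤ C * Real.exp (-A * Real.log M / Real.log y) * ∏ p ∈ pr (2 * x), U p

/-- [S4c] Rankin's trick, very smooth numbers -/
def RankinSmallStmt (n : ℕ) (B : ℝ) : Prop := ∀ ε : ℝ, 0 < ε → ∃ X₀ : ℝ,
  ∀ (T : Finset ℕ) (χ g U : ℕ → ℝ), GF n B T χ g U → ∀ x : ℝ, X₀ ≤ x →
    (T.card : ℝ) ≤ 4 * Real.log x → ∀ S : Finset ℕ,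
    (∀ b ∈ S, 1 ≤ b ∧ (b : ℝ) ≤ 2 * x ∧ SmS T (Real.log x ^ 4) b) →
    ∑ b ∈ S, g b / (b : ℝ) ^ (1 - 1 / (10 * n) : ℝ) ≤ x ^ ε

/-- [S4d] the divisor bound -/
def DivBdStmt (n : ℕ) : Prop := ∀ ε : ℝ, 0 < ε → ∃ C : ℝ, 0 < C ∧
  ∀ (Q B : ℝ) (T : Finset ℕ) (χ g U : ℕ → ℝ), QC Q χ → GF n B T χ g U → ∀ c : ℕ, 1 ≤ c →
    (∀ p : ℕ, p.Prime → p ∣ c → p ∉ T) → g c ≤ C * (c : ℝ) ^ ε

/-- the hypotheses of Shiu's theorem -/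
structure SH (n : ℕ) (B x h Q L : ℝ) (T : Finset ℕ) (χ g U : ℕ → ℝ) : Prop where
  qc : QC Q χ
  isL : IsL χ Q L
  gf : GF n B T χ g U
  card : (T.card : ℝ) ≤ 4 * Real.log x
  Qx : Q ≤ x ^ (4 / 5 : ℝ)
  Lx : x ^ (-(1 / (1000 * n)) : ℝ) ≤ L
  xh : x ^ (1 - 1 / (1000 * n) : ℝ) ≤ h
  hx : h ≤ x

/-- class A: the smooth part is small -/
def ClA (T : Finset ℕ) (x κ₁ : ℝ) (m : ℕ) : Prop := ∃ b c : ℕ, m = b * c ∧ b.Coprime c ∧ 1 ≤ b ∧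
  (b : ℝ) ≤ x ^ (1 / 20 : ℝ) ∧ SmS T (x ^ κ₁) b ∧ RoS T (x ^ κ₁) c

/-- class B: the very smooth part is large -/
def ClB (T : Finset ℕ) (x : ℝ) (m : ℕ) : Prop := ∃ b c : ℕ, m = b * c ∧ b.Coprime c ∧ 1 ≤ b ∧
  x ^ (1 / 40 : ℝ) < (b : ℝ) ∧ SmS T (Real.log x ^ 4) b ∧ (∀ p : ℕ, p.Prime → p ∣ c → p ∉ T)

/-- class C: a large power of a small prime -/
def ClC (T : Finset ℕ) (x κ₁ : ℝ) (m : ℕ) : Prop := ∃ b q a c : ℕ, m = b * q ^ a * c ∧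
  b.Coprime (q ^ a) ∧ (b * q ^ a).Coprime c ∧ 1 ≤ b ∧ SmS T (Real.log x ^ 4) b ∧ q.Prime ∧
  q ∉ T ∧ (q : ℝ) ≤ x ^ κ₁ ∧ x ^ (1 / 40 : ℝ) < (q : ℝ) ^ a ∧ (∀ p : ℕ, p.Prime → p ∣ c → p ∉ T)

/-- class D: the general case -/
def ClD (T : Finset ℕ) (x κ₁ : ℝ) (m : ℕ) : Prop := ∃ i b c : ℕ, 1 ≤ i ∧
  (1 : ℝ) / (i + 1) < κ₁ ∧ Real.log x ^ 4 ≤ x ^ (1 / i : ℝ) ∧ m = b * c ∧ b.Coprime c ∧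
  x ^ (1 / 40 : ℝ) < (b : ℝ) ∧ (b : ℝ) ≤ x ^ (1 / 20 : ℝ) ∧ SmS T (x ^ (1 / i : ℝ)) b ∧
  RoS T (x ^ (1 / (i + 1) : ℝ)) c

/-- [S4e] the decomposition -/
def DecompStmt : Prop := ∀ κ₁ : ℝ, 0 < κ₁ → κ₁ ≤ 1 / 400 → ∃ X₀ : ℝ, ∀ (T : Finset ℕ) (x : ℝ),
  X₀ ≤ x → ∀ m : ℕ, 1 ≤ m → ClA T x κ₁ m ∨ ClB T x m ∨ ClC T x κ₁ m ∨ ClD T x κ₁ m

/-- a bound for the sum of `g` over the `m` in `(x, x + h]` with `P x T m` -/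
def ClassBd (n : ℕ) (B : ℝ) (P : ℝ → Finset ℕ → ℕ → Prop) : Prop := ∃ C X₀ : ℝ, 0 < C ∧
  ∀ (x h Q L : ℝ) (T : Finset ℕ) (χ g U : ℕ → ℝ), SH n B x h Q L T χ g U → X₀ ≤ x →
    ∀ S : Finset ℕ, S ⊆ Finset.Ioc ⌊x⌋₊ ⌊x + h⌋₊ → (∀ m ∈ S, P x T m) →
      ∑ m ∈ S, g m ≤ C * (L * h * Wp χ x * ∏ p ∈ pr (2 * x), U p)

/-- [S4f-A] -/
def ClassAStmt : Prop := ∀ (n : ℕ) (B C C₁ κ₁ : ℝ), 1 ≤ n → 0 < C → 1 ≤ C₁ → RoughB n C C₁ →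
  0 < κ₁ → κ₁ ≤ 1 / 400 → C₁ * κ₁ ≤ 1 / 80 → ClassBd n B (fun x T m => ClA T x κ₁ m)

/-- [S4f-B] (from S4c and S4d) -/
def ClassBStmt : Prop := ∀ (n : ℕ) (B : ℝ), 1 ≤ n → RankinSmallStmt n B → DivBdStmt n →
  ClassBd n B (fun x T m => ClB T x m)

/-- [S4f-C] (from S4c and S4d) -/
def ClassCStmt : Prop := ∀ (n : ℕ) (B κ₁ : ℝ), 1 ≤ n → RankinSmallStmt n B → DivBdStmt n →
  0 < κ₁ → κ₁ ≤ 1 / 400 → ClassBd n B (fun x T m => ClC T x κ₁ m)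

/-- [S4f-D] (from S4a and S4b) -/
def ClassDStmt : Prop := ∀ (n : ℕ) (B C C₁ κ₁ : ℝ), 1 ≤ n → 0 < C → 1 ≤ C₁ → RoughB n C C₁ →
  RankinStmt n B → 0 < κ₁ → κ₁ ≤ 1 / 400 → C₁ * κ₁ ≤ 1 / 80 →
  ClassBd n B (fun x T m => ClD T x κ₁ m)

/-- [S4] Shiu's theorem with the weights `ac χ` -/
def ShiuStmt (n : ℕ) (B : ℝ) : Prop := ∃ C X₀ : ℝ, 0 < C ∧
  ∀ (x h Q L : ℝ) (T : Finset ℕ) (χ g U : ℕ → ℝ), SH n B x h Q L T χ g U → X₀ ≤ x →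
    ∑ m ∈ Finset.Ioc ⌊x⌋₊ ⌊x + h⌋₊, g m ≤ C * (L * h * Wp χ x * ∏ p ∈ pr (2 * x), U p)

/-- [S5] Pólya–Vinogradov, weak form -/
def PVStmt : Prop := ∃ C : ℝ, 1 ≤ C ∧ ∀ (q : ℕ) [NeZero q] (χ : DirichletCharacter ℂ q), χ ≠ 1 →
  ∀ N : ℕ, ‖∑ m ∈ Finset.Icc 1 N, χ (m : ZMod q)‖ ≤ C * (q : ℝ) ^ (3 / 4 : ℝ)

/-- [S6] from characters to `QC`, with Siegel's theorem -/
def CharStmt : Prop := ∃ C : ℝ, 1 ≤ C ∧ ∀ ε : ℝ, 0 < ε → ∃ c : ℝ, 0 < c ∧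
  ∀ (q : ℕ) [NeZero q] (χ : DirichletCharacter ℂ q), χ ≠ 1 → χ ^ 2 = 1 → ∃ L : ℝ,
    QC (C * (q : ℝ) ^ (3 / 4 : ℝ)) (fun m => (χ (m : ZMod q)).re) ∧
    IsL (fun m => (χ (m : ZMod q)).re) (C * (q : ℝ) ^ (3 / 4 : ℝ)) L ∧
    c * (q : ℝ) ^ (-ε) ≤ L

end Vale.Agent.P007.S11
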