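import Vale.Agent.P007.S11.Pair
import Vale.Agent.P007.S11.Defs

/-! [S4f-A] the numbers with a small smooth part -/

set_option autoImplicit false

namespace Vale.Agent.P007.S11

namespace ClassA

lemma log_bound {x : ℝ} (hx : 1 ≤ x) :
    (1 + Real.log x) * Real.log x ^ 2 ≤ 219600 * x ^ (1 / 20 : ℝ) := by
  have hx0 : 0 < x := by linarith
  have h1 : Real.log x ≤ 60 * x ^ (1 / 60 : ℝ) := by
    have := Real.log_le_rpow_div hx0.le (ε := 1 / 60) (by norm_num)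
    linarith
  have h2 : 0 ≤ Real.log x := Real.log_nonneg hx
  have h3 : 1 ≤ x ^ (1 / 60 : ℝ) := Real.one_le_rpow hx (by norm_num)
  have h4 : (x ^ (1 / 60 : ℝ)) ^ 3 = x ^ (1 / 20 : ℝ) := by
    rw [← Real.rpow_natCast, ← Real.rpow_mul hx0.le]; norm_num
  set t := x ^ (1 / 60 : ℝ) with ht
  calc (1 + Real.log x) * Real.log x ^ 2 ≤ (61 * t) * (60 * t) ^ 2 := by
        apply mul_le_mul (by linarith) _ (by positivity) (by positivity)
        exact pow_le_pow_left₀ h2 h1 2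
    _ = 219600 * t ^ 3 := by ring
    _ = 219600 * x ^ (1 / 20 : ℝ) := by rw [h4]

lemma low {n : ℕ} {B x h Q L cl : ℝ} {T : Finset ℕ} {χ g U : ℕ → ℝ}
    (H : SH n B x h Q L T χ g U) (hn : 1 ≤ n) (hx : 2 ≤ x) (hcl : 0 < cl)
    (hl : cl / Real.log x ^ 2 ≤ Wp χ x) :
    cl / Real.log x ^ 2 * x ^ (998 / 1000 : ℝ) ≤ L * h * Wp χ x := by
  have hx0 : 0 < x := by linarith
  have hx1 : 1 ≤ x := by linarith
  have hlog : 0 < Real.log x := Real.log_pos (by linarith)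
  have hn0 : (1 : ℝ) ≤ n := by exact_mod_cast hn
  have h1 : (1 : ℝ) / (1000 * n) ≤ 1 / 1000 := by
    apply one_div_le_one_div_of_le (by norm_num); linarith
  have hLh : x ^ (998 / 1000 : ℝ) ≤ L * h := by
    calc x ^ (998 / 1000 : ℝ)
        ≤ x ^ (-(1 / (1000 * n)) + (1 - 1 / (1000 * n)) : ℝ) :=
          Real.rpow_le_rpow_of_exponent_le hx1 (by linarith)
      _ = x ^ (-(1 / (1000 * n)) : ℝ) * x ^ (1 - 1 / (1000 * n) : ℝ) := Real.rpow_add hx0 _ _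
      _ ≤ L * h := by
          apply mul_le_mul H.Lx H.xh (Real.rpow_nonneg hx0.le _)
          exact (Real.rpow_nonneg hx0.le _).trans H.Lx
  calc cl / Real.log x ^ 2 * x ^ (998 / 1000 : ℝ) ≤ Wp χ x * (L * h) :=
        mul_le_mul hl hLh (Real.rpow_nonneg hx0.le _) ((by positivity : (0:ℝ) ≤ _).trans hl)
    _ = L * h * Wp χ x := by ring

/-- the error term -/
lemma err {n : ℕ} {B x h Q L cl C C₁ κ₁ : ℝ} {T : Finset ℕ} {χ g U : ℕ → ℝ}
    (H : SH n B x h Q L T χ g U) (hn : 1 ≤ n) (hx : 2 ≤ x) (hcl : 0 < cl)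
    (hl : cl / Real.log x ^ 2 ≤ Wp χ x) (hC : 0 < C) (kC : C₁ * κ₁ ≤ 1 / 80) :
    C * (x ^ κ₁) ^ C₁ * (1 + Real.log Q) * (√(3 * x * Q) * x ^ (1 / 40 : ℝ)) ≤
      2 * C * 219600 / cl * (L * h * Wp χ x) := by
  have hx0 : 0 < x := by linarith
  have hx1 : 1 ≤ x := by linarith
  have hlog : 0 < Real.log x := Real.log_pos (by linarith)
  have hlow := low H hn hx hcl hl
  have hQ1 : 1 ≤ Q := H.qc.Q1
  have hlQ : 0 ≤ Real.log Q := Real.log_nonneg hQ1
  have hlQx : Real.log Q ≤ Real.log x := by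
    have h1 := Real.log_le_log (by linarith) H.Qx
    rw [Real.log_rpow hx0] at h1
    linarith
  have f1 : (x ^ κ₁) ^ C₁ ≤ x ^ (1 / 80 : ℝ) := by
    rw [← Real.rpow_mul hx0.le]
    exact Real.rpow_le_rpow_of_exponent_le hx1 (by linarith)
  have f2 : √(3 * x * Q) ≤ 2 * x ^ (9 / 10 : ℝ) := by
    rw [Real.sqrt_le_left (by positivity)]
    have g1 : (2 * x ^ (9 / 10 : ℝ)) ^ 2 = 4 * (x * x ^ (4 / 5 : ℝ)) := by
      rw [mul_pow, ← Real.rpow_natCast (x ^ (9 / 10 : ℝ)), ← Real.rpow_mul hx0.le]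
      have : x * x ^ (4 / 5 : ℝ) = x ^ (1 : ℝ) * x ^ (4 / 5 : ℝ) := by rw [Real.rpow_one]
      rw [this, ← Real.rpow_add hx0]
      norm_num
    rw [g1]
    have g2 := mul_le_mul_of_nonneg_left H.Qx hx0.le
    have g3 : 0 ≤ x * x ^ (4 / 5 : ℝ) := by positivity
    nlinarith
  have f4 : x ^ (1 / 80 : ℝ) * x ^ (9 / 10 : ℝ) * x ^ (1 / 40 : ℝ) = x ^ (75 / 80 : ℝ) := by
    rw [← Real.rpow_add hx0, ← Real.rpow_add hx0]
    norm_num
  have f3 : C * (x ^ κ₁) ^ C₁ * (1 + Real.log Q) * (√(3 * x * Q) * x ^ (1 / 40 : ℝ)) ≤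
      2 * C * ((1 + Real.log x) * x ^ (75 / 80 : ℝ)) := by
    calc C * (x ^ κ₁) ^ C₁ * (1 + Real.log Q) * (√(3 * x * Q) * x ^ (1 / 40 : ℝ))
        ≤ (C * x ^ (1 / 80 : ℝ) * (1 + Real.log x)) *
          (2 * x ^ (9 / 10 : ℝ) * x ^ (1 / 40 : ℝ)) := by
          apply mul_le_mul _ _ (by positivity) (by positivity)
          · apply mul_le_mul _ (by linarith) (by linarith) (by positivity)
            exact mul_le_mul_of_nonneg_left f1 hC.le
          · exact mul_le_mul_of_nonneg_right f2 (by positivity)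
      _ = 2 * C * ((1 + Real.log x) *
          (x ^ (1 / 80 : ℝ) * x ^ (9 / 10 : ℝ) * x ^ (1 / 40 : ℝ))) := by ring
      _ = _ := by rw [f4]
  refine f3.trans ?_
  have f5 : (1 + Real.log x) * x ^ (75 / 80 : ℝ) ≤
      219600 / Real.log x ^ 2 * x ^ (998 / 1000 : ℝ) := by
    have f6 := log_bound hx1
    rw [div_mul_eq_mul_div, le_div_iff₀ (by positivity)]
    calc (1 + Real.log x) * x ^ (75 / 80 : ℝ) * Real.log x ^ 2
        = ((1 + Real.log x) * Real.log x ^ 2) * x ^ (75 / 80 : ℝ) := by ring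
      _ ≤ (219600 * x ^ (1 / 20 : ℝ)) * x ^ (75 / 80 : ℝ) :=
          mul_le_mul_of_nonneg_right f6 (by positivity)
      _ = 219600 * x ^ (79 / 80 : ℝ) := by
          rw [mul_assoc, ← Real.rpow_add hx0]; norm_num
      _ ≤ 219600 * x ^ (998 / 1000 : ℝ) := by
          apply mul_le_mul_of_nonneg_left _ (by norm_num)
          exact Real.rpow_le_rpow_of_exponent_le hx1 (by norm_num)
  calc 2 * C * ((1 + Real.log x) * x ^ (75 / 80 : ℝ))
      ≤ 2 * C * (219600 / Real.log x ^ 2 * x ^ (998 / 1000 : ℝ)) :=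
        mul_le_mul_of_nonneg_left f5 (by positivity)
    _ = 2 * C * 219600 / cl * (cl / Real.log x ^ 2 * x ^ (998 / 1000 : ℝ)) := by
        field_simp
    _ ≤ 2 * C * 219600 / cl * (L * h * Wp χ x) :=
        mul_le_mul_of_nonneg_left hlow (by positivity)

/-- the square root -/
lemma sq_bound {x h Q b v : ℝ} (hx0 : 0 < x) (hhx : h ≤ x) (hQ : 0 < Q) (hb0 : 0 < b)
    (hbx : b ≤ x) (hv0 : 0 < v) (hbv : b ≤ v ^ 2) :
    √(Q * (x / b + h / b + 1)) ≤ √(3 * x * Q) * v / b := by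
  rw [le_div_iff₀ hb0]
  have e1 : Q * (x / b + h / b + 1) ≤ 3 * x * Q / b := by
    rw [le_div_iff₀ hb0]
    have e2 : (x / b + h / b + 1) * b = x + h + b := by
      field_simp
    calc Q * (x / b + h / b + 1) * b = Q * ((x / b + h / b + 1) * b) := by ring
      _ = Q * (x + h + b) := by rw [e2]
      _ ≤ Q * (3 * x) := mul_le_mul_of_nonneg_left (by linarith) hQ.le
      _ = 3 * x * Q := by ring
  have e3 : √b * √b = b := Real.mul_self_sqrt hb0.le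
  have e4 : 0 < √b := Real.sqrt_pos.2 hb0
  calc √(Q * (x / b + h / b + 1)) * b ≤ √(3 * x * Q / b) * b :=
        mul_le_mul_of_nonneg_right (Real.sqrt_le_sqrt e1) hb0.le
    _ = √(3 * x * Q) / √b * (√b * √b) := by
        rw [Real.sqrt_div' _ hb0.le, e3]
    _ = √(3 * x * Q) * √b := by
        field_simp
    _ ≤ √(3 * x * Q) * v := by
        apply mul_le_mul_of_nonneg_left _ (Real.sqrt_nonneg _)
        rw [Real.sqrt_le_left hv0.le]
        exact hbv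

end ClassA

open ClassA in
open Classical in
theorem classA_of
    (hE : ∀ (n : ℕ) (B : ℝ) (T : Finset ℕ) (χ g U : ℕ → ℝ), GF n B T χ g U →
      ∀ (x : ℝ) (S : Finset ℕ), (∀ b ∈ S, 1 ≤ b ∧ (b : ℝ) ≤ 2 * x) →
        ∑ b ∈ S, g b / (b : ℝ) ≤ ∏ p ∈ pr (2 * x), U p)
    (hW : ∃ C : ℝ, 0 < C ∧ ∀ χ : ℕ → ℝ, (∀ m, |χ m| ≤ 1) → ∀ y x : ℝ, 2 ≤ y → y ≤ x →
      Wp χ y ≤ C * (Real.log x / Real.log y) ^ 2 * Wp χ x)
    (hL : ∃ c : ℝ, 0 < c ∧ ∀ χ : ℕ → ℝ, (∀ m, |χ m| ≤ 1) → ∀ x : ℝ, 2 ≤ x →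
      c / Real.log x ^ 2 ≤ Wp χ x) : ClassAStmt := by
  intro n B C C₁ κ₁ hn hC hC₁ hRo k0 k4 kC
  obtain ⟨Cw, hCw, hW⟩ := hW
  obtain ⟨cl, hcl, hL⟩ := hL
  set K₁ : ℝ := 2 ^ ((n : ℝ) * (2 / κ₁)) with hK₁
  have hK₁pos : 0 < K₁ := Real.rpow_pos_of_pos (by norm_num) _
  set D : ℝ := K₁ * (C * (Cw * (1 / κ₁) ^ 2) + 2 * C * 219600 / cl) with hD
  have hDpos : 0 < D := by positivity
  refine ⟨D, max 2 (2 ^ (1 / κ₁)), hDpos, ?_⟩
  intro x h Q L T χ g U H hx S hS hcl'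
  have hx2 : 2 ≤ x := (le_max_left _ _).trans hx
  have hx2' : (2 : ℝ) ^ (1 / κ₁) ≤ x := (le_max_right _ _).trans hx
  have hx0 : 0 < x := by linarith
  have hx1 : 1 ≤ x := by linarith
  have hlog : 0 < Real.log x := Real.log_pos (by linarith)
  have hχ : ∀ m, |χ m| ≤ 1 := by
    intro m
    rcases H.qc.val m with h | h | h <;> rw [h] <;> norm_num
  have hW1 := hL χ hχ x hx2
  have hWpos : 0 < Wp χ x := lt_of_lt_of_le (by positivity) hW1
  have hL0 : 0 < L := lt_of_lt_of_le (Real.rpow_pos_of_pos hx0 _) H.Lx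
  have hh0 : 0 < h := lt_of_lt_of_le (Real.rpow_pos_of_pos hx0 _) H.xh
  have hQ1 : 1 ≤ Q := H.qc.Q1
  have hlQ : 0 ≤ Real.log Q := Real.log_nonneg hQ1
  have hlQ' : 0 ≤ 1 + Real.log Q := by linarith
  have herr := err H hn hx2 hcl hW1 hC kC
  obtain ⟨y, hy⟩ : ∃ y : ℝ, y = x ^ κ₁ := ⟨_, rfl⟩
  rw [← hy] at herr
  have hy2 : 2 ≤ y := by
    have h1 : ((2 : ℝ) ^ (1 / κ₁)) ^ κ₁ ≤ x ^ κ₁ :=
      Real.rpow_le_rpow (by positivity) hx2' k0.le
    rw [← Real.rpow_mul (by norm_num), one_div, inv_mul_cancel₀ k0.ne', Real.rpow_one] at h1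
    rw [hy]; exact h1
  have hly : Real.log y = κ₁ * Real.log x := by rw [hy]; exact Real.log_rpow hx0 _
  have hyx : y ≤ x := by
    calc y ≤ x ^ (1 : ℝ) := by
          rw [hy]; exact Real.rpow_le_rpow_of_exponent_le hx1 (by linarith)
      _ = x := Real.rpow_one x
  obtain ⟨w, hw⟩ : ∃ w : ℝ, w = x ^ (1 / 20 : ℝ) := ⟨_, rfl⟩
  obtain ⟨v, hv⟩ : ∃ v : ℝ, v = x ^ (1 / 40 : ℝ) := ⟨_, rfl⟩
  rw [← hv] at herr
  have hvv : v ^ 2 = w := by
    rw [hv, hw, ← Real.rpow_natCast, ← Real.rpow_mul hx0.le]; norm_num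
  have hv0 : 0 < v := by rw [hv]; exact Real.rpow_pos_of_pos hx0 _
  have hw0 : 0 < w := by rw [hw]; exact Real.rpow_pos_of_pos hx0 _
  have hwx : w ≤ x := by
    calc w ≤ x ^ (1 : ℝ) := by
          rw [hw]; exact Real.rpow_le_rpow_of_exponent_le hx1 (by norm_num)
      _ = x := Real.rpow_one x
  obtain ⟨P, hP⟩ : ∃ P : Finset ℕ, P = (Finset.Icc 1 ⌊w⌋₊).filter (fun b => SmS T y b) :=
    ⟨_, rfl⟩
  have hPb : ∀ b ∈ P, 1 ≤ b ∧ (b : ℝ) ≤ w := by
    intro b hb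
    rw [hP] at hb
    have h1 := Finset.mem_Icc.1 (Finset.mem_filter.1 hb).1
    exact ⟨h1.1, (Nat.le_floor_iff hw0.le).1 h1.2⟩
  have hps := pair_sum H.gf.nonneg H.gf.sub hx0.le hh0.le S P hS (fun _ c => RoS T y c)
    (fun m hm => by
      obtain ⟨b, c, hbc, hcop, hb1, hbw, hsm, hro⟩ := hcl' m hm
      rw [← hy] at hsm hro
      rw [← hw] at hbw
      refine ⟨b, ?_, c, hbc, hcop, hro⟩
      rw [hP]
      exact Finset.mem_filter.2 ⟨Finset.mem_Icc.2 ⟨hb1, Nat.le_floor hbw⟩, hsm⟩)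
  refine hps.trans ?_
  obtain ⟨E, hEdef⟩ : ∃ E : ℝ, E = C * y ^ C₁ * (1 + Real.log Q) := ⟨_, rfl⟩
  obtain ⟨F, hF⟩ : ∃ F : ℝ, F = √(3 * x * Q) * v := ⟨_, rfl⟩
  have hy0 : 0 < y := by linarith
  have hE0 : 0 ≤ E := by rw [hEdef]; positivity
  have hF0 : 0 ≤ F := by rw [hF]; positivity
  rw [← hEdef, ← hF] at herr
  have hWy0 : 0 ≤ Wp χ y := by
    have := hL χ hχ y hy2
    have h1 : 0 < Real.log y := Real.log_pos (by linarith)
    exact (by positivity : (0 : ℝ) ≤ cl / Real.log y ^ 2).trans this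
  obtain ⟨G, hG⟩ : ∃ G : ℝ, G = K₁ * (C * L * h * Wp χ y + E * F) := ⟨_, rfl⟩
  have hG0 : 0 ≤ G := by rw [hG]; positivity
  have hexp : (2 : ℝ) ^ ((n : ℝ) * (Real.log (2 * x) / Real.log y)) ≤ K₁ := by
    rw [hK₁]
    apply Real.rpow_le_rpow_of_exponent_le (by norm_num)
    apply mul_le_mul_of_nonneg_left _ (by positivity)
    rw [hly, div_le_div_iff₀ (by positivity) k0]
    have e1 : Real.log (2 * x) ≤ 2 * Real.log x := by
      rw [Real.log_mul (by norm_num) hx0.ne']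
      have := Real.log_le_log (by norm_num) hx2
      linarith
    nlinarith
  -- the inner sums
  have hin : ∀ b ∈ P, g b * ∑ c ∈ (Finset.Ioc ⌊x / b⌋₊ ⌊x / b + h / b⌋₊).filter
      (fun c => RoS T y c), g c ≤ G * (g b / b) := by
    intro b hb
    obtain ⟨hb1, hbw⟩ := hPb b hb
    have hb0 : (0 : ℝ) < b := by exact_mod_cast hb1
    have hb1' : (1 : ℝ) ≤ b := by exact_mod_cast hb1
    have hbx : (b : ℝ) ≤ x := hbw.trans hwx
    have h1 := hRo Q L B T χ g U H.qc H.isL hL0.le H.gf y (x / b) (h / b) (2 * x) hy2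
      (by positivity) (by positivity) (by
        have e1 : x / b ≤ x := div_le_self hx0.le hb1'
        have e2 : h / b ≤ h := div_le_self hh0.le hb1'
        have := H.hx
        linarith) (by linarith)
    have hsq : √(Q * (x / b + h / b + 1)) ≤ F / b := by
      rw [hF]
      exact sq_bound hx0 H.hx (by linarith) hb0 hbx hv0 (by rw [hvv]; exact hbw)
    have hg := H.gf.nonneg b
    refine (mul_le_mul_of_nonneg_left h1 hg).trans ?_
    rw [← hEdef]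
    have h2 : (2 : ℝ) ^ ((n : ℝ) * (Real.log (2 * x) / Real.log y)) *
        (C * L * (h / b) * Wp χ y + E * √(Q * (x / b + h / b + 1))) ≤
        K₁ * (C * L * (h / b) * Wp χ y + E * (F / b)) := by
      apply mul_le_mul hexp _ (by positivity) hK₁pos.le
      have := mul_le_mul_of_nonneg_left hsq hE0
      linarith
    refine (mul_le_mul_of_nonneg_left h2 hg).trans (le_of_eq ?_)
    rw [hG]; field_simp
  have hU0 : 0 ≤ ∏ p ∈ pr (2 * x), U p := by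
    apply Finset.prod_nonneg
    intro p hp
    have := H.gf.U1 p (Finset.mem_filter.1 hp).2
    linarith
  have hGle : G ≤ D * (L * h * Wp χ x) := by
    have e1 : Wp χ y ≤ Cw * (1 / κ₁) ^ 2 * Wp χ x := by
      have := hW χ hχ y x hy2 hyx
      rw [hly] at this
      have e2 : Real.log x / (κ₁ * Real.log x) = 1 / κ₁ := by field_simp
      rwa [e2] at this
    rw [hG, hD, mul_assoc K₁]
    apply mul_le_mul_of_nonneg_left _ hK₁pos.le
    have e3 := mul_le_mul_of_nonneg_left e1 (by positivity : 0 ≤ C * L * h)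
    have e4 : C * L * h * (Cw * (1 / κ₁) ^ 2 * Wp χ x) =
      C * (Cw * (1 / κ₁) ^ 2) * (L * h * Wp χ x) := by ring
    rw [e4] at e3
    rw [add_mul]
    exact add_le_add e3 herr
  refine (Finset.sum_le_sum hin).trans ?_
  rw [← Finset.mul_sum]
  have hEu : ∑ b ∈ P, g b / (b : ℝ) ≤ ∏ p ∈ pr (2 * x), U p := by
    refine hE n B T χ g U H.gf x P fun b hb => ?_
    obtain ⟨hb1, hbw⟩ := hPb b hb
    exact ⟨hb1, by linarith⟩
  refine (mul_le_mul_of_nonneg_left hEu hG0).trans ?_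
  refine (mul_le_mul_of_nonneg_right hGle hU0).trans (le_of_eq ?_)
  ring

end Vale.Agent.P007.S11
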