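import Vale.Agent.P007.S11.Defs
import Vale.Agent.P007.Bdl.B3

/-! Sums of `g(b)/b` and the Euler product. -/

set_option autoImplicit false

namespace Vale.Agent.P007.S11

/-- **[S4h]** -/
theorem euler_le {n : ℕ} {B : ℝ} {T : Finset ℕ} {χ g U : ℕ → ℝ} (hg : GF n B T χ g U) {x : ℝ}
    (S : Finset ℕ) (hS : ∀ b ∈ S, 1 ≤ b ∧ (b : ℝ) ≤ 2 * x) :
    ∑ b ∈ S, g b / (b : ℝ) ≤ ∏ p ∈ pr (2 * x), U p := by
  have h : Vale.Agent.P007.N.HTc n B g U :=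
    ⟨hg.nonneg, hg.one, hg.sub, hg.pow, hg.U1, hg.sum⟩
  refine le_trans ?_ (Vale.Agent.P007.N.sum_div_le h ⌊2 * x⌋₊)
  refine Finset.sum_le_sum_of_subset_of_nonneg ?_ fun b _ _ => ?_
  · intro b hb
    obtain ⟨h1, h2⟩ := hS b hb
    exact Finset.mem_Icc.2 ⟨h1, Nat.le_floor h2⟩
  · exact div_nonneg (hg.nonneg b) (by positivity)

theorem prod_U_ge_one {n : ℕ} {B : ℝ} {T : Finset ℕ} {χ g U : ℕ → ℝ} (hg : GF n B T χ g U)
    (x : ℝ) : 1 ≤ ∏ p ∈ pr x, U p := by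
  refine Finset.prod_induction _ (fun r : ℝ => 1 ≤ r) (fun a b ha hb => ?_) le_rfl ?_
  · nlinarith
  · intro p hp
    exact hg.U1 p (Finset.mem_filter.1 hp).2

end Vale.Agent.P007.S11
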