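import Vale.Agent.P007.S11.Defs
import Vale.Agent.P007.S11.Mert

/-! The ratio of the sieve products. -/

set_option autoImplicit false

namespace Vale.Agent.P007.S11

open Finset

theorem exp_le_one_sub {t : ℝ} (h0 : 0 ≤ t) (h1 : t ≤ 1 / 2) :
    Real.exp (-(t + 2 * t ^ 2)) ≤ 1 - t := by
  have h2 : 0 < 1 - t := by linarith
  rw [← Real.le_log_iff_exp_le h2]
  have h3 := Real.log_le_sub_one_of_pos (inv_pos.2 h2)
  rw [Real.log_inv] at h3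
  have h4 : (1 - t)⁻¹ - 1 ≤ t + 2 * t ^ 2 := by
    rw [sub_le_iff_le_add, inv_le_iff_one_le_mul₀ h2]
    nlinarith [mul_nonneg (mul_nonneg h0 h0) (by linarith : (0 : ℝ) ≤ 1 - 2 * t)]
  linarith

theorem pr_eq_union {y x : ℝ} (hyx : y ≤ x) :
    pr x = pr y ∪ (Ioc ⌊y⌋₊ ⌊x⌋₊).filter Nat.Prime := by
  have h := Nat.floor_le_floor hyx
  ext p
  simp only [pr, mem_union, mem_filter, mem_range, mem_Ioc]
  constructor
  · rintro ⟨h1, h2⟩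
    by_cases h3 : p < ⌊y⌋₊ + 1
    · exact Or.inl ⟨h3, h2⟩
    · exact Or.inr ⟨⟨by omega, by omega⟩, h2⟩
  · rintro (⟨h1, h2⟩ | ⟨⟨h1, h3⟩, h2⟩)
    · exact ⟨by omega, h2⟩
    · exact ⟨by omega, h2⟩

theorem disj_pr {y x : ℝ} : Disjoint (pr y) ((Ioc ⌊y⌋₊ ⌊x⌋₊).filter Nat.Prime) := by
  rw [Finset.disjoint_left]
  intro p hp hp'
  simp only [pr, mem_filter, mem_range, mem_Ioc] at hp hp'
  omega

theorem Wp_factor_nonneg {χ : ℕ → ℝ} (hχ : ∀ m, |χ m| ≤ 1) {p : ℕ} (hp : p.Prime) :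
    (1 - 1 / (p : ℝ)) ^ 2 ≤ (1 - 1 / (p : ℝ)) * (1 - χ p / (p : ℝ)) := by
  have hp2 : (2 : ℝ) ≤ p := by exact_mod_cast hp.two_le
  have h1 : 1 / (p : ℝ) ≤ 1 / 2 := one_div_le_one_div_of_le (by norm_num) hp2
  have h2 : χ p / (p : ℝ) ≤ 1 / p := by
    gcongr
    exact (abs_le.1 (hχ p)).2
  rw [sq]
  refine mul_le_mul_of_nonneg_left ?_ (by linarith)
  linarith

/-- the product over the primes in `(y, x]` -/
theorem Wp_window : ∃ C : ℝ, 0 < C ∧ ∀ χ : ℕ → ℝ, (∀ m, |χ m| ≤ 1) → ∀ y x : ℝ, 2 ≤ y → y ≤ x →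
    1 ≤ C * (Real.log x / Real.log y) ^ 2 *
      ∏ p ∈ (Ioc ⌊y⌋₊ ⌊x⌋₊).filter Nat.Prime, (1 - 1 / (p : ℝ)) * (1 - χ p / (p : ℝ)) := by
  obtain ⟨C, hC, hM⟩ := Mert.mertens_two
  refine ⟨Real.exp (2 * (C / Real.log 2) + 4), Real.exp_pos _, fun χ hχ y x hy hyx => ?_⟩
  have hly : 0 < Real.log y := Real.log_pos (by linarith)
  have hlx : 0 < Real.log x := Real.log_pos (by linarith)
  have hl2 : 0 < Real.log 2 := Real.log_pos (by norm_num)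
  have hl2y : Real.log 2 ≤ Real.log y := Real.log_le_log (by norm_num) hy
  set W := (Ioc ⌊y⌋₊ ⌊x⌋₊).filter Nat.Prime with hW
  have hm := (abs_le.1 (hM y x hy hyx)).2
  have hCy : C / Real.log y ≤ C / Real.log 2 := by gcongr
  have hf2 : 2 ≤ ⌊y⌋₊ := Nat.le_floor (by exact_mod_cast hy)
  have hsq : ∑ p ∈ W, (1 / (p : ℝ)) ^ 2 ≤ 1 := by
    calc ∑ p ∈ W, (1 / (p : ℝ)) ^ 2 ≤ ∑ p ∈ Ioc ⌊y⌋₊ ⌊x⌋₊, (1 / (p : ℝ)) ^ 2 :=
          Finset.sum_le_sum_of_subset_of_nonneg (Finset.filter_subset _ _)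
            fun _ _ _ => by positivity
      _ = ∑ p ∈ Ioc ⌊y⌋₊ ⌊x⌋₊, ((p : ℝ) ^ 2)⁻¹ :=
          Finset.sum_congr rfl fun p _ => by rw [one_div, inv_pow]
      _ ≤ ((⌊y⌋₊ : ℕ) : ℝ)⁻¹ - ((⌊x⌋₊ : ℕ) : ℝ)⁻¹ :=
          sum_Ioc_inv_sq_le_sub (by omega) (Nat.floor_le_floor hyx)
      _ ≤ 1 := by
          have h1 : ((⌊y⌋₊ : ℕ) : ℝ)⁻¹ ≤ 1 := inv_le_one_of_one_le₀ (by exact_mod_cast (by omega))
          have h2 : (0 : ℝ) ≤ ((⌊x⌋₊ : ℕ) : ℝ)⁻¹ := by positivity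
          linarith
  have hprod : Real.exp (-2 * (∑ p ∈ W, 1 / (p : ℝ)) - 4 * ∑ p ∈ W, (1 / (p : ℝ)) ^ 2) ≤
      ∏ p ∈ W, (1 - 1 / (p : ℝ)) * (1 - χ p / (p : ℝ)) := by
    rw [Finset.mul_sum, Finset.mul_sum, ← Finset.sum_sub_distrib, Real.exp_sum]
    refine Finset.prod_le_prod (fun _ _ => (Real.exp_pos _).le) fun p hp => ?_
    have hpp : p.Prime := (Finset.mem_filter.1 hp).2
    have hp2 : (2 : ℝ) ≤ p := by exact_mod_cast hpp.two_le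
    have h1 : 1 / (p : ℝ) ≤ 1 / 2 := one_div_le_one_div_of_le (by norm_num) hp2
    have h0 : 0 ≤ 1 / (p : ℝ) := by positivity
    refine le_trans ?_ (Wp_factor_nonneg hχ hpp)
    have h2 := exp_le_one_sub h0 h1
    calc Real.exp (-2 * (1 / (p : ℝ)) - 4 * (1 / (p : ℝ)) ^ 2)
        = Real.exp (-(1 / (p : ℝ) + 2 * (1 / (p : ℝ)) ^ 2)) ^ 2 := by
          rw [← Real.exp_nat_mul]
          congr 1
          push_cast
          ring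
      _ ≤ (1 - 1 / (p : ℝ)) ^ 2 := pow_le_pow_left₀ (Real.exp_pos _).le h2 2
  have hlow : Real.exp (-(2 * (C / Real.log 2) + 4)) * (Real.log y / Real.log x) ^ 2 ≤
      Real.exp (-2 * (∑ p ∈ W, 1 / (p : ℝ)) - 4 * ∑ p ∈ W, (1 / (p : ℝ)) ^ 2) := by
    have h1 : (Real.log y / Real.log x) ^ 2 =
        Real.exp (-2 * Real.log (Real.log x / Real.log y)) := by
      rw [show -2 * Real.log (Real.log x / Real.log y) =
        (2 : ℕ) * Real.log (Real.log y / Real.log x) by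
          rw [← inv_div (Real.log x) (Real.log y), Real.log_inv]; push_cast; ring]
      rw [Real.exp_nat_mul, Real.exp_log (by positivity)]
    rw [h1, ← Real.exp_add]
    refine Real.exp_le_exp.2 ?_
    linarith
  have h5 := hlow.trans hprod
  have hr : (Real.log x / Real.log y) ^ 2 * (Real.log y / Real.log x) ^ 2 = 1 := by
    rw [← mul_pow, div_mul_div_comm, mul_comm, div_self (by positivity), one_pow]
  calc (1 : ℝ) = Real.exp (2 * (C / Real.log 2) + 4) * (Real.log x / Real.log y) ^ 2 *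
        (Real.exp (-(2 * (C / Real.log 2) + 4)) * (Real.log y / Real.log x) ^ 2) := by
        rw [mul_mul_mul_comm, hr, ← Real.exp_add, add_neg_cancel, Real.exp_zero, mul_one]
    _ ≤ _ := mul_le_mul_of_nonneg_left h5 (by positivity)

theorem Wp_nonneg {χ : ℕ → ℝ} (hχ : ∀ m, |χ m| ≤ 1) (x : ℝ) : 0 ≤ Wp χ x := by
  refine Finset.prod_nonneg fun p hp => ?_
  exact (sq_nonneg _).trans (Wp_factor_nonneg hχ (Finset.mem_filter.1 hp).2)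

theorem Wp_factor_pos {χ : ℕ → ℝ} (hχ : ∀ m, |χ m| ≤ 1) {p : ℕ} (hp : p.Prime) :
    0 < (1 - 1 / (p : ℝ)) * (1 - χ p / (p : ℝ)) := by
  refine lt_of_lt_of_le ?_ (Wp_factor_nonneg hχ hp)
  have hp2 : (2 : ℝ) ≤ p := by exact_mod_cast hp.two_le
  have h1 : 1 / (p : ℝ) ≤ 1 / 2 := one_div_le_one_div_of_le (by norm_num) hp2
  have h2 : 0 < 1 - 1 / (p : ℝ) := by linarith
  positivity

theorem Wp_pos {χ : ℕ → ℝ} (hχ : ∀ m, |χ m| ≤ 1) (x : ℝ) : 0 < Wp χ x := by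
  unfold Wp pr
  apply Finset.prod_pos
  intro p hp
  exact Wp_factor_pos hχ (Finset.mem_filter.mp hp).2

theorem Wp_split (χ : ℕ → ℝ) {y x : ℝ} (hyx : y ≤ x) :
    Wp χ x = Wp χ y * ∏ p ∈ (Finset.Ioc ⌊y⌋₊ ⌊x⌋₊).filter Nat.Prime,
      (1 - 1 / (p : ℝ)) * (1 - χ p / (p : ℝ)) := by
  unfold Wp
  rw [pr_eq_union hyx, Finset.prod_union disj_pr]

/-- **[S4w]** -/
theorem Wp_ratio : ∃ C : ℝ, 0 < C ∧ ∀ χ : ℕ → ℝ, (∀ m, |χ m| ≤ 1) → ∀ y x : ℝ, 2 ≤ y → y ≤ x →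
    Wp χ y ≤ C * (Real.log x / Real.log y) ^ 2 * Wp χ x := by
  obtain ⟨C, hC, h⟩ := Wp_window
  refine ⟨C, hC, fun χ hχ y x hy hyx => ?_⟩
  have h1 := h χ hχ y x hy hyx
  have h2 : Wp χ x = Wp χ y *
      ∏ p ∈ (Ioc ⌊y⌋₊ ⌊x⌋₊).filter Nat.Prime, (1 - 1 / (p : ℝ)) * (1 - χ p / (p : ℝ)) := by
    unfold Wp
    rw [pr_eq_union hyx, Finset.prod_union disj_pr]
  rw [h2]
  calc Wp χ y = Wp χ y * 1 := (mul_one _).symm
    _ ≤ Wp χ y * (C * (Real.log x / Real.log y) ^ 2 *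
        ∏ p ∈ (Ioc ⌊y⌋₊ ⌊x⌋₊).filter Nat.Prime, (1 - 1 / (p : ℝ)) * (1 - χ p / (p : ℝ))) :=
        mul_le_mul_of_nonneg_left h1 (Wp_nonneg hχ y)
    _ = _ := by ring

/-- **[S4w]** -/
theorem Wp_lower : ∃ c : ℝ, 0 < c ∧ ∀ χ : ℕ → ℝ, (∀ m, |χ m| ≤ 1) → ∀ x : ℝ, 2 ≤ x →
    c / Real.log x ^ 2 ≤ Wp χ x := by
  obtain ⟨C, hC, h⟩ := Wp_ratio
  have hl2 : 0 < Real.log 2 := Real.log_pos (by norm_num)
  refine ⟨Real.log 2 ^ 2 / (4 * C), by positivity, fun χ hχ x hx => ?_⟩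
  have hlx : 0 < Real.log x := Real.log_pos (by linarith)
  have h1 := h χ hχ 2 x le_rfl hx
  have h2 : 1 / 4 ≤ Wp χ 2 := by
    unfold Wp
    have h3 : pr 2 = {2} := by
      unfold pr
      rw [show ⌊(2 : ℝ)⌋₊ = 2 by norm_num]
      decide
    rw [h3, Finset.prod_singleton]
    refine le_trans ?_ (Wp_factor_nonneg hχ Nat.prime_two)
    norm_num
  have h4 : 1 / 4 ≤ C * (Real.log x / Real.log 2) ^ 2 * Wp χ x := h2.trans h1
  rw [div_le_iff₀ (by positivity), div_le_iff₀ (by positivity)]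
  have h5 : C * (Real.log x / Real.log 2) ^ 2 * Wp χ x =
      (Wp χ x * Real.log x ^ 2 * (4 * C)) / (4 * Real.log 2 ^ 2) := by
    field_simp
  rw [h5, le_div_iff₀ (by positivity)] at h4
  linarith

end Vale.Agent.P007.S11
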