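import Vale.Agent.P007.S11.ClassA
import Vale.Agent.P007.S11.Euler
import Vale.Agent.P007.S11.Wp

/-! [S4f-A] the numbers with a small smooth part: the statement without hypotheses -/

set_option autoImplicit false

namespace Vale.Agent.P007.S11

theorem classA : ClassAStmt :=
  classA_of (fun _ _ _ _ _ _ h _ S hS => euler_le h S hS) Wp_ratio Wp_lower

end Vale.Agent.P007.S11
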