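import Mathlib

set_option autoImplicit false

namespace Vale.Agent.P007.S11

/-- **[S4g]** sums over products of coprime factors -/
theorem pair_sum {g : ℕ → ℝ} (hg : ∀ m, 0 ≤ g m)
    (hsub : ∀ a b : ℕ, a.Coprime b → g (a * b) ≤ g a * g b) {x h : ℝ} (hx : 0 ≤ x) (hh : 0 ≤ h)
    (S P : Finset ℕ) (hS : S ⊆ Finset.Ioc ⌊x⌋₊ ⌊x + h⌋₊) (R : ℕ → ℕ → Prop)
    [∀ b, DecidablePred (R b)]
    (hdec : ∀ m ∈ S, ∃ b ∈ P, ∃ c, m = b * c ∧ b.Coprime c ∧ R b c) :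
    ∑ m ∈ S, g m ≤
      ∑ b ∈ P, g b * ∑ c ∈ (Finset.Ioc ⌊x / b⌋₊ ⌊x / b + h / b⌋₊).filter (R b), g c := by
  classical
  set T : Finset (Σ _ : ℕ, ℕ) :=
    P.sigma fun b => (Finset.Ioc ⌊x / b⌋₊ ⌊x / b + h / b⌋₊).filter (R b) with hT
  have h1 : ∑ b ∈ P, g b * ∑ c ∈ (Finset.Ioc ⌊x / b⌋₊ ⌊x / b + h / b⌋₊).filter (R b), g c =
      ∑ t ∈ T, g t.1 * g t.2 := by
    rw [hT, Finset.sum_sigma]
    exact Finset.sum_congr rfl fun b _ => Finset.mul_sum _ _ _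
  rw [h1]
  have hdec' : ∀ m : ℕ, ∃ t : Σ _ : ℕ, ℕ, m ∈ S → t ∈ T ∧ m = t.1 * t.2 ∧ t.1.Coprime t.2 := by
    intro m
    by_cases hm : m ∈ S
    · obtain ⟨b, hb, c, hmc, hcop, hR⟩ := hdec m hm
      refine ⟨⟨b, c⟩, fun _ => ⟨?_, hmc, hcop⟩⟩
      have hm' := Finset.mem_Ioc.1 (hS hm)
      have h2 : x < (m : ℝ) := (Nat.floor_lt hx).1 hm'.1
      have h3 : (m : ℝ) ≤ x + h := (Nat.le_floor_iff (by positivity)).1 hm'.2
      have hb0 : b ≠ 0 := by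
        rintro rfl
        rw [hmc, zero_mul, Nat.cast_zero] at h2
        linarith
      have hb1 : (0 : ℝ) < b := by exact_mod_cast Nat.pos_of_ne_zero hb0
      rw [hmc, Nat.cast_mul] at h2 h3
      rw [hT, Finset.mem_sigma, Finset.mem_filter, Finset.mem_Ioc]
      refine ⟨hb, ⟨?_, ?_⟩, hR⟩
      · rw [Nat.floor_lt (by positivity), div_lt_iff₀ hb1]
        linarith
      · rw [Nat.le_floor_iff (by positivity), ← add_div, le_div_iff₀ hb1]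
        linarith
    · exact ⟨⟨0, 0⟩, fun h => absurd h hm⟩
  choose t ht using hdec'
  calc ∑ m ∈ S, g m ≤ ∑ m ∈ S, g (t m).1 * g (t m).2 := by
        refine Finset.sum_le_sum fun m hm => ?_
        obtain ⟨-, h2, h3⟩ := ht m hm
        conv_lhs => rw [h2]
        exact hsub _ _ h3
    _ = ∑ s ∈ S.image t, g s.1 * g s.2 := by
        rw [Finset.sum_image]
        intro a ha b hb hab
        rw [(ht a ha).2.1, (ht b hb).2.1, hab]
    _ ≤ ∑ s ∈ T, g s.1 * g s.2 := by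
        refine Finset.sum_le_sum_of_subset_of_nonneg ?_ fun s _ _ => mul_nonneg (hg _) (hg _)
        intro s hs
        obtain ⟨m, hm, rfl⟩ := Finset.mem_image.1 hs
        exact (ht m hm).1

end Vale.Agent.P007.S11
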