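import Vale.Agent.P007.S11.Defs
import Vale.Agent.P007.S11.Pair
import Vale.Agent.P007.S11.Wp

/-! # P007 / S11 : class B (helper812) -/

set_option autoImplicit false

namespace Vale.Agent.P007.S11.BC8

open Finset

theorem qc_abs {Q : ℝ} {χ : ℕ → ℝ} (h : QC Q χ) : ∀ m, |χ m| ≤ 1 := by
  intro m
  rcases h.val m with h | h | h <;> rw [h] <;> norm_num

theorem card_Ioc {u v : ℝ} (hu : 0 ≤ u) (hv : 0 ≤ v) :
    ((Finset.Ioc ⌊u⌋₊ ⌊u + v⌋₊).card : ℝ) ≤ v + 1 := by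
  rw [Nat.card_Ioc, Nat.cast_sub (Nat.floor_le_floor (by linarith))]
  have h1 := Nat.floor_le (show (0 : ℝ) ≤ u + v by linarith)
  have h2 := Nat.lt_floor_add_one u
  linarith

/-- the common part of classes B and C -/
theorem core (n : ℕ) (B : ℝ) (hn : 1 ≤ n) (hD : DivBdStmt n) : ∃ C : ℝ, 0 < C ∧
    ∀ (x h Q L : ℝ) (T : Finset ℕ) (χ g U : ℕ → ℝ), SH n B x h Q L T χ g U → 2 ≤ x →
      ∀ P : Finset ℕ, (∀ b ∈ P, 1 ≤ b ∧ x ^ (1 / 40 : ℝ) < (b : ℝ) ∧ (b : ℝ) ≤ 2 * x) →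
        ∑ b ∈ P, g b / (b : ℝ) ^ (1 - 1 / (10 * n) : ℝ) ≤ x ^ (1 / (4000 * n) : ℝ) →
      ∀ S : Finset ℕ, S ⊆ Finset.Ioc ⌊x⌋₊ ⌊x + h⌋₊ →
        (∀ m ∈ S, ∃ b ∈ P, ∃ c, m = b * c ∧ b.Coprime c ∧ ∀ p : ℕ, p.Prime → p ∣ c → p ∉ T) →
      ∑ m ∈ S, g m ≤ C * (L * h * Wp χ x * ∏ p ∈ pr (2 * x), U p) := by
  classical
  have hN : (1 : ℝ) ≤ n := by exact_mod_cast hn
  have hN0 : (0 : ℝ) < n := by linarith
  obtain ⟨D, hD0, hD⟩ := hD (1 / (4000 * n)) (by positivity)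
  obtain ⟨c₀, hc0, hc⟩ := Wp_lower
  refine ⟨6 * D * ((2000 * n) ^ 2 / c₀), by positivity, ?_⟩
  intro x h Q L T χ g U H hx P hP hsum S hS hdec
  have hx0 : (0 : ℝ) < x := by linarith
  have hx1 : (1 : ℝ) ≤ x := by linarith
  have hh0 : (0 : ℝ) < h := lt_of_lt_of_le (Real.rpow_pos_of_pos hx0 _) H.xh
  have hL0 : (0 : ℝ) < L := lt_of_lt_of_le (Real.rpow_pos_of_pos hx0 _) H.Lx
  have hg0 := H.gf.nonneg
  -- the sum over the pairs
  have s1 := pair_sum hg0 H.gf.sub hx0.le hh0.le S P hS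
    (fun _ c => ∀ p : ℕ, p.Prime → p ∣ c → p ∉ T) hdec
  refine s1.trans ?_
  set E : ℝ := D * (2 * x) ^ (1 / (4000 * n) : ℝ) with hE
  have hE0 : 0 ≤ E := by positivity
  have s2 : ∀ b ∈ P, g b * ∑ c ∈ (Finset.Ioc ⌊x / b⌋₊ ⌊x / b + h / b⌋₊).filter
      (fun c => ∀ p : ℕ, p.Prime → p ∣ c → p ∉ T), g c ≤ g b * ((h / b + 1) * E) := by
    intro b hb
    obtain ⟨b1, b2, b3⟩ := hP b hb
    have hb1 : (1 : ℝ) ≤ b := by exact_mod_cast b1
    have hb0 : (0 : ℝ) < b := by linarith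
    refine mul_le_mul_of_nonneg_left ?_ (hg0 b)
    have t1 : ∑ c ∈ (Finset.Ioc ⌊x / b⌋₊ ⌊x / b + h / b⌋₊).filter
        (fun c => ∀ p : ℕ, p.Prime → p ∣ c → p ∉ T), g c ≤
        ∑ c ∈ (Finset.Ioc ⌊x / b⌋₊ ⌊x / b + h / b⌋₊).filter
        (fun c => ∀ p : ℕ, p.Prime → p ∣ c → p ∉ T), E := by
      refine Finset.sum_le_sum fun c hc' => ?_
      rw [Finset.mem_filter, Finset.mem_Ioc] at hc'
      obtain ⟨⟨c1, c2⟩, c3⟩ := hc'
      have c4 : (c : ℝ) ≤ x / b + h / b := (Nat.le_floor_iff (by positivity)).1 c2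
      have c5 : (c : ℝ) ≤ 2 * x := by
        refine c4.trans ?_
        rw [← add_div, div_le_iff₀ hb0]
        have := H.hx
        nlinarith
      refine (hD Q B T χ g U H.qc H.gf c (by omega) c3).trans ?_
      rw [hE]
      refine mul_le_mul_of_nonneg_left ?_ hD0.le
      exact Real.rpow_le_rpow (Nat.cast_nonneg _) c5 (by positivity)
    refine t1.trans ?_
    rw [Finset.sum_const, nsmul_eq_mul]
    refine mul_le_mul_of_nonneg_right ?_ hE0
    refine le_trans ?_ (card_Ioc (u := x / b) (v := h / b) (by positivity) (by positivity))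
    exact_mod_cast Finset.card_filter_le _ _
  refine (Finset.sum_le_sum s2).trans ?_
  -- the weights
  set θ : ℝ := 1 / (10 * n) with hθ
  have hθ0 : 0 < θ := by positivity
  have hθ1 : θ ≤ 1 / 10 := by
    rw [hθ, div_le_div_iff₀ (by positivity) (by norm_num)]
    linarith
  have hsmall : (2 * x) ^ (1 - θ) ≤ 2 * (h * x ^ (-(θ / 40))) := by
    have e1 : (2 * x) ^ (1 - θ) = 2 ^ (1 - θ) * x ^ (1 - θ) :=
      Real.mul_rpow (by norm_num) hx0.le
    have e2 : (2 : ℝ) ^ (1 - θ) ≤ 2 := by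
      calc (2 : ℝ) ^ (1 - θ) ≤ 2 ^ (1 : ℝ) :=
            Real.rpow_le_rpow_of_exponent_le (by norm_num) (by linarith)
        _ = 2 := Real.rpow_one _
    have e3 : x ^ (1 - θ) ≤ h * x ^ (-(θ / 40)) := by
      calc x ^ (1 - θ) ≤ x ^ ((1 - 1 / (1000 * n) : ℝ) + -(θ / 40)) := by
            refine Real.rpow_le_rpow_of_exponent_le hx1 ?_
            have e4 : (1 : ℝ) / (1000 * n) = θ / 100 := by
              rw [hθ]
              field_simp
              norm_num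
            rw [e4]
            linarith
        _ = x ^ (1 - 1 / (1000 * n) : ℝ) * x ^ (-(θ / 40)) := Real.rpow_add hx0 _ _
        _ ≤ _ := mul_le_mul_of_nonneg_right H.xh (by positivity)
    rw [e1]
    calc (2 : ℝ) ^ (1 - θ) * x ^ (1 - θ) ≤ 2 * x ^ (1 - θ) :=
          mul_le_mul_of_nonneg_right e2 (by positivity)
      _ ≤ _ := mul_le_mul_of_nonneg_left e3 (by norm_num)
  have s3 : ∀ b ∈ P, g b * ((h / b + 1) * E) ≤
      g b / (b : ℝ) ^ (1 - θ) * (3 * (h * x ^ (-(θ / 40))) * E) := by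
    intro b hb
    obtain ⟨b1, b2, b3⟩ := hP b hb
    have hb1 : (1 : ℝ) ≤ b := by exact_mod_cast b1
    have hb0 : (0 : ℝ) < b := by linarith
    have t1 : h / b * (b : ℝ) ^ (1 - θ) ≤ h * x ^ (-(θ / 40)) := by
      have f1 : (b : ℝ) ^ (1 - θ) = b * (b : ℝ) ^ (-θ) := by
        rw [sub_eq_add_neg, Real.rpow_add hb0, Real.rpow_one]
      rw [f1]
      have f2 : h / b * (b * (b : ℝ) ^ (-θ)) = h * (b : ℝ) ^ (-θ) := by
        field_simp
      rw [f2]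
      refine mul_le_mul_of_nonneg_left ?_ hh0.le
      calc (b : ℝ) ^ (-θ) ≤ (x ^ (1 / 40 : ℝ)) ^ (-θ) :=
            Real.rpow_le_rpow_of_nonpos (by positivity) b2.le (by linarith)
        _ = x ^ (-(θ / 40)) := by
            rw [← Real.rpow_mul hx0.le]
            ring_nf
    have t2 : (b : ℝ) ^ (1 - θ) ≤ 2 * (h * x ^ (-(θ / 40))) :=
      (Real.rpow_le_rpow hb0.le b3 (by linarith)).trans hsmall
    have t3 : (h / b + 1) * (b : ℝ) ^ (1 - θ) ≤ 3 * (h * x ^ (-(θ / 40))) := by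
      rw [add_mul, one_mul]
      linarith
    have t4 : 0 < (b : ℝ) ^ (1 - θ) := by positivity
    have t5 : g b * ((h / b + 1) * E) =
        g b / (b : ℝ) ^ (1 - θ) * ((h / b + 1) * (b : ℝ) ^ (1 - θ) * E) := by
      field_simp
    rw [t5]
    refine mul_le_mul_of_nonneg_left ?_ (div_nonneg (hg0 b) t4.le)
    exact mul_le_mul_of_nonneg_right t3 hE0
  refine (Finset.sum_le_sum s3).trans ?_
  rw [← Finset.sum_mul]
  -- the total
  have hK0 : 0 ≤ 3 * (h * x ^ (-(θ / 40))) * E := by positivity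
  refine (mul_le_mul_of_nonneg_right hsum hK0).trans ?_
  have hE1 : E ≤ 2 * D * x ^ (1 / (4000 * n) : ℝ) := by
    rw [hE, Real.mul_rpow (by norm_num) hx0.le]
    have e2 : (2 : ℝ) ^ (1 / (4000 * n) : ℝ) ≤ 2 := by
      calc (2 : ℝ) ^ (1 / (4000 * n) : ℝ) ≤ 2 ^ (1 : ℝ) := by
            refine Real.rpow_le_rpow_of_exponent_le (by norm_num) ?_
            rw [div_le_one (by positivity)]
            linarith
        _ = 2 := Real.rpow_one _
    have e3 : (0 : ℝ) ≤ x ^ (1 / (4000 * n) : ℝ) := by positivity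
    nlinarith [mul_le_mul_of_nonneg_right e2 e3]
  have s4 : x ^ (1 / (4000 * n) : ℝ) * (3 * (h * x ^ (-(θ / 40))) * E) ≤
      6 * D * h * (x ^ (-(1 / (1000 * n)) : ℝ) * x ^ (-(1 / (1000 * n)) : ℝ)) := by
    have e5 : x ^ (1 / (4000 * n) : ℝ) * x ^ (-(θ / 40)) * x ^ (1 / (4000 * n) : ℝ) =
        x ^ (-(1 / (1000 * n)) : ℝ) * x ^ (-(1 / (1000 * n)) : ℝ) := by
      rw [← Real.rpow_add hx0, ← Real.rpow_add hx0, ← Real.rpow_add hx0]
      congr 1
      rw [hθ]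
      field_simp
      norm_num
    have e6 : x ^ (1 / (4000 * n) : ℝ) * (3 * (h * x ^ (-(θ / 40))) * E) ≤
        x ^ (1 / (4000 * n) : ℝ) * (3 * (h * x ^ (-(θ / 40))) *
          (2 * D * x ^ (1 / (4000 * n) : ℝ))) := by
      gcongr
    refine e6.trans (le_of_eq ?_)
    rw [← e5]
    ring
  refine s4.trans ?_
  -- the comparison
  have hlog : 0 < Real.log x := Real.log_pos (by linarith)
  have hW : x ^ (-(1 / (1000 * n)) : ℝ) ≤ (2000 * n) ^ 2 / c₀ * Wp χ x := by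
    have w1 := hc χ (qc_abs H.qc) x hx
    have w2 : Real.log x ≤ x ^ (1 / (2000 * n) : ℝ) * (2000 * n) := by
      have := Real.log_le_rpow_div hx0.le (show (0 : ℝ) < 1 / (2000 * n) by positivity)
      calc Real.log x ≤ x ^ (1 / (2000 * n) : ℝ) / (1 / (2000 * n)) := this
        _ = _ := by field_simp
    have w3 : Real.log x ^ 2 ≤ x ^ (1 / (1000 * n) : ℝ) * (2000 * n) ^ 2 := by
      calc Real.log x ^ 2 ≤ (x ^ (1 / (2000 * n) : ℝ) * (2000 * n)) ^ 2 :=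
            pow_le_pow_left₀ hlog.le w2 2
        _ = (x ^ (1 / (2000 * n) : ℝ)) ^ 2 * (2000 * n) ^ 2 := by ring
        _ = _ := by
            rw [← Real.rpow_natCast, ← Real.rpow_mul hx0.le]
            congr 2
            push_cast
            field_simp
            norm_num
    have w4 : (2000 * n : ℝ) ^ 2 / Real.log x ^ 2 ≤ (2000 * n) ^ 2 / c₀ * Wp χ x := by
      calc (2000 * n : ℝ) ^ 2 / Real.log x ^ 2 = (2000 * n) ^ 2 / c₀ * (c₀ / Real.log x ^ 2) := by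
            field_simp
        _ ≤ _ := mul_le_mul_of_nonneg_left w1 (by positivity)
    refine le_trans ?_ w4
    rw [Real.rpow_neg hx0.le, le_div_iff₀ (by positivity), inv_mul_le_iff₀ (by positivity)]
    exact w3
  have hU : (1 : ℝ) ≤ ∏ p ∈ pr (2 * x), U p := by
    calc (1 : ℝ) = ∏ _p ∈ pr (2 * x), (1 : ℝ) := by rw [Finset.prod_const_one]
      _ ≤ _ := Finset.prod_le_prod (fun _ _ => zero_le_one) fun p hp =>
          H.gf.U1 p (Finset.mem_filter.1 hp).2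
  have hW0 : 0 ≤ Wp χ x := Wp_nonneg (qc_abs H.qc) x
  have s5 : x ^ (-(1 / (1000 * n)) : ℝ) * x ^ (-(1 / (1000 * n)) : ℝ) ≤
      L * ((2000 * n) ^ 2 / c₀ * Wp χ x) := by
    refine mul_le_mul H.Lx hW (by positivity) hL0.le
  calc 6 * D * h * (x ^ (-(1 / (1000 * n)) : ℝ) * x ^ (-(1 / (1000 * n)) : ℝ))
      ≤ 6 * D * h * (L * ((2000 * n) ^ 2 / c₀ * Wp χ x)) :=
        mul_le_mul_of_nonneg_left s5 (by positivity)
    _ = 6 * D * ((2000 * n) ^ 2 / c₀) * (L * h * Wp χ x) * 1 := by ring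
    _ ≤ 6 * D * ((2000 * n) ^ 2 / c₀) * (L * h * Wp χ x) * ∏ p ∈ pr (2 * x), U p :=
        mul_le_mul_of_nonneg_left hU (by positivity)
    _ = _ := by ring

end Vale.Agent.P007.S11.BC8

namespace Vale.Agent.P007.S11

/-- **[S4f-B]** -/
theorem classB : ClassBStmt := by
  classical
  intro n B hn hR hD
  have hN : (1 : ℝ) ≤ n := by exact_mod_cast hn
  obtain ⟨C, hC0, hC⟩ := BC8.core n B hn hD
  obtain ⟨X₀, hX⟩ := hR (1 / (4000 * n)) (by positivity)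
  refine ⟨C, max X₀ 2, hC0, ?_⟩
  intro x h Q L T χ g U H hx S hS hcl
  have hx2 : 2 ≤ x := (le_max_right _ _).trans hx
  have hx0 : (0 : ℝ) < x := by linarith
  have hh0 : (0 : ℝ) < h := lt_of_lt_of_le (Real.rpow_pos_of_pos hx0 _) H.xh
  set P : Finset ℕ := (Finset.range (⌊2 * x⌋₊ + 1)).filter fun b =>
    1 ≤ b ∧ x ^ (1 / 40 : ℝ) < (b : ℝ) ∧ (b : ℝ) ≤ 2 * x ∧ SmS T (Real.log x ^ 4) b with hP
  refine hC x h Q L T χ g U H hx2 P ?_ ?_ S hS ?_
  · intro b hb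
    obtain ⟨_, h1, h2, h3, _⟩ := Finset.mem_filter.1 hb
    exact ⟨h1, h2, h3⟩
  · refine hX T χ g U H.gf x ((le_max_left _ _).trans hx) H.card P ?_
    intro b hb
    obtain ⟨_, h1, _, h3, h4⟩ := Finset.mem_filter.1 hb
    exact ⟨h1, h3, h4⟩
  · intro m hm
    obtain ⟨b, c, e, co, b1, b2, b3, b4⟩ := hcl m hm
    have hm1 := Finset.mem_Ioc.1 (hS hm)
    have g1 : x < m := (Nat.floor_lt hx0.le).1 hm1.1
    have g2 : (m : ℝ) ≤ x + h := (Nat.le_floor_iff (by linarith)).1 hm1.2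
    have hbm : b ≤ m := by
      refine Nat.le_of_dvd ?_ (Dvd.intro _ e.symm)
      have : (0 : ℝ) < m := by linarith
      exact_mod_cast this
    have hb : (b : ℝ) ≤ 2 * x := by
      have : (b : ℝ) ≤ m := by exact_mod_cast hbm
      linarith [H.hx]
    refine ⟨b, ?_, c, e, co, b4⟩
    rw [hP, Finset.mem_filter, Finset.mem_range]
    exact ⟨Nat.lt_succ_of_le ((Nat.le_floor_iff (by linarith)).2 hb), b1, b2, hb, b3⟩

end Vale.Agent.P007.S11
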