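import Vale.Agent.P007.S11.ClassDa
import Vale.Agent.P007.S11.Wp

/-! # P007 / S11 : class B (helper384) -/

set_option autoImplicit false

namespace Vale.Agent.P007.S11

open Finset

namespace B384

/-- the number of points in `(a, a + t]` -/
theorem card_Ioc_le {a t : ℝ} (ha : 0 ≤ a) (ht : 0 ≤ t) :
    ((Finset.Ioc ⌊a⌋₊ ⌊a + t⌋₊).card : ℝ) ≤ t + 1 := by
  rw [Nat.card_Ioc, Nat.cast_sub (Nat.floor_le_floor (by linarith))]
  have h1 := Nat.floor_le (by linarith : 0 ≤ a + t)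
  have h2 := Nat.lt_floor_add_one a
  linarith

/-- the inner sum over the cofactors -/
theorem inner_le {g : ℕ → ℝ} {R : ℕ → Prop} [DecidablePred R] {CD ε x h : ℝ} (hCD : 0 < CD)
    (hε : 0 < ε) (hx : 0 < x) (hh : 0 ≤ h) (hhx : h ≤ x)
    (hD : ∀ c : ℕ, 1 ≤ c → R c → g c ≤ CD * (c : ℝ) ^ ε) {b : ℕ} (hb : 1 ≤ b) :
    ∑ c ∈ (Finset.Ioc ⌊x / b⌋₊ ⌊x / b + h / b⌋₊).filter R, g c ≤
      (h / b + 1) * (CD * (2 * x) ^ ε) := by
  have b1 : (1 : ℝ) ≤ b := by exact_mod_cast hb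
  have b0 : (0 : ℝ) < b := by linarith
  have hxb : 0 ≤ x / b := by positivity
  have hhb : 0 ≤ h / b := by positivity
  have K0 : 0 ≤ CD * (2 * x) ^ ε := by positivity
  have h1 : ∀ c ∈ (Finset.Ioc ⌊x / b⌋₊ ⌊x / b + h / b⌋₊).filter R,
      g c ≤ CD * (2 * x) ^ ε := by
    intro c hc
    obtain ⟨hc1, hRc⟩ := Finset.mem_filter.1 hc
    obtain ⟨hc2, hc3⟩ := Finset.mem_Ioc.1 hc1
    have hc4 : (c : ℝ) ≤ x / b + h / b := (Nat.le_floor_iff (by positivity)).1 hc3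
    have hc5 : (c : ℝ) ≤ 2 * x := by
      have e1 : x / b ≤ x := div_le_self hx.le b1
      have e2 : h / b ≤ h := div_le_self hh b1
      linarith
    refine (hD c (by omega) hRc).trans ?_
    exact mul_le_mul_of_nonneg_left (Real.rpow_le_rpow (Nat.cast_nonneg c) hc5 hε.le) hCD.le
  refine (Finset.sum_le_card_nsmul _ _ _ h1).trans ?_
  rw [nsmul_eq_mul]
  refine mul_le_mul_of_nonneg_right ?_ K0
  refine le_trans ?_ (card_Ioc_le hxb hhb)
  exact_mod_cast Finset.card_filter_le _ _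

/-- large `x` -/
theorem numB (δ : ℝ) (hδ : 0 < δ) : ∃ X₀ : ℝ, ∀ x : ℝ, X₀ ≤ x →
    2 ≤ x ∧ Real.log x ^ 2 ≤ x ^ δ := by
  have h1 := (isLittleO_log_rpow_rpow_atTop (s := δ) 2 hδ).bound (c := 1) one_pos
  obtain ⟨X₁, H1⟩ := Filter.eventually_atTop.1 h1
  refine ⟨max 2 X₁, fun x hx => ?_⟩
  have x2 : 2 ≤ x := (le_max_left _ _).trans hx
  have e1 := H1 x ((le_max_right _ _).trans hx)
  have l0 : 0 ≤ Real.log x := Real.log_nonneg (by linarith)
  have x0 : 0 < x := by linarith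
  rw [Real.norm_of_nonneg (Real.rpow_nonneg l0 _), Real.norm_of_nonneg (Real.rpow_nonneg x0.le _),
    one_mul] at e1
  refine ⟨x2, ?_⟩
  have e2 : Real.log x ^ (2 : ℝ) = Real.log x ^ 2 := by
    rw [← Real.rpow_natCast]
    norm_num
  rw [← e2]
  exact e1

/-- the sum over the large factors -/
theorem outer_le {g : ℕ → ℝ} (hg : ∀ m, 0 ≤ g m) {x h θ E : ℝ} (hx : 1 ≤ x) (hh : 0 ≤ h)
    (hθ : 0 < θ) (hθ1 : θ ≤ 1) (P : Finset ℕ)
    (hP : ∀ b ∈ P, 1 ≤ b ∧ x ^ (1 / 40 : ℝ) < (b : ℝ) ∧ (b : ℝ) ≤ 2 * x)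
    (hE : ∑ b ∈ P, g b / (b : ℝ) ^ (1 - θ) ≤ E) :
    ∑ b ∈ P, g b * (h / b + 1) ≤ E * (h * x ^ (-(θ / 40)) + 2 * x ^ (1 - θ)) := by
  have x0 : 0 < x := by linarith
  have K0 : 0 ≤ h * x ^ (-(θ / 40)) + 2 * x ^ (1 - θ) := by positivity
  refine le_trans ?_ (mul_le_mul_of_nonneg_right hE K0)
  rw [Finset.sum_mul]
  refine Finset.sum_le_sum fun b hb => ?_
  obtain ⟨hb1, hb2, hb3⟩ := hP b hb
  have b1 : (1 : ℝ) ≤ b := by exact_mod_cast hb1
  have b0 : (0 : ℝ) < b := by linarith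
  have pb : 0 < (b : ℝ) ^ (1 - θ) := by positivity
  have e1 : h / b + 1 ≤ (h * x ^ (-(θ / 40)) + 2 * x ^ (1 - θ)) / (b : ℝ) ^ (1 - θ) := by
    rw [le_div_iff₀ pb]
    have e2 : h / b * (b : ℝ) ^ (1 - θ) ≤ h * x ^ (-(θ / 40)) := by
      have e3 : h / b * (b : ℝ) ^ (1 - θ) = h * (b : ℝ) ^ (-θ) := by
        rw [show (1 - θ : ℝ) = 1 + (-θ) by ring, Real.rpow_add b0, Real.rpow_one]
        field_simp
      rw [e3]
      refine mul_le_mul_of_nonneg_left ?_ hh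
      have e4 : x ^ (-(θ / 40)) = (x ^ (1 / 40 : ℝ)) ^ (-θ) := by
        rw [← Real.rpow_mul x0.le]
        congr 1
        ring
      rw [e4]
      exact Real.rpow_le_rpow_of_nonpos (Real.rpow_pos_of_pos x0 _) hb2.le (by linarith)
    have e5 : (b : ℝ) ^ (1 - θ) ≤ 2 * x ^ (1 - θ) := by
      calc (b : ℝ) ^ (1 - θ) ≤ (2 * x) ^ (1 - θ) :=
            Real.rpow_le_rpow b0.le hb3 (by linarith)
        _ = 2 ^ (1 - θ) * x ^ (1 - θ) := Real.mul_rpow (by norm_num) x0.le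
        _ ≤ 2 * x ^ (1 - θ) := by
            refine mul_le_mul_of_nonneg_right ?_ (Real.rpow_nonneg x0.le _)
            calc (2 : ℝ) ^ (1 - θ) ≤ 2 ^ (1 : ℝ) :=
                  Real.rpow_le_rpow_of_exponent_le (by norm_num) (by linarith)
              _ = 2 := Real.rpow_one 2
    rw [add_mul, one_mul]
    linarith
  calc g b * (h / b + 1) ≤ g b * ((h * x ^ (-(θ / 40)) + 2 * x ^ (1 - θ)) / (b : ℝ) ^ (1 - θ)) :=
        mul_le_mul_of_nonneg_left e1 (hg b)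
    _ = _ := by ring

/-- the comparison of the exponents; `u = 1 / n` -/
theorem expo {x h L W c CD u : ℝ} (hx : 2 ≤ x) (hu : 0 < u) (hu1 : u ≤ 1) (hc : 0 < c)
    (hCD : 0 < CD)
    (hlog : Real.log x ^ 2 ≤ x ^ (u * (13 / 10000)))
    (hL : x ^ (-(u / 1000)) ≤ L) (hh : x ^ (1 - u / 1000) ≤ h)
    (hW : c / Real.log x ^ 2 ≤ W) :
    CD * (2 * x) ^ (u / 10000) * (x ^ (u / 10000) *
      (h * x ^ (-(u / 10 / 40)) + 2 * x ^ (1 - u / 10))) ≤ 6 * CD / c * (L * h * W) := by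
  have x0 : 0 < x := by linarith
  have x1 : 1 ≤ x := by linarith
  have lx : 0 < Real.log x := Real.log_pos (by linarith)
  have h0 : 0 < h := (Real.rpow_pos_of_pos x0 _).trans_le hh
  have e1 : x ^ (1 - u / 10) ≤ h * x ^ (-(u / 10 / 40)) := by
    calc x ^ (1 - u / 10) ≤ x ^ ((1 - u / 1000) + (-(u / 10 / 40))) :=
          Real.rpow_le_rpow_of_exponent_le x1 (by linarith)
      _ = x ^ (1 - u / 1000) * x ^ (-(u / 10 / 40)) := Real.rpow_add x0 _ _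
      _ ≤ h * x ^ (-(u / 10 / 40)) := mul_le_mul_of_nonneg_right hh (Real.rpow_nonneg x0.le _)
  have e2 : (2 * x) ^ (u / 10000) ≤ 2 * x ^ (u / 10000) := by
    rw [Real.mul_rpow (by norm_num) x0.le]
    refine mul_le_mul_of_nonneg_right ?_ (Real.rpow_nonneg x0.le _)
    calc (2 : ℝ) ^ (u / 10000) ≤ 2 ^ (1 : ℝ) :=
          Real.rpow_le_rpow_of_exponent_le (by norm_num) (by linarith)
      _ = 2 := Real.rpow_one 2
  have e3 : CD * (2 * x) ^ (u / 10000) * (x ^ (u / 10000) *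
      (h * x ^ (-(u / 10 / 40)) + 2 * x ^ (1 - u / 10))) ≤
      CD * (2 * x ^ (u / 10000)) * (x ^ (u / 10000) * (3 * (h * x ^ (-(u / 10 / 40))))) := by
    have e4 : h * x ^ (-(u / 10 / 40)) + 2 * x ^ (1 - u / 10) ≤ 3 * (h * x ^ (-(u / 10 / 40))) := by
      linarith
    gcongr
  have e5 : CD * (2 * x ^ (u / 10000)) * (x ^ (u / 10000) * (3 * (h * x ^ (-(u / 10 / 40))))) =
      6 * CD * h * x ^ (-(u * (23 / 10000))) := by
    have e6 : x ^ (-(u * (23 / 10000))) =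
        x ^ (u / 10000) * x ^ (u / 10000) * x ^ (-(u / 10 / 40)) := by
      rw [← Real.rpow_add x0, ← Real.rpow_add x0]
      congr 1
      ring
    rw [e6]
    ring
  refine e3.trans ?_
  rw [e5]
  have e7 : x ^ (-(u * (23 / 10000))) ≤ x ^ (-(u / 1000)) * (1 / Real.log x ^ 2) := by
    have e8 : x ^ (-(u * (23 / 10000))) = x ^ (-(u / 1000)) * (x ^ (u * (13 / 10000)))⁻¹ := by
      rw [← Real.rpow_neg x0.le, ← Real.rpow_add x0]
      congr 1
      ring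
    rw [e8, one_div]
    refine mul_le_mul_of_nonneg_left ?_ (Real.rpow_nonneg x0.le _)
    exact inv_anti₀ (by positivity) hlog
  have e9 : x ^ (-(u / 1000)) * (c / Real.log x ^ 2) ≤ L * W :=
    mul_le_mul hL hW (by positivity) ((Real.rpow_nonneg x0.le _).trans hL)
  calc 6 * CD * h * x ^ (-(u * (23 / 10000))) ≤
        6 * CD * h * (x ^ (-(u / 1000)) * (1 / Real.log x ^ 2)) :=
        mul_le_mul_of_nonneg_left e7 (by positivity)
    _ = 6 * CD / c * h * (x ^ (-(u / 1000)) * (c / Real.log x ^ 2)) := by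
        field_simp
    _ ≤ 6 * CD / c * h * (L * W) := mul_le_mul_of_nonneg_left e9 (by positivity)
    _ = _ := by ring

end B384

open Classical in
/-- **class B** -/
theorem classB : ClassBStmt := by
  obtain ⟨cw, hcw, hWl⟩ := Wp_lower
  intro n B hn hRk hDv
  have hn1 : (1 : ℝ) ≤ n := by exact_mod_cast hn
  have hn0 : (0 : ℝ) < n := by linarith
  set u : ℝ := 1 / n with hu
  have u0 : 0 < u := by positivity
  have u1 : u ≤ 1 := by
    rw [hu, div_le_one hn0]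
    exact hn1
  obtain ⟨X₁, HX⟩ := B384.numB (u * (13 / 10000)) (by positivity)
  obtain ⟨X₂, HR⟩ := hRk (u / 10000) (by positivity)
  obtain ⟨CD, hCD, HD⟩ := hDv (u / 10000) (by positivity)
  refine ⟨6 * CD / cw, max X₁ X₂, by positivity, ?_⟩
  intro x h Q L T χ g U H hx S hS hB
  obtain ⟨x2, hlog⟩ := HX x ((le_max_left _ _).trans hx)
  have xR : X₂ ≤ x := (le_max_right _ _).trans hx
  have x0 : 0 < x := by linarith
  have x1 : 1 ≤ x := by linarith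
  have hχ : ∀ m, |χ m| ≤ 1 := by
    intro m
    rcases H.qc.val m with e | e | e <;> rw [e] <;> norm_num
  have a1 : (1 - 1 / (1000 * n) : ℝ) = 1 - u / 1000 := by rw [hu]; field_simp
  have a2 : (-(1 / (1000 * n)) : ℝ) = -(u / 1000) := by rw [hu]; field_simp
  have a3 : (1 - 1 / (10 * n) : ℝ) = 1 - u / 10 := by rw [hu]; field_simp
  have hLx := H.Lx
  have hxh := H.xh
  rw [a2] at hLx
  rw [a1] at hxh
  have hL : 0 ≤ L := (Real.rpow_nonneg x0.le _).trans hLx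
  have hh : 0 ≤ h := (Real.rpow_nonneg x0.le _).trans hxh
  have hWx := hWl χ hχ x x2
  have hWp : 0 ≤ Wp χ x := Wp_nonneg hχ x
  have hP1 : 1 ≤ ∏ p ∈ pr (2 * x), U p := by
    calc (1 : ℝ) = ∏ _p ∈ pr (2 * x), (1 : ℝ) := Finset.prod_const_one.symm
      _ ≤ ∏ p ∈ pr (2 * x), U p := Finset.prod_le_prod (fun _ _ => zero_le_one)
          fun p hp => H.gf.U1 p (Finset.mem_filter.1 hp).2
  set P : Finset ℕ := (Finset.Icc 1 ⌊2 * x⌋₊).filter fun b =>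
    x ^ (1 / 40 : ℝ) < (b : ℝ) ∧ SmS T (Real.log x ^ 4) b with hPdef
  have hPb : ∀ b ∈ P, 1 ≤ b ∧ x ^ (1 / 40 : ℝ) < (b : ℝ) ∧ (b : ℝ) ≤ 2 * x := by
    intro b hb
    obtain ⟨hb1, hb2, hb3⟩ := Finset.mem_filter.1 hb
    obtain ⟨hb4, hb5⟩ := Finset.mem_Icc.1 hb1
    exact ⟨hb4, hb2, (Nat.le_floor_iff (by positivity)).1 hb5⟩
  have s1 : ∑ m ∈ S, g m ≤ ∑ b ∈ P, g b *
      ∑ c ∈ (Finset.Ioc ⌊x / b⌋₊ ⌊x / b + h / b⌋₊).filter
        (fun c => ∀ p : ℕ, p.Prime → p ∣ c → p ∉ T), g c := by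
    refine D8.pairD H.gf.nonneg H.gf.sub x0.le hh S P hS _ (fun b hb => (hPb b hb).1) ?_
    intro m hm
    obtain ⟨b, c, e, co, b1, b2, b3, b4⟩ := hB m hm
    refine ⟨b, c, Finset.mem_filter.2 ⟨Finset.mem_Icc.2 ⟨b1, ?_⟩, b2, b3⟩, e, co, b4⟩
    obtain ⟨m1, m2⟩ := Finset.mem_Ioc.1 (hS hm)
    have m3 : ⌊x + h⌋₊ ≤ ⌊2 * x⌋₊ := Nat.floor_le_floor (by linarith [H.hx])
    have c1 : 1 ≤ c := by
      rcases Nat.eq_zero_or_pos c with c0 | c0
      · rw [c0, mul_zero] at e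
        omega
      · exact c0
    have c2 : b ≤ m := by
      rw [e]
      exact Nat.le_mul_of_pos_right b c1
    omega
  have s2 : ∑ b ∈ P, g b *
      ∑ c ∈ (Finset.Ioc ⌊x / b⌋₊ ⌊x / b + h / b⌋₊).filter
        (fun c => ∀ p : ℕ, p.Prime → p ∣ c → p ∉ T), g c ≤
      CD * (2 * x) ^ (u / 10000) * ∑ b ∈ P, g b * (h / b + 1) := by
    rw [Finset.mul_sum]
    refine Finset.sum_le_sum fun b hb => ?_
    calc g b * ∑ c ∈ (Finset.Ioc ⌊x / b⌋₊ ⌊x / b + h / b⌋₊).filter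
            (fun c => ∀ p : ℕ, p.Prime → p ∣ c → p ∉ T), g c ≤
          g b * ((h / b + 1) * (CD * (2 * x) ^ (u / 10000))) := by
          refine mul_le_mul_of_nonneg_left ?_ (H.gf.nonneg b)
          exact B384.inner_le hCD (by positivity) x0 hh H.hx
            (fun c hc hRc => HD Q B T χ g U H.qc H.gf c hc hRc) (hPb b hb).1
      _ = _ := by ring
  have s3 : ∑ b ∈ P, g b / (b : ℝ) ^ (1 - u / 10) ≤ x ^ (u / 10000) := by
    have := HR T χ g U H.gf x xR H.card P (fun b hb => ⟨(hPb b hb).1, (hPb b hb).2.2,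
      (Finset.mem_filter.1 hb).2.2⟩)
    rwa [a3] at this
  have s4 := B384.outer_le H.gf.nonneg x1 hh (θ := u / 10) (by positivity) (by linarith) P hPb s3
  have s5 := B384.expo x2 u0 u1 hcw hCD hlog hLx hxh hWx
  have s6 : 0 ≤ 6 * CD / cw * (L * h * Wp χ x) := by positivity
  calc ∑ m ∈ S, g m ≤ CD * (2 * x) ^ (u / 10000) * ∑ b ∈ P, g b * (h / b + 1) := s1.trans s2
    _ ≤ CD * (2 * x) ^ (u / 10000) * (x ^ (u / 10000) *
        (h * x ^ (-(u / 10 / 40)) + 2 * x ^ (1 - u / 10))) :=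
        mul_le_mul_of_nonneg_left s4 (by positivity)
    _ ≤ 6 * CD / cw * (L * h * Wp χ x) := s5
    _ = 6 * CD / cw * (L * h * Wp χ x) * 1 := (mul_one _).symm
    _ ≤ 6 * CD / cw * (L * h * Wp χ x) * ∏ p ∈ pr (2 * x), U p :=
        mul_le_mul_of_nonneg_left hP1 s6
    _ = _ := by ring

end Vale.Agent.P007.S11
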