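import Vale.Agent.P007.S11.ClassDa

/-! # P007 / S11 : class D (helper812) -/

set_option autoImplicit false

namespace Vale.Agent.P007.S11

open Finset

/-- [S4w] ratio of the products -/
def WpRatio : Prop := ∃ C : ℝ, 0 < C ∧ ∀ χ : ℕ → ℝ, (∀ m, |χ m| ≤ 1) → ∀ y x : ℝ, 2 ≤ y → y ≤ x →
  Wp χ y ≤ C * (Real.log x / Real.log y) ^ 2 * Wp χ x

/-- [S4w] lower bound -/
def WpLower : Prop := ∃ c : ℝ, 0 < c ∧ ∀ χ : ℕ → ℝ, (∀ m, |χ m| ≤ 1) → ∀ x : ℝ, 2 ≤ x →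
  c / Real.log x ^ 2 ≤ Wp χ x

namespace D8

theorem numX (c : ℝ) (hc : 0 < c) : ∃ X₀ : ℝ, ∀ x : ℝ, X₀ ≤ x →
    16 ≤ x ∧ 4 ≤ Real.log x ∧
    √3 * (1 + Real.log x) * x ^ (15 / 16 : ℝ) * Real.log x ^ 2 ≤ c * x ^ (499 / 500 : ℝ) := by
  have h1 := (isLittleO_log_rpow_rpow_atTop (s := (1 / 20 : ℝ)) 3 (by norm_num)).bound
    (c := c / 4) (by positivity)
  have h2 := Real.tendsto_log_atTop.eventually_ge_atTop 4
  obtain ⟨X₁, H1⟩ := Filter.eventually_atTop.1 h1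
  obtain ⟨X₂, H2⟩ := Filter.eventually_atTop.1 h2
  refine ⟨max 16 (max X₁ X₂), fun x hx => ?_⟩
  have x16 : 16 ≤ x := (le_max_left _ _).trans hx
  have x1 : X₁ ≤ x := (le_max_left _ _).trans ((le_max_right _ _).trans hx)
  have x2 : X₂ ≤ x := (le_max_right _ _).trans ((le_max_right _ _).trans hx)
  have l4 : 4 ≤ Real.log x := H2 x x2
  refine ⟨x16, l4, ?_⟩
  have x0 : 0 < x := by linarith
  have e1 := H1 x x1
  have l0 : 0 ≤ Real.log x := by linarith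
  rw [Real.norm_of_nonneg (Real.rpow_nonneg l0 _), Real.norm_of_nonneg (Real.rpow_nonneg x0.le _)] at e1
  have e2 : Real.log x ^ (3 : ℝ) = Real.log x ^ 3 := by
    rw [← Real.rpow_natCast]
    norm_num
  rw [e2] at e1
  have s3 : √3 ≤ 2 := by
    rw [Real.sqrt_le_left (by norm_num)]
    norm_num
  have e3 : √3 * (1 + Real.log x) * Real.log x ^ 2 ≤ 4 * Real.log x ^ 3 := by
    have h3 : √3 * (1 + Real.log x) ≤ 2 * (2 * Real.log x) :=
      mul_le_mul s3 (by linarith) (by linarith) (by norm_num)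
    calc √3 * (1 + Real.log x) * Real.log x ^ 2 ≤ 2 * (2 * Real.log x) * Real.log x ^ 2 :=
          mul_le_mul_of_nonneg_right h3 (by positivity)
      _ = _ := by ring
  have e4 : √3 * (1 + Real.log x) * Real.log x ^ 2 ≤ c * x ^ (1 / 20 : ℝ) := by linarith
  calc √3 * (1 + Real.log x) * x ^ (15 / 16 : ℝ) * Real.log x ^ 2 =
      (√3 * (1 + Real.log x) * Real.log x ^ 2) * x ^ (15 / 16 : ℝ) := by ring
    _ ≤ (c * x ^ (1 / 20 : ℝ)) * x ^ (15 / 16 : ℝ) :=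
        mul_le_mul_of_nonneg_right e4 (Real.rpow_nonneg x0.le _)
    _ = c * (x ^ (1 / 20 : ℝ) * x ^ (15 / 16 : ℝ)) := by ring
    _ = c * x ^ (1 / 20 + 15 / 16 : ℝ) := by rw [Real.rpow_add x0]
    _ ≤ c * x ^ (499 / 500 : ℝ) := by
        refine mul_le_mul_of_nonneg_left (Real.rpow_le_rpow_of_exponent_le (by linarith) ?_) hc.le
        norm_num

/-- the part of the error term that does not depend on `i`, `b` -/
noncomputable def Er (x Q : ℝ) : ℝ := x ^ (1 / 80 : ℝ) * (1 + Real.log Q) * √(3 * x * Q) * x ^ (1 / 40 : ℝ)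

section

variable {n : ℕ} {B x h Q L : ℝ} {T : Finset ℕ} {χ g U : ℕ → ℝ}

theorem logs (hx : 16 ≤ x) (hl : 4 ≤ Real.log x) {i : ℕ} (hi : 1 ≤ i)
    (hil : Real.log x ^ 4 ≤ x ^ (1 / i : ℝ)) :
    ((i : ℝ) + 1) * (4 * Real.log 2) ≤ Real.log x := by
  have x0 : 0 < x := by linarith
  have i0 : (0 : ℝ) < i := by exact_mod_cast hi
  have i1 : (1 : ℝ) ≤ i := by exact_mod_cast hi
  have h1 : Real.log (Real.log x ^ 4) ≤ Real.log (x ^ (1 / i : ℝ)) :=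
    Real.log_le_log (by positivity) hil
  rw [Real.log_rpow x0, Real.log_pow] at h1
  have h2 : Real.log 4 ≤ Real.log (Real.log x) := Real.log_le_log (by norm_num) hl
  have h3 : Real.log 4 = 2 * Real.log 2 := by
    rw [show (4 : ℝ) = 2 ^ 2 by norm_num, Real.log_pow]
    norm_num
  have l2 : 0 < Real.log 2 := Real.log_pos (by norm_num)
  have h4 : 8 * Real.log 2 ≤ 1 / i * Real.log x := by
    push_cast at h1
    linarith
  have h5 : 8 * Real.log 2 * i ≤ Real.log x := by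
    have := mul_le_mul_of_nonneg_right h4 i0.le
    calc 8 * Real.log 2 * i ≤ 1 / i * Real.log x * i := this
      _ = Real.log x := by field_simp
  nlinarith

open Classical in
/-- the inner sum -/
theorem inner (H : SH n B x h Q L T χ g U) {C C₁ κ₁ Cw : ℝ} (hC : 0 < C) (hC₁ : 1 ≤ C₁)
    (hRo : RoughB n C C₁) (hCk : C₁ * κ₁ ≤ 1 / 80) (hCw : 0 < Cw)
    (hW : ∀ y : ℝ, 2 ≤ y → y ≤ x → Wp χ y ≤ Cw * (Real.log x / Real.log y) ^ 2 * Wp χ x)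
    (hx : 16 ≤ x) (hl : 4 ≤ Real.log x) {i : ℕ} (hi : 1 ≤ i) (hik : (1 : ℝ) / (i + 1) < κ₁)
    (hil : Real.log x ^ 4 ≤ x ^ (1 / i : ℝ)) (hL : 0 ≤ L) (hh : 0 ≤ h) (hWp : 0 ≤ Wp χ x)
    {b : ℕ} (hb : 1 ≤ b) (hb2 : (b : ℝ) ≤ x ^ (1 / 20 : ℝ)) :
    ∑ c ∈ (Finset.Ioc ⌊x / b⌋₊ ⌊x / b + h / b⌋₊).filter (fun c => RoS T (x ^ (1 / (i + 1) : ℝ)) c),
      g c ≤ (2 : ℝ) ^ ((n : ℝ) * ((i : ℝ) + 2)) * ((i : ℝ) + 1) ^ 2 *
        (C * (L * h * Cw * Wp χ x + Er x Q)) * (1 / b) := by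
  have x0 : 0 < x := by linarith
  have x1 : 1 ≤ x := by linarith
  have i0 : (0 : ℝ) ≤ i := Nat.cast_nonneg i
  have ip : (0 : ℝ) < (i : ℝ) + 1 := by linarith
  have b0 : (0 : ℝ) < b := by exact_mod_cast hb
  have b1 : (1 : ℝ) ≤ b := by exact_mod_cast hb
  have l2 : 0 < Real.log 2 := Real.log_pos (by norm_num)
  have key := logs hx hl hi hil
  set y : ℝ := x ^ (1 / (i + 1) : ℝ) with hy
  have ly : Real.log y = Real.log x / (i + 1) := by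
    rw [hy, Real.log_rpow x0]
    ring
  have y0 : 0 < y := Real.rpow_pos_of_pos x0 _
  have ly4 : 4 * Real.log 2 ≤ Real.log y := by
    rw [ly, le_div_iff₀ ip]
    linarith
  have y2 : 2 ≤ y := by
    refine (Real.log_le_log_iff (by norm_num) y0).1 ?_
    linarith
  have yx : y ≤ x := by
    calc y ≤ x ^ (1 : ℝ) := by
          refine Real.rpow_le_rpow_of_exponent_le x1 ?_
          rw [div_le_one ip]
          linarith
      _ = x := Real.rpow_one x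
  have bx : (b : ℝ) ≤ x := by
    refine hb2.trans ?_
    calc x ^ (1 / 20 : ℝ) ≤ x ^ (1 : ℝ) := Real.rpow_le_rpow_of_exponent_le x1 (by norm_num)
      _ = x := Real.rpow_one x
  have hQ1 : 1 ≤ Q := H.qc.Q1
  have lQ : 0 ≤ Real.log Q := Real.log_nonneg hQ1
  have hhx := H.hx
  have uv : x / b + h / b ≤ 2 * x := by
    rw [← add_div, div_le_iff₀ b0]
    nlinarith
  have main := hRo Q L B T χ g U H.qc H.isL hL H.gf y (x / b) (h / b) (2 * x) y2 (by positivity)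
    (by positivity) uv (by linarith)
  refine main.trans ?_
  -- the exponent
  have ex : (n : ℝ) * (Real.log (2 * x) / Real.log y) ≤ (n : ℝ) * ((i : ℝ) + 2) := by
    refine mul_le_mul_of_nonneg_left ?_ (Nat.cast_nonneg n)
    rw [div_le_iff₀ (by linarith), Real.log_mul (by norm_num) x0.ne', ly]
    have h1 : Real.log 2 ≤ Real.log x / (i + 1) := by
      rw [le_div_iff₀ ip]
      nlinarith
    have h2 : ((i : ℝ) + 2) * (Real.log x / (i + 1)) = Real.log x + Real.log x / (i + 1) := by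
      field_simp
      ring
    rw [h2]
    linarith
  have p1 : (2 : ℝ) ^ ((n : ℝ) * (Real.log (2 * x) / Real.log y)) ≤ (2 : ℝ) ^ ((n : ℝ) * ((i : ℝ) + 2)) :=
    Real.rpow_le_rpow_of_exponent_le (by norm_num) ex
  -- main term
  have lr : Real.log x / Real.log y = (i : ℝ) + 1 := by
    rw [ly]
    have : Real.log x ≠ 0 := by linarith
    field_simp
  have w1 : Wp χ y ≤ Cw * ((i : ℝ) + 1) ^ 2 * Wp χ x := by
    have := hW y y2 yx
    rwa [lr] at this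
  have t1 : C * L * (h / b) * Wp χ y ≤ ((i : ℝ) + 1) ^ 2 * (C * (L * h * Cw * Wp χ x)) * (1 / b) := by
    calc C * L * (h / b) * Wp χ y ≤ C * L * (h / b) * (Cw * ((i : ℝ) + 1) ^ 2 * Wp χ x) :=
          mul_le_mul_of_nonneg_left w1 (by positivity)
      _ = _ := by ring
  -- error term
  have yc : y ^ C₁ ≤ x ^ (1 / 80 : ℝ) := by
    rw [hy, ← Real.rpow_mul x0.le]
    refine Real.rpow_le_rpow_of_exponent_le x1 ?_
    have h1 : (1 / ((i : ℝ) + 1)) * C₁ ≤ κ₁ * C₁ := mul_le_mul_of_nonneg_right hik.le (by linarith)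
    linarith
  have sq : √(Q * (x / b + h / b + 1)) ≤ √(3 * x * Q) * (x ^ (1 / 40 : ℝ) * (1 / b)) := by
    refine Real.sqrt_le_iff.2 ⟨by positivity, ?_⟩
    have e1 : (√(3 * x * Q) * (x ^ (1 / 40 : ℝ) * (1 / b))) ^ 2 =
        3 * x * Q * (x ^ (1 / 20 : ℝ)) * (1 / b) ^ 2 := by
      have h1 : √(3 * x * Q) ^ 2 = 3 * x * Q := Real.sq_sqrt (by positivity)
      have h2 : (x ^ (1 / 40 : ℝ)) ^ 2 = x ^ (1 / 20 : ℝ) := by
        rw [← Real.rpow_natCast, ← Real.rpow_mul x0.le]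
        norm_num
      calc (√(3 * x * Q) * (x ^ (1 / 40 : ℝ) * (1 / b))) ^ 2 =
          √(3 * x * Q) ^ 2 * (x ^ (1 / 40 : ℝ)) ^ 2 * (1 / b) ^ 2 := by ring
        _ = _ := by rw [h1, h2]
    rw [e1]
    have e2 : x / b + h / b + 1 ≤ 3 * x / b := by
      rw [← add_div, div_add_one b0.ne', div_le_div_iff_of_pos_right b0]
      linarith
    have e3 : 3 * x / (b : ℝ) = 3 * x * b * (1 / b) ^ 2 := by
      field_simp
    calc Q * (x / b + h / b + 1) ≤ Q * (3 * x / b) := mul_le_mul_of_nonneg_left e2 (by linarith)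
      _ = 3 * x * Q * b * (1 / b) ^ 2 := by rw [e3]; ring
      _ ≤ 3 * x * Q * (x ^ (1 / 20 : ℝ)) * (1 / b) ^ 2 := by gcongr
  have t2 : C * y ^ C₁ * (1 + Real.log Q) * √(Q * (x / b + h / b + 1)) ≤ C * Er x Q * (1 / b) := by
    have h1 : C * y ^ C₁ * (1 + Real.log Q) ≤ C * x ^ (1 / 80 : ℝ) * (1 + Real.log Q) := by gcongr
    have h0 : 0 ≤ C * x ^ (1 / 80 : ℝ) * (1 + Real.log Q) := by positivity
    calc C * y ^ C₁ * (1 + Real.log Q) * √(Q * (x / b + h / b + 1)) ≤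
        C * x ^ (1 / 80 : ℝ) * (1 + Real.log Q) * (√(3 * x * Q) * (x ^ (1 / 40 : ℝ) * (1 / b))) :=
          mul_le_mul h1 sq (Real.sqrt_nonneg _) h0
      _ = _ := by unfold Er; ring
  have er0 : 0 ≤ Er x Q := by unfold Er; positivity
  have ii : (1 : ℝ) ≤ ((i : ℝ) + 1) ^ 2 := by nlinarith
  have t3 : C * Er x Q * (1 / b) ≤ ((i : ℝ) + 1) ^ 2 * (C * Er x Q) * (1 / b) := by
    have : 0 ≤ C * Er x Q * (1 / (b : ℝ)) := by positivity
    calc C * Er x Q * (1 / b) = 1 * (C * Er x Q * (1 / b)) := by ring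
      _ ≤ ((i : ℝ) + 1) ^ 2 * (C * Er x Q * (1 / b)) := mul_le_mul_of_nonneg_right ii this
      _ = _ := by ring
  have s1 : C * L * (h / b) * Wp χ y + C * y ^ C₁ * (1 + Real.log Q) * √(Q * (x / b + h / b + 1)) ≤
      ((i : ℝ) + 1) ^ 2 * (C * (L * h * Cw * Wp χ x + Er x Q)) * (1 / b) := by
    have : ((i : ℝ) + 1) ^ 2 * (C * (L * h * Cw * Wp χ x + Er x Q)) * (1 / b) =
        ((i : ℝ) + 1) ^ 2 * (C * (L * h * Cw * Wp χ x)) * (1 / b) +
        ((i : ℝ) + 1) ^ 2 * (C * Er x Q) * (1 / b) := by ring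
    rw [this]
    linarith
  have s0 : 0 ≤ ((i : ℝ) + 1) ^ 2 * (C * (L * h * Cw * Wp χ x + Er x Q)) * (1 / b) := by positivity
  calc _ ≤ (2 : ℝ) ^ ((n : ℝ) * (Real.log (2 * x) / Real.log y)) *
        (((i : ℝ) + 1) ^ 2 * (C * (L * h * Cw * Wp χ x + Er x Q)) * (1 / b)) :=
        mul_le_mul_of_nonneg_left s1 (by positivity)
    _ ≤ (2 : ℝ) ^ ((n : ℝ) * ((i : ℝ) + 2)) *
        (((i : ℝ) + 1) ^ 2 * (C * (L * h * Cw * Wp χ x + Er x Q)) * (1 / b)) :=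
        mul_le_mul_of_nonneg_right p1 s0
    _ = _ := by ring

open Classical in
/-- the `m` of one index `i` -/
theorem perI (H : SH n B x h Q L T χ g U) {C C₁ κ₁ Cw CR : ℝ} (hC : 0 < C) (hC₁ : 1 ≤ C₁)
    (hRo : RoughB n C C₁) (hCk : C₁ * κ₁ ≤ 1 / 80) (hCw : 0 < Cw) (hCR : 0 < CR)
    (hW : ∀ y : ℝ, 2 ≤ y → y ≤ x → Wp χ y ≤ Cw * (Real.log x / Real.log y) ^ 2 * Wp χ x)
    (hRk : ∀ y M : ℝ, Real.log x ^ 4 ≤ y → y ≤ x → 1 ≤ M → ∀ S : Finset ℕ,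
      (∀ b ∈ S, M ≤ (b : ℝ) ∧ (b : ℝ) ≤ 2 * x ∧ SmS T y b) →
      ∑ b ∈ S, g b / (b : ℝ) ≤
        CR * Real.exp (-(40 * (2 * (n : ℝ) + 4)) * Real.log M / Real.log y) * ∏ p ∈ pr (2 * x), U p)
    (hx : 16 ≤ x) (hl : 4 ≤ Real.log x) {i : ℕ} (hi : 1 ≤ i) (hik : (1 : ℝ) / (i + 1) < κ₁)
    (hil : Real.log x ^ 4 ≤ x ^ (1 / i : ℝ)) (hL : 0 ≤ L) (hh : 0 ≤ h) (hWp : 0 ≤ Wp χ x)
    (S : Finset ℕ) (hS : S ⊆ Finset.Ioc ⌊x⌋₊ ⌊x + h⌋₊)
    (hdec : ∀ m ∈ S, ∃ b c : ℕ, m = b * c ∧ b.Coprime c ∧ x ^ (1 / 40 : ℝ) < (b : ℝ) ∧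
      (b : ℝ) ≤ x ^ (1 / 20 : ℝ) ∧ SmS T (x ^ (1 / i : ℝ)) b ∧ RoS T (x ^ (1 / (i + 1) : ℝ)) c) :
    ∑ m ∈ S, g m ≤ Real.exp (2 * n) * Real.exp (-(i : ℝ)) *
      (C * CR * (L * h * Cw * Wp χ x + Er x Q) * ∏ p ∈ pr (2 * x), U p) := by
  have x0 : 0 < x := by linarith
  have x1 : 1 ≤ x := by linarith
  have i0 : (0 : ℝ) < i := by exact_mod_cast hi
  have i1 : (1 : ℝ) ≤ i := by exact_mod_cast hi
  have hQ1 : 1 ≤ Q := H.qc.Q1
  have lQ : 0 ≤ Real.log Q := Real.log_nonneg hQ1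
  have er0 : 0 ≤ Er x Q := by unfold Er; positivity
  have hP0 : 0 ≤ ∏ p ∈ pr (2 * x), U p := by
    refine Finset.prod_nonneg fun p hp => ?_
    have := H.gf.U1 p (Finset.mem_filter.1 hp).2
    linarith
  have x40 : (1 : ℝ) ≤ x ^ (1 / 40 : ℝ) := Real.one_le_rpow x1 (by norm_num)
  have x20 : x ^ (1 / 20 : ℝ) ≤ x := by
    calc x ^ (1 / 20 : ℝ) ≤ x ^ (1 : ℝ) := Real.rpow_le_rpow_of_exponent_le x1 (by norm_num)
      _ = x := Real.rpow_one x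
  set P : Finset ℕ := (Finset.range (⌊x ^ (1 / 20 : ℝ)⌋₊ + 1)).filter fun b =>
    x ^ (1 / 40 : ℝ) < (b : ℝ) ∧ (b : ℝ) ≤ x ^ (1 / 20 : ℝ) ∧ SmS T (x ^ (1 / i : ℝ)) b with hPdef
  have hPm : ∀ b ∈ P, x ^ (1 / 40 : ℝ) < (b : ℝ) ∧ (b : ℝ) ≤ x ^ (1 / 20 : ℝ) ∧
      SmS T (x ^ (1 / i : ℝ)) b := fun b hb => (Finset.mem_filter.1 hb).2
  have hP1 : ∀ b ∈ P, 1 ≤ b := by
    intro b hb
    have h1 := (hPm b hb).1
    have h2 : (0 : ℝ) < b := by linarith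
    have h3 : 0 < b := by exact_mod_cast h2
    omega
  have h1 := pairD H.gf.nonneg H.gf.sub x0.le hh S P hS (fun c => RoS T (x ^ (1 / (i + 1) : ℝ)) c) hP1
    (by
      intro m hm
      obtain ⟨b, c, e, co, g1, g2, g3, g4⟩ := hdec m hm
      refine ⟨b, c, Finset.mem_filter.2 ⟨?_, g1, g2, g3⟩, e, co, g4⟩
      rw [Finset.mem_range]
      exact Nat.lt_succ_of_le (Nat.le_floor g2))
  refine h1.trans ?_
  set K : ℝ := (2 : ℝ) ^ ((n : ℝ) * ((i : ℝ) + 2)) * ((i : ℝ) + 1) ^ 2 *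
        (C * (L * h * Cw * Wp χ x + Er x Q)) with hK
  have hK0 : 0 ≤ K := by positivity
  have h2 : ∑ b ∈ P, g b * ∑ c ∈ (Finset.Ioc ⌊x / b⌋₊ ⌊x / b + h / b⌋₊).filter
      (fun c => RoS T (x ^ (1 / (i + 1) : ℝ)) c), g c ≤ ∑ b ∈ P, K * (g b / b) := by
    refine Finset.sum_le_sum fun b hb => ?_
    have := inner H hC hC₁ hRo hCk hCw hW hx hl hi hik hil hL hh hWp (hP1 b hb) (hPm b hb).2.1
    calc _ ≤ g b * (K * (1 / b)) := mul_le_mul_of_nonneg_left this (H.gf.nonneg b)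
      _ = _ := by ring
  refine h2.trans ?_
  rw [← Finset.mul_sum]
  have yx : x ^ (1 / i : ℝ) ≤ x := by
    calc x ^ (1 / i : ℝ) ≤ x ^ (1 : ℝ) := by
          refine Real.rpow_le_rpow_of_exponent_le x1 ?_
          rw [div_le_one i0]
          exact i1
      _ = x := Real.rpow_one x
  have h3 := hRk (x ^ (1 / i : ℝ)) (x ^ (1 / 40 : ℝ)) hil yx x40 P (fun b hb =>
    ⟨(hPm b hb).1.le, ((hPm b hb).2.1.trans x20).trans (by linarith), (hPm b hb).2.2⟩)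
  have e1 : -(40 * (2 * (n : ℝ) + 4)) * Real.log (x ^ (1 / 40 : ℝ)) / Real.log (x ^ (1 / i : ℝ)) =
      -((2 * (n : ℝ) + 4) * i) := by
    rw [Real.log_rpow x0, Real.log_rpow x0]
    have : Real.log x ≠ 0 := by linarith
    field_simp
  rw [e1] at h3
  have hw := wt n i
  calc K * ∑ b ∈ P, g b / (b : ℝ) ≤ K * (CR * Real.exp (-((2 * (n : ℝ) + 4) * i)) *
        ∏ p ∈ pr (2 * x), U p) := mul_le_mul_of_nonneg_left h3 hK0
    _ = ((2 : ℝ) ^ ((n : ℝ) * ((i : ℝ) + 2)) * ((i : ℝ) + 1) ^ 2 *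
          Real.exp (-((2 * (n : ℝ) + 4) * i))) *
        (C * CR * (L * h * Cw * Wp χ x + Er x Q) * ∏ p ∈ pr (2 * x), U p) := by
          rw [hK]
          ring
    _ ≤ _ := mul_le_mul_of_nonneg_right hw (by positivity)

/-- the error term is small -/
theorem er_le (H : SH n B x h Q L T χ g U) (hn : 1 ≤ n) {cw : ℝ} (hcw : 0 < cw)
    (hx : 16 ≤ x) (hl : 4 ≤ Real.log x)
    (hnum : √3 * (1 + Real.log x) * x ^ (15 / 16 : ℝ) * Real.log x ^ 2 ≤ cw * x ^ (499 / 500 : ℝ))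
    (hW : cw / Real.log x ^ 2 ≤ Wp χ x) : Er x Q ≤ L * h * Wp χ x := by
  have x0 : 0 < x := by linarith
  have x1 : 1 ≤ x := by linarith
  have l0 : 0 < Real.log x := by linarith
  have hQ1 : 1 ≤ Q := H.qc.Q1
  have hn1 : (1 : ℝ) ≤ n := by exact_mod_cast hn
  have q1 : Q ≤ x := by
    refine H.Qx.trans ?_
    calc x ^ (4 / 5 : ℝ) ≤ x ^ (1 : ℝ) := Real.rpow_le_rpow_of_exponent_le x1 (by norm_num)
      _ = x := Real.rpow_one x
  have q2 : 1 + Real.log Q ≤ 1 + Real.log x := by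
    have := Real.log_le_log (by linarith) q1
    linarith
  have q3 : √(3 * x * Q) ≤ √3 * x ^ (9 / 10 : ℝ) := by
    refine Real.sqrt_le_iff.2 ⟨by positivity, ?_⟩
    have e1 : (√3 * x ^ (9 / 10 : ℝ)) ^ 2 = 3 * x ^ (9 / 5 : ℝ) := by
      have h1 : √3 ^ 2 = (3 : ℝ) := Real.sq_sqrt (by norm_num)
      have h2 : (x ^ (9 / 10 : ℝ)) ^ 2 = x ^ (9 / 5 : ℝ) := by
        rw [← Real.rpow_natCast, ← Real.rpow_mul x0.le]
        norm_num
      calc (√3 * x ^ (9 / 10 : ℝ)) ^ 2 = √3 ^ 2 * (x ^ (9 / 10 : ℝ)) ^ 2 := by ring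
        _ = _ := by rw [h1, h2]
    rw [e1]
    have e2 : x * x ^ (4 / 5 : ℝ) = x ^ (9 / 5 : ℝ) := by
      nth_rewrite 1 [← Real.rpow_one x]
      rw [← Real.rpow_add x0]
      norm_num
    calc 3 * x * Q ≤ 3 * x * x ^ (4 / 5 : ℝ) := mul_le_mul_of_nonneg_left H.Qx (by positivity)
      _ = 3 * (x * x ^ (4 / 5 : ℝ)) := by ring
      _ = _ := by rw [e2]
  have q0 : 0 ≤ 1 + Real.log Q := by
    have := Real.log_nonneg hQ1
    linarith
  have s1 : Er x Q ≤ √3 * (1 + Real.log x) * x ^ (15 / 16 : ℝ) := by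
    have e3 : x ^ (1 / 80 : ℝ) * x ^ (9 / 10 : ℝ) * x ^ (1 / 40 : ℝ) = x ^ (15 / 16 : ℝ) := by
      rw [← Real.rpow_add x0, ← Real.rpow_add x0]
      norm_num
    calc Er x Q = x ^ (1 / 80 : ℝ) * (1 + Real.log Q) * √(3 * x * Q) * x ^ (1 / 40 : ℝ) := rfl
      _ ≤ x ^ (1 / 80 : ℝ) * (1 + Real.log x) * (√3 * x ^ (9 / 10 : ℝ)) * x ^ (1 / 40 : ℝ) := by
          gcongr
      _ = √3 * (1 + Real.log x) * (x ^ (1 / 80 : ℝ) * x ^ (9 / 10 : ℝ) * x ^ (1 / 40 : ℝ)) := by ring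
      _ = _ := by rw [e3]
  have d1 : (1 : ℝ) / (1000 * n) ≤ 1 / 1000 := by
    refine one_div_le_one_div_of_le (by norm_num) ?_
    linarith
  have l1 : x ^ (-(1 / 1000) : ℝ) ≤ L :=
    (Real.rpow_le_rpow_of_exponent_le x1 (by linarith)).trans H.Lx
  have h1 : x ^ (1 - 1 / 1000 : ℝ) ≤ h :=
    (Real.rpow_le_rpow_of_exponent_le x1 (by linarith)).trans H.xh
  have lh : x ^ (499 / 500 : ℝ) ≤ L * h := by
    have e4 : x ^ (499 / 500 : ℝ) = x ^ (-(1 / 1000) : ℝ) * x ^ (1 - 1 / 1000 : ℝ) := by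
      rw [← Real.rpow_add x0]
      norm_num
    rw [e4]
    exact mul_le_mul l1 h1 (Real.rpow_nonneg x0.le _) ((Real.rpow_nonneg x0.le _).trans l1)
  have W0 : 0 ≤ cw / Real.log x ^ 2 := by positivity
  refine s1.trans ?_
  have s2 : √3 * (1 + Real.log x) * x ^ (15 / 16 : ℝ) ≤ x ^ (499 / 500 : ℝ) * (cw / Real.log x ^ 2) := by
    have e5 : x ^ (499 / 500 : ℝ) * (cw / Real.log x ^ 2) = (cw * x ^ (499 / 500 : ℝ)) / Real.log x ^ 2 := by
      ring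
    rw [e5, le_div_iff₀ (by positivity)]
    exact hnum
  refine s2.trans (mul_le_mul lh hW W0 ?_)
  exact (Real.rpow_nonneg x0.le _).trans lh

end

end D8

open Classical in
/-- **class D** -/
theorem classD_of (hr : WpRatio) (hlow : WpLower) : ClassDStmt := by
  obtain ⟨Cw, hCw, hW⟩ := hr
  obtain ⟨cw, hcw, hWl⟩ := hlow
  intro n B C C₁ κ₁ hn hC hC₁ hRo hRk hk0 hk1 hCk
  have hA : (0 : ℝ) ≤ 40 * (2 * (n : ℝ) + 4) := by positivity
  obtain ⟨CR, XR, hCR, HR⟩ := hRk (40 * (2 * (n : ℝ) + 4)) hA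
  obtain ⟨X₁, HX⟩ := D8.numX cw hcw
  refine ⟨Real.exp (2 * n) * (C * CR * (Cw + 1)), max X₁ XR, by positivity, ?_⟩
  intro x h Q L T χ g U H hx S hS hD
  obtain ⟨x16, l4, hnum⟩ := HX x ((le_max_left _ _).trans hx)
  have xR : XR ≤ x := (le_max_right _ _).trans hx
  have x0 : 0 < x := by linarith
  have x1 : 1 ≤ x := by linarith
  have hχ : ∀ m, |χ m| ≤ 1 := by
    intro m
    rcases H.qc.val m with e | e | e <;> rw [e] <;> norm_num
  have hL : 0 ≤ L := (Real.rpow_nonneg x0.le _).trans H.Lx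
  have hh : 0 ≤ h := (Real.rpow_nonneg x0.le _).trans H.xh
  have hWx := hWl χ hχ x (by linarith)
  have hWp : 0 ≤ Wp χ x := by
    have : 0 ≤ cw / Real.log x ^ 2 := by positivity
    linarith
  have hP0 : 0 ≤ ∏ p ∈ pr (2 * x), U p := by
    refine Finset.prod_nonneg fun p hp => ?_
    have := H.gf.U1 p (Finset.mem_filter.1 hp).2
    linarith
  have her := D8.er_le H hn hcw x16 l4 hnum hWx
  set N : ℕ := ⌊Real.log x⌋₊ with hN
  set Si : ℕ → Finset ℕ := fun i => S.filter fun m => (1 : ℝ) / (i + 1) < κ₁ ∧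
    Real.log x ^ 4 ≤ x ^ (1 / i : ℝ) ∧ ∃ b c : ℕ, m = b * c ∧ b.Coprime c ∧
      x ^ (1 / 40 : ℝ) < (b : ℝ) ∧ (b : ℝ) ≤ x ^ (1 / 20 : ℝ) ∧ SmS T (x ^ (1 / i : ℝ)) b ∧
      RoS T (x ^ (1 / (i + 1) : ℝ)) c with hSi
  have hsub : S ⊆ (Finset.Icc 1 N).biUnion Si := by
    intro m hm
    obtain ⟨i, b, c, hi, e1, e2, e3, e4, e5, e6, e7, e8⟩ := hD m hm
    refine Finset.mem_biUnion.2 ⟨i, Finset.mem_Icc.2 ⟨hi, ?_⟩,
      Finset.mem_filter.2 ⟨hm, e1, e2, b, c, e3, e4, e5, e6, e7, e8⟩⟩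
    refine Nat.le_floor ?_
    have h1 := D8.logs x16 l4 hi e2
    have l2 : (0.69 : ℝ) < Real.log 2 := by
      have := Real.log_two_gt_d9
      linarith
    have i0 : (0 : ℝ) ≤ i := Nat.cast_nonneg i
    nlinarith
  have s1 : ∑ m ∈ S, g m ≤ ∑ i ∈ Finset.Icc 1 N, ∑ m ∈ Si i, g m := by
    have e1 : ∑ i ∈ Finset.Icc 1 N, ∑ m ∈ Si i, g m =
        ∑ m ∈ S, ∑ i ∈ Finset.Icc 1 N, if m ∈ Si i then g m else 0 := by
      rw [Finset.sum_comm]
      refine Finset.sum_congr rfl fun i _ => ?_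
      rw [← Finset.sum_filter]
      refine Finset.sum_congr ?_ fun _ _ => rfl
      ext m
      simp only [Finset.mem_filter]
      exact ⟨fun hm => ⟨(Finset.mem_filter.1 hm).1, hm⟩, fun hm => hm.2⟩
    rw [e1]
    refine Finset.sum_le_sum fun m hm => ?_
    obtain ⟨i, hi, hmi⟩ := Finset.mem_biUnion.1 (hsub hm)
    have e2 : (if m ∈ Si i then g m else 0) ≤ ∑ i ∈ Finset.Icc 1 N, if m ∈ Si i then g m else 0 :=
      Finset.single_le_sum (f := fun i => if m ∈ Si i then g m else 0)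
        (fun j _ => by
          show 0 ≤ (if m ∈ Si j then g m else 0)
          split_ifs
          · exact H.gf.nonneg m
          · exact le_rfl) hi
    rwa [if_pos hmi] at e2
  set K : ℝ := C * CR * (L * h * Cw * Wp χ x + D8.Er x Q) * ∏ p ∈ pr (2 * x), U p with hK
  have hQ1 : 1 ≤ Q := H.qc.Q1
  have lQ : 0 ≤ Real.log Q := Real.log_nonneg hQ1
  have er0 : 0 ≤ D8.Er x Q := by unfold D8.Er; positivity
  have hK0 : 0 ≤ K := by positivity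
  have s2 : ∀ i ∈ Finset.Icc 1 N, ∑ m ∈ Si i, g m ≤ Real.exp (2 * n) * Real.exp (-(i : ℝ)) * K := by
    intro i hi
    rcases (Si i).eq_empty_or_nonempty with e | ⟨m0, hm0⟩
    · rw [e, Finset.sum_empty]
      positivity
    · obtain ⟨_, g1, g2, _⟩ := Finset.mem_filter.1 hm0
      refine D8.perI H hC hC₁ hRo hCk hCw hCR (fun y hy hyx => hW χ hχ y x hy hyx)
        (fun y M a1 a2 a3 S' hS' => HR T χ g U H.gf x y M xR H.card a1 a2 a3 S' hS') x16 l4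
        (Finset.mem_Icc.1 hi).1 g1 g2 hL hh hWp (Si i) ((Finset.filter_subset _ _).trans hS) ?_
      intro m hm
      exact (Finset.mem_filter.1 hm).2.2.2
  have s3 : ∑ i ∈ Finset.Icc 1 N, Real.exp (2 * n) * Real.exp (-(i : ℝ)) * K ≤
      Real.exp (2 * n) * K := by
    have e1 : ∑ i ∈ Finset.Icc 1 N, Real.exp (2 * n) * Real.exp (-(i : ℝ)) * K =
        (Real.exp (2 * n) * K) * ∑ i ∈ Finset.Icc 1 N, Real.exp (-(i : ℝ)) := by
      rw [Finset.mul_sum]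
      refine Finset.sum_congr rfl fun i _ => ?_
      ring
    rw [e1]
    have h0 : 0 ≤ Real.exp (2 * n) * K := by positivity
    calc (Real.exp (2 * n) * K) * ∑ i ∈ Finset.Icc 1 N, Real.exp (-(i : ℝ)) ≤
        (Real.exp (2 * n) * K) * 1 := mul_le_mul_of_nonneg_left (D8.sum_exp N) h0
      _ = _ := mul_one _
  refine (s1.trans (Finset.sum_le_sum s2)).trans (s3.trans ?_)
  have k1 : K ≤ C * CR * (L * h * Cw * Wp χ x + L * h * Wp χ x) * ∏ p ∈ pr (2 * x), U p := by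
    rw [hK]
    gcongr
  calc Real.exp (2 * n) * K ≤ Real.exp (2 * n) *
        (C * CR * (L * h * Cw * Wp χ x + L * h * Wp χ x) * ∏ p ∈ pr (2 * x), U p) :=
        mul_le_mul_of_nonneg_left k1 (Real.exp_pos _).le
    _ = _ := by ring

end Vale.Agent.P007.S11
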