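import Vale.Agent.P007.S11.Defs

/-! # P007 / S11 : class D, preliminaries (helper812) -/

set_option autoImplicit false

namespace Vale.Agent.P007.S11.D8

open Finset

/-- pairs `m = b c` with `b` in `P` and `R c` -/
theorem pairD {g : ℕ → ℝ} (hg : ∀ m, 0 ≤ g m) (hsub : ∀ a b : ℕ, a.Coprime b → g (a * b) ≤ g a * g b)
    {x h : ℝ} (hx : 0 ≤ x) (hh : 0 ≤ h) (S P : Finset ℕ) (hS : S ⊆ Finset.Ioc ⌊x⌋₊ ⌊x + h⌋₊)
    (R : ℕ → Prop) [DecidablePred R] (hP : ∀ b ∈ P, 1 ≤ b)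
    (hdec : ∀ m ∈ S, ∃ b c : ℕ, b ∈ P ∧ m = b * c ∧ b.Coprime c ∧ R c) :
    ∑ m ∈ S, g m ≤ ∑ b ∈ P, g b *
      ∑ c ∈ (Finset.Ioc ⌊x / b⌋₊ ⌊x / b + h / b⌋₊).filter R, g c := by
  choose! fb fc H using hdec
  have h1 : ∑ m ∈ S, g m ≤ ∑ m ∈ S, g (fb m) * g (fc m) := by
    refine Finset.sum_le_sum fun m hm => ?_
    obtain ⟨_, e, co, _⟩ := H m hm
    calc g m = g (fb m * fc m) := by rw [← e]
      _ ≤ _ := hsub _ _ co
  refine h1.trans ?_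
  have h2 : ∑ b ∈ P, g b * ∑ c ∈ (Finset.Ioc ⌊x / b⌋₊ ⌊x / b + h / b⌋₊).filter R, g c =
      ∑ z ∈ P.sigma (fun b => (Finset.Ioc ⌊x / b⌋₊ ⌊x / b + h / b⌋₊).filter R), g z.1 * g z.2 := by
    rw [Finset.sum_sigma]
    refine Finset.sum_congr rfl fun b _ => ?_
    rw [Finset.mul_sum]
  rw [h2]
  have h3 : ∑ m ∈ S, g (fb m) * g (fc m) =
      ∑ z ∈ S.image (fun m => (⟨fb m, fc m⟩ : (_ : ℕ) × ℕ)), g z.1 * g z.2 := by
    rw [Finset.sum_image]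
    intro a ha b hb hab
    have e1 := (H a ha).2.1
    have e2 := (H b hb).2.1
    have e3 : fb a = fb b := congrArg Sigma.fst hab
    have e4 : fc a = fc b := by
      have := hab
      simp only [Sigma.mk.injEq, heq_eq_eq] at this
      exact this.2
    rw [e1, e2, e3, e4]
  rw [h3]
  refine Finset.sum_le_sum_of_subset_of_nonneg ?_ fun z _ _ => mul_nonneg (hg _) (hg _)
  intro z hz
  obtain ⟨m, hm, rfl⟩ := Finset.mem_image.1 hz
  obtain ⟨hb, e, _, hR⟩ := H m hm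
  have hb1 : (0 : ℝ) < fb m := by exact_mod_cast hP _ hb
  have hm1 := Finset.mem_Ioc.1 (hS hm)
  have e' : (m : ℝ) = fb m * fc m := by exact_mod_cast e
  have g1 : x < m := (Nat.floor_lt hx).1 hm1.1
  have g2 : (m : ℝ) ≤ x + h := (Nat.le_floor_iff (by linarith)).1 hm1.2
  refine Finset.mem_sigma.2 ⟨hb, Finset.mem_filter.2 ⟨Finset.mem_Ioc.2 ⟨?_, ?_⟩, hR⟩⟩
  · refine (Nat.floor_lt (by positivity)).2 ?_
    rw [div_lt_iff₀ hb1]
    rw [e'] at g1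
    linarith
  · refine (Nat.le_floor_iff (by positivity)).2 ?_
    rw [← add_div, le_div_iff₀ hb1]
    rw [e'] at g2
    linarith

/-- a geometric sum -/
theorem sum_exp (N : ℕ) : ∑ i ∈ Finset.Icc 1 N, Real.exp (-(i : ℝ)) ≤ 1 := by
  have h1 : ∀ N : ℕ, ∑ i ∈ Finset.Icc 1 N, (1 / 2 : ℝ) ^ i = 1 - (1 / 2) ^ N := by
    intro N
    induction N with
    | zero => simp
    | succ k ih =>
      rw [Finset.sum_Icc_succ_top (by omega), ih]
      ring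
  have h2 : ∑ i ∈ Finset.Icc 1 N, Real.exp (-(i : ℝ)) ≤ ∑ i ∈ Finset.Icc 1 N, (1 / 2 : ℝ) ^ i := by
    refine Finset.sum_le_sum fun i _ => ?_
    have e1 : Real.exp (-(i : ℝ)) = (Real.exp (-1)) ^ i := by
      rw [← Real.exp_nat_mul]
      ring_nf
    rw [e1]
    refine pow_le_pow_left₀ (Real.exp_pos _).le ?_ i
    rw [Real.exp_neg, one_div]
    refine inv_anti₀ (by norm_num) ?_
    have := Real.add_one_le_exp (1 : ℝ)
    linarith
  refine h2.trans ?_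
  rw [h1]
  have : (0 : ℝ) ≤ (1 / 2) ^ N := by positivity
  linarith

/-- the weights of the classes `i` -/
theorem wt (n i : ℕ) : (2 : ℝ) ^ ((n : ℝ) * ((i : ℝ) + 2)) * ((i : ℝ) + 1) ^ 2 *
    Real.exp (-((2 * (n : ℝ) + 4) * i)) ≤ Real.exp (2 * n) * Real.exp (-(i : ℝ)) := by
  have h1 : (2 : ℝ) ^ ((n : ℝ) * ((i : ℝ) + 2)) ≤ Real.exp ((n : ℝ) * ((i : ℝ) + 2)) := by
    have e : Real.exp ((n : ℝ) * ((i : ℝ) + 2)) = (Real.exp 1) ^ ((n : ℝ) * ((i : ℝ) + 2)) := by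
      rw [← Real.exp_mul, one_mul]
    rw [e]
    refine Real.rpow_le_rpow (by norm_num) ?_ (by positivity)
    have := Real.add_one_le_exp (1 : ℝ)
    linarith
  have h2 : ((i : ℝ) + 1) ^ 2 ≤ Real.exp (2 * i) := by
    have e : Real.exp (2 * (i : ℝ)) = (Real.exp i) ^ 2 := by
      rw [← Real.exp_nat_mul]
      norm_num
    rw [e]
    exact pow_le_pow_left₀ (by positivity) (Real.add_one_le_exp _) 2
  calc (2 : ℝ) ^ ((n : ℝ) * ((i : ℝ) + 2)) * ((i : ℝ) + 1) ^ 2 * Real.exp (-((2 * (n : ℝ) + 4) * i))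
      ≤ Real.exp ((n : ℝ) * ((i : ℝ) + 2)) * Real.exp (2 * i) * Real.exp (-((2 * (n : ℝ) + 4) * i)) := by
        gcongr
    _ = Real.exp ((n : ℝ) * ((i : ℝ) + 2) + 2 * i + -((2 * (n : ℝ) + 4) * i)) := by
        rw [Real.exp_add, Real.exp_add]
    _ ≤ Real.exp (2 * n + -(i : ℝ)) := by
        refine Real.exp_le_exp.2 ?_
        have hn : (0 : ℝ) ≤ n := Nat.cast_nonneg n
        have hi : (0 : ℝ) ≤ i := Nat.cast_nonneg i
        nlinarith [mul_nonneg hn hi]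
    _ = _ := Real.exp_add _ _

end Vale.Agent.P007.S11.D8
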