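import Vale.Agent.P007.S11.Defs

/-! [S4e] the decomposition of the integers into the classes A, B, C, D -/

set_option autoImplicit false

namespace Vale.Agent.P007.S11

namespace Decomp

/-- the part of `m` supported on `S` -/
def part (m : ℕ) (S : Finset ℕ) : ℕ := ∏ p ∈ S, p ^ m.factorization p

lemma part_pos {m : ℕ} {S : Finset ℕ} (hS : S ⊆ m.primeFactors) : 1 ≤ part m S :=
  Finset.prod_pos fun p hp => pow_pos (Nat.prime_of_mem_primeFactors (hS hp)).pos _

lemma mem_of_dvd_part {m : ℕ} {S : Finset ℕ} (hS : S ⊆ m.primeFactors) {p : ℕ} (hp : p.Prime)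
    (h : p ∣ part m S) : p ∈ S := by
  unfold part at h
  obtain ⟨q, hq, hd⟩ := (hp.prime.dvd_finset_prod_iff _).1 h
  have hqp := Nat.prime_of_mem_primeFactors (hS hq)
  have h1 := hp.dvd_of_dvd_pow hd
  rw [(Nat.prime_dvd_prime_iff_eq hp hqp).1 h1]
  exact hq

lemma part_all {m : ℕ} (hm : 1 ≤ m) : part m m.primeFactors = m := by
  have h := Nat.prod_factorization_pow_eq_self (n := m) (by omega)
  unfold part
  rw [Finsupp.prod, Nat.support_factorization] at h
  exact h

lemma part_coprime {m : ℕ} {S S' : Finset ℕ} (hS : S ⊆ m.primeFactors)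
    (hS' : S' ⊆ m.primeFactors) (hd : Disjoint S S') : (part m S).Coprime (part m S') := by
  apply Nat.Coprime.symm
  apply Nat.Coprime.symm
  rw [Nat.coprime_iff_gcd_eq_one] at *
  by_contra hne
  obtain ⟨p, hp, hpd⟩ := Nat.exists_prime_and_dvd hne
  have h1 := mem_of_dvd_part hS hp (hpd.trans (Nat.gcd_dvd_left _ _))
  have h2 := mem_of_dvd_part hS' hp (hpd.trans (Nat.gcd_dvd_right _ _))
  exact Finset.disjoint_left.1 hd h1 h2

lemma part_union {m : ℕ} {S S' : Finset ℕ} (hd : Disjoint S S') :
    part m (S ∪ S') = part m S * part m S' := by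
  unfold part
  exact Finset.prod_union hd

lemma part_mul_compl {m : ℕ} (hm : 1 ≤ m) {S : Finset ℕ} (hS : S ⊆ m.primeFactors) :
    m = part m S * part m (m.primeFactors \ S) := by
  rw [← part_union Finset.disjoint_sdiff, Finset.union_sdiff_of_subset hS, part_all hm]

lemma part_mono {m : ℕ} {S S' : Finset ℕ} (h : S ⊆ S') (hS' : S' ⊆ m.primeFactors) :
    part m S ≤ part m S' := by
  unfold part
  exact Finset.prod_le_prod_of_subset_of_one_le' h
    (fun p hp _ => Nat.one_le_iff_ne_zero.2
      (pow_pos (Nat.prime_of_mem_primeFactors (hS' hp)).pos _).ne')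

end Decomp

open Decomp in
theorem decomp : DecompStmt := by
  classical
  intro κ₁ hκ hκ4
  refine ⟨2, fun T x hx m hm => ?_⟩
  have hx1 : 1 < x := by linarith
  have hx0 : 0 < x := by linarith
  set w : ℝ := x ^ (1 / 20 : ℝ) with hw
  set v : ℝ := x ^ (1 / 40 : ℝ) with hv
  have hvv : v * v = w := by
    rw [hv, hw, ← Real.rpow_add hx0]; norm_num
  have hvpos : 0 < v := Real.rpow_pos_of_pos hx0 _
  have hv1 : 1 ≤ v := Real.one_le_rpow hx1.le (by norm_num)
  have hvw : v ≤ w := by nlinarith
  -- the sets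
  set P := m.primeFactors with hP
  set SA : Finset ℕ := P.filter (fun p => (p : ℝ) ≤ x ^ κ₁ ∨ p ∈ T) with hSA
  set S0 : Finset ℕ := P.filter (fun p => (p : ℝ) ≤ Real.log x ^ 4 ∨ p ∈ T) with hS0
  have hSAP : SA ⊆ P := Finset.filter_subset _ _
  have hS0P : S0 ⊆ P := Finset.filter_subset _ _
  have hprP : ∀ p ∈ P, p.Prime := fun p hp => Nat.prime_of_mem_primeFactors hp
  -- the case A
  by_cases hA : (part m SA : ℝ) ≤ w
  · left
    refine ⟨part m SA, part m (P \ SA), part_mul_compl hm hSAP,
      part_coprime hSAP Finset.sdiff_subset Finset.disjoint_sdiff, part_pos hSAP, hA, ?_, ?_⟩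
    · intro p hp hd
      have h1 := mem_of_dvd_part hSAP hp hd
      exact (Finset.mem_filter.1 h1).2
    · intro p hp hd
      have h1 := mem_of_dvd_part (Finset.sdiff_subset) hp hd
      rw [Finset.mem_sdiff, hSA, Finset.mem_filter, not_and_or] at h1
      rcases h1 with ⟨h1, h2 | h2⟩
      · exact absurd h1 h2
      · rw [not_or, not_le] at h2
        exact h2
  rw [not_le] at hA
  right
  -- the case B
  have hT0 : ∀ S : Finset ℕ, S ⊆ P → S0 ⊆ S → ∀ p : ℕ, p.Prime → p ∣ part m (P \ S) →
      Real.log x ^ 4 < (p : ℝ) ∧ p ∉ T := by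
    intro S hSP hS p hp hd
    have h1 := mem_of_dvd_part (Finset.sdiff_subset) hp hd
    rw [Finset.mem_sdiff] at h1
    have h2 : p ∉ S0 := fun h => h1.2 (hS h)
    rw [hS0, Finset.mem_filter, not_and_or] at h2
    rcases h2 with h2 | h2
    · exact absurd h1.1 h2
    · rw [not_or, not_le] at h2
      exact h2
  by_cases hB : v < (part m S0 : ℝ)
  · left
    refine ⟨part m S0, part m (P \ S0), part_mul_compl hm hS0P,
      part_coprime hS0P Finset.sdiff_subset Finset.disjoint_sdiff, part_pos hS0P, hB, ?_, ?_⟩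
    · intro p hp hd
      have h1 := mem_of_dvd_part hS0P hp hd
      exact (Finset.mem_filter.1 h1).2
    · intro p hp hd
      exact (hT0 S0 hS0P (Finset.Subset.refl _) p hp hd).2
  rw [not_lt] at hB
  right
  -- the chain
  set St : ℕ → Finset ℕ := fun t => S0 ∪ SA.filter (fun p => p < t) with hSt
  have hStP : ∀ t, St t ⊆ P := fun t =>
    Finset.union_subset hS0P ((Finset.filter_subset _ _).trans hSAP)
  have hS0St : ∀ t, S0 ⊆ St t := fun t => Finset.subset_union_left
  have hex : ∃ t, w < (part m (St t) : ℝ) := by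
    refine ⟨m + 1, lt_of_lt_of_le hA ?_⟩
    have h1 : SA ⊆ St (m + 1) := by
      intro p hp
      rw [hSt]
      refine Finset.mem_union_right _ (Finset.mem_filter.2 ⟨hp, ?_⟩)
      have := Nat.le_of_mem_primeFactors (hSAP hp)
      omega
    exact_mod_cast part_mono h1 (hStP _)
  set t := Nat.find hex with ht
  have ht1 : w < (part m (St t) : ℝ) := Nat.find_spec hex
  have ht0 : t ≠ 0 := by
    intro h0
    rw [h0] at ht1
    have h1 : St 0 = S0 := by
      rw [hSt]; simp
    rw [h1] at ht1
    linarith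
  obtain ⟨q, hq⟩ := Nat.exists_eq_succ_of_ne_zero ht0
  have hq1 : (part m (St q) : ℝ) ≤ w := by
    have := Nat.find_min hex (m := q) (by omega)
    rwa [not_lt] at this
  rw [hq] at ht1
  have hqSA : q ∈ SA ∧ q ∉ S0 := by
    by_contra hcon
    have h1 : St (q + 1) = St q := by
      ext p
      simp only [hSt, Finset.mem_union, Finset.mem_filter]
      constructor
      · rintro (h | ⟨h, h'⟩)
        · exact Or.inl h
        · by_cases hpq : p = q
          · subst hpq
            left
            by_contra h2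
            exact hcon ⟨h, h2⟩
          · exact Or.inr ⟨h, by omega⟩
      · rintro (h | ⟨h, h'⟩)
        · exact Or.inl h
        · exact Or.inr ⟨h, by omega⟩
    rw [Nat.succ_eq_add_one, h1] at ht1
    linarith
  obtain ⟨hqA, hq0⟩ := hqSA
  have hqP : q ∈ P := hSAP hqA
  have hqpr : q.Prime := hprP q hqP
  have hqlog : Real.log x ^ 4 < (q : ℝ) ∧ q ∉ T := by
    rw [hS0, Finset.mem_filter, not_and_or] at hq0
    rcases hq0 with h | h
    · exact absurd hqP h
    · rw [not_or, not_le] at h
      exact h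
  have hqx : (q : ℝ) ≤ x ^ κ₁ := by
    rcases (Finset.mem_filter.1 hqA).2 with h | h
    · exact h
    · exact absurd h hqlog.2
  set a := m.factorization q with ha
  -- the case C
  by_cases hC : v < (q : ℝ) ^ a
  · left
    have hd1 : Disjoint S0 {q} := Finset.disjoint_singleton_right.2 hq0
    have hqa : part m {q} = q ^ a := by unfold part; simp [ha]
    have hsub : S0 ∪ {q} ⊆ P := Finset.union_subset hS0P (Finset.singleton_subset_iff.2 hqP)
    refine ⟨part m S0, q, a, part m (P \ (S0 ∪ {q})), ?_, ?_, ?_, part_pos hS0P, ?_, hqpr,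
      hqlog.2, hqx, hC, ?_⟩
    · rw [← hqa, ← part_union hd1]
      exact part_mul_compl hm hsub
    · rw [← hqa]
      exact part_coprime hS0P (Finset.singleton_subset_iff.2 hqP) hd1
    · rw [← hqa, ← part_union hd1]
      exact part_coprime hsub Finset.sdiff_subset Finset.disjoint_sdiff
    · intro p hp hd
      have h1 := mem_of_dvd_part hS0P hp hd
      exact (Finset.mem_filter.1 h1).2
    · intro p hp hd
      exact (hT0 _ hsub Finset.subset_union_left p hp hd).2
  rw [not_lt] at hC
  right
  -- the case D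
  have hb : v < (part m (St q) : ℝ) := by
    have hqn : q ∉ St q := by
      simp only [hSt, Finset.mem_union, Finset.mem_filter, lt_irrefl, and_false, or_false]
      exact hq0
    have h1 : St (q + 1) = St q ∪ {q} := by
      ext p
      simp only [hSt, Finset.mem_union, Finset.mem_filter, Finset.mem_singleton]
      constructor
      · rintro (h | ⟨h, h'⟩)
        · exact Or.inl (Or.inl h)
        · by_cases hpq : p = q
          · exact Or.inr hpq
          · exact Or.inl (Or.inr ⟨h, by omega⟩)
      · rintro ((h | ⟨h, h'⟩) | h)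
        · exact Or.inl h
        · exact Or.inr ⟨h, by omega⟩
        · subst h
          exact Or.inr ⟨hqA, by omega⟩
    have h2 : part m (St (q + 1)) = part m (St q) * q ^ a := by
      rw [h1, part_union (Finset.disjoint_singleton_right.2 hqn)]
      congr 1
      unfold part; simp [ha]
    rw [Nat.succ_eq_add_one, h2] at ht1
    push_cast at ht1
    by_contra hcon
    rw [not_lt] at hcon
    have h3 : (part m (St q) : ℝ) * (q : ℝ) ^ a ≤ v * v :=
      mul_le_mul hcon hC (by positivity) hvpos.le
    linarith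
  have hlx : 0 < Real.log x := Real.log_pos hx1
  have hq2 : (2 : ℝ) ≤ (q : ℝ) := by exact_mod_cast hqpr.two_le
  have hq0' : (0 : ℝ) < q := by linarith
  have hlq : 0 < Real.log q := Real.log_pos (by linarith)
  have hlqx : Real.log q ≤ κ₁ * Real.log x := by
    have := Real.log_le_log hq0' hqx
    rwa [Real.log_rpow hx0] at this
  set i : ℕ := ⌊Real.log x / Real.log q⌋₊ with hi
  have hi1 : 1 ≤ i := by
    rw [hi]
    apply Nat.le_floor
    rw [Nat.cast_one, le_div_iff₀ hlq]
    nlinarith
  have hi0 : (0 : ℝ) < i := by exact_mod_cast hi1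
  have hile : (i : ℝ) ≤ Real.log x / Real.log q := Nat.floor_le (by positivity)
  have hilt : Real.log x / Real.log q < (i : ℝ) + 1 := Nat.lt_floor_add_one _
  have hqi : (q : ℝ) ≤ x ^ (1 / i : ℝ) := by
    rw [le_div_iff₀ hlq] at hile
    rw [← Real.log_le_log_iff hq0' (Real.rpow_pos_of_pos hx0 _), Real.log_rpow hx0,
      one_div, ← div_eq_inv_mul, le_div_iff₀ hi0]
    linarith
  have hqi1 : x ^ (1 / (i + 1) : ℝ) < (q : ℝ) := by
    rw [div_lt_iff₀ hlq] at hilt
    rw [← Real.log_lt_log_iff (Real.rpow_pos_of_pos hx0 _) hq0', Real.log_rpow hx0,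
      one_div, ← div_eq_inv_mul, div_lt_iff₀ (by positivity)]
    linarith
  refine ⟨i, part m (St q), part m (P \ St q), hi1, ?_, (hqlog.1.le.trans hqi),
    part_mul_compl hm (hStP q), part_coprime (hStP q) Finset.sdiff_subset Finset.disjoint_sdiff,
    hb, hq1, ?_, ?_⟩
  · have h1 := lt_of_lt_of_le hqi1 hqx
    exact (Real.rpow_lt_rpow_left_iff hx1).1 h1
  · intro p hp hd
    have h1 := mem_of_dvd_part (hStP q) hp hd
    rw [hSt] at h1
    rcases Finset.mem_union.1 h1 with h | h
    · rcases (Finset.mem_filter.1 h).2 with h' | h'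
      · exact Or.inl (h'.trans (hqlog.1.le.trans hqi))
      · exact Or.inr h'
    · left
      have h' : (p : ℝ) ≤ (q : ℝ) := by exact_mod_cast (Finset.mem_filter.1 h).2.le
      exact h'.trans hqi
  · intro p hp hd
    have h0 := hT0 _ (hStP q) (hS0St q) p hp hd
    refine ⟨?_, h0.2⟩
    have h1 := mem_of_dvd_part (Finset.sdiff_subset) hp hd
    rw [Finset.mem_sdiff] at h1
    have hpq : q ≤ p := by
      by_contra hcon
      rw [not_le] at hcon
      apply h1.2
      rw [hSt]
      refine Finset.mem_union_right _ (Finset.mem_filter.2 ⟨?_, hcon⟩)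
      refine Finset.mem_filter.2 ⟨h1.1, Or.inl ?_⟩
      have h' : (p : ℝ) ≤ (q : ℝ) := by exact_mod_cast hcon.le
      exact h'.trans hqx
    have h' : (q : ℝ) ≤ (p : ℝ) := by exact_mod_cast hpq
    exact lt_of_lt_of_le hqi1 h'

end Vale.Agent.P007.S11
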