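import Vale.Agent.P007.S11.Defs
import Vale.Agent.P007.H11.Fam2
import Vale.Agent.P007.H11.RDel
import Vale.Agent.P007.H11.RGen

/-! Statements about quadratic subfields with exceptional zeros, ideal counts and volumes. -/

set_option autoImplicit false

open NumberField

namespace Vale.Agent.P007.S11

open Vale.Agent.P007 Vale.Agent.P007.Z Vale.Agent.P007.N Vale.Agent.P007.R

/-- [S7] the character of a quadratic field -/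
def QuadCharStmt : Prop := ∀ (E : Type) [Field E] [NumberField E], Module.finrank ℚ E = 2 →
  ∃ (q : ℕ) (_ : NeZero q) (χ : DirichletCharacter ℂ q), χ ≠ 1 ∧ χ ^ 2 = 1 ∧
    (q : ℝ) ≤ 4 * |(discr E : ℝ)| ∧
    ∀ p : ℕ, p.Prime → p ≠ 2 → (aE E p : ℝ) = 1 + (χ (p : ZMod q)).re

/-- the data of a quadratic field -/
structure QD (C : ℝ) (E : Type) [Field E] [NumberField E] (χ : ℕ → ℝ) (Q L : ℝ) : Prop where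
  qc : QC Q χ
  isL : IsL χ Q L
  Qle : Q ≤ C * |(discr E : ℝ)| ^ (3 / 4 : ℝ)
  pos : 0 < L
  aE : ∀ p : ℕ, p.Prime → p ≠ 2 → (aE E p : ℝ) = 1 + χ p

/-- [S7b] from `QuadCharStmt` and `CharStmt` -/
def QDStmt : Prop := ∃ C : ℝ, 0 < C ∧ ∀ ε : ℝ, 0 < ε → ∃ c : ℝ, 0 < c ∧
  ∀ (E : Type) [Field E] [NumberField E], Module.finrank ℚ E = 2 → ∃ (χ : ℕ → ℝ) (Q L : ℝ),
    QD C E χ Q L ∧ c * |(discr E : ℝ)| ^ (-ε) ≤ L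

/-- [S8a] the residue -/
def ResStmt : Prop := ∃ c : ℝ, 0 < c ∧ ∀ (E : Type) [Field E] [NumberField E],
  Module.finrank ℚ E = 2 → ∀ (C : ℝ) (χ : ℕ → ℝ) (Q L : ℝ), QD C E χ Q L →
    c * L ≤ dedekindZeta_residue E

/-- [S8b] the zeta function to the right of `1` -/
def ZetaUpStmt : Prop := ∃ C₀ : ℝ, 0 < C₀ ∧ ∀ (E : Type) [Field E] [NumberField E],
  Module.finrank ℚ E = 2 → ∀ (C : ℝ) (χ : ℕ → ℝ) (Q L : ℝ), QD C E χ Q L → ∀ X : ℝ, 2 ≤ X →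
    ‖dedekindZeta E ((1 + 1 / (2 * Real.log X) : ℝ) : ℂ)‖ * Wp χ X ≤ C₀

/-- [S8] the lower bound for `Δ_E` (from `ResStmt`, `ZetaUpStmt` and the proof of `reg_del`) -/
def DelExcStmt : Prop := ∃ C₀ X₀ : ℝ, ∀ (E : Type) [Field E] [NumberField E] [IsTotallyReal E],
  Module.finrank ℚ E = 2 → ∀ (C : ℝ) (χ : ℕ → ℝ) (Q L : ℝ), QD C E χ Q L → ∀ X : ℝ, X₀ ≤ X →
    |(discr E : ℝ)| ≤ X ^ 2 → ∀ η : ℝ, 0 < η → η ≤ 1 →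
    -Real.log η + Real.log (L * Wp χ X * Real.log X) - C₀ ≤
      Del E (1 : DirichletCharacter ℂ 1) (2 * Real.log X) η

/-- [S9] the dependence on the constant in `not_exceptional_gen` is additive -/
def DelAddStmt (n : ℕ) : Prop := ∃ C ℓ₀ : ℝ, ∀ (K : Type) [Field K] [NumberField K]
  [IsTotallyReal K], Module.finrank ℚ K = n → ∀ ℓ : ℝ, ℓ₀ ≤ ℓ → Real.log |(discr K : ℝ)| ≤ ℓ →
    ∀ B : ℝ, 0 ≤ B →
    (∀ E : IntermediateField ℚ K, Module.finrank ℚ E = 2 → ∀ η : ℝ, 0 < η → η ≤ 1 →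
      -Real.log η - B ≤ Del E (1 : DirichletCharacter ℂ 1) ℓ η) →
    ∀ η : ℝ, 0 < η → η ≤ 1 →
      -Real.log η - (B + C) ≤ Del K (1 : DirichletCharacter ℂ 1) ℓ η

/-- [S10a] -/
def RoPowStmt : Prop := ∀ (n : ℕ) (D : Datum n) (p k : ℕ), p.Prime → ¬ p ∣ D.ind →
  rO D (p ^ k) ≤ (k + 1) ^ n

/-- [S10b] -/
def RoOddStmt : Prop := ∀ (n : ℕ) (D : Datum n) (E : IntermediateField ℚ D.K),
  Module.finrank ℚ E = 2 → ∀ p k : ℕ, p.Prime → ¬ p ∣ D.ind → aE E p = 0 → Odd k →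
    rO D (p ^ k) = 0

/-- [S10] (from S10a, S10b and `rO_HT`) -/
def RoGFStmt (n : ℕ) : Prop := ∃ B : ℝ, ∀ (D : Datum n) (E : IntermediateField ℚ D.K),
  Module.finrank ℚ E = 2 → ∀ (C : ℝ) (χ : ℕ → ℝ) (Q L : ℝ), QD C E χ Q L →
    ∃ T : Finset ℕ, (T.card : ℝ) ≤ 2 * Real.log (2 * √(D.disc : ℝ)) ∧
      GF n B T χ (fun m => (rO D m : ℝ)) (fun p => (up D p)⁻¹)

/-- upper bounds for the ideal counts on the scale `X` -/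
def UpB {n : ℕ} (D : Datum n) (C e X H : ℝ) : Prop :=
  (∀ Z : ℝ, 1 ≤ Z → Z ≤ X →
    ∑ m ∈ Finset.Icc 1 ⌊Z⌋₊, (rO D m : ℝ) ≤ C * Z * (X / Z) ^ (1 / 8 : ℝ) * H) ∧
  (∀ δ : ℝ, e ≤ δ → δ ≤ 1 → ∀ Y : ℝ, e * X ≤ Y → Y ≤ X →
    ∑ m ∈ Finset.Icc ⌈Y⌉₊ ⌊(1 + δ) * Y⌋₊, (rO D m : ℝ) ≤ C * δ * Y * (X / Y) ^ (1 / 8 : ℝ) * H)

/-- [S11] (from `ShiuStmt`, `RoGFStmt`, `ht_crude`, `ht_short`) -/
def UpperStmt (n : ℕ) : Prop := ∃ ε : ℝ, 0 < ε ∧ ∀ C₀ c₀ : ℝ, 0 < c₀ → ∃ C : ℝ, 0 < C ∧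
  ∀ e : ℝ, 0 < e → ∃ D₀ : ℕ, ∀ D : Datum n, D₀ ≤ D.disc → ∀ E : IntermediateField ℚ D.K,
    Module.finrank ℚ E = 2 → |(discr E : ℝ)| ^ 2 ≤ (D.disc : ℝ) → ∀ (χ : ℕ → ℝ) (Q L : ℝ),
    QD C₀ E χ Q L → c₀ * |(discr E : ℝ)| ^ (-ε) ≤ L →
    L * Wp χ (3 ^ n * √(D.disc : ℝ)) * Real.log (3 ^ n * √(D.disc : ℝ)) ≤ 1 →
    UpB D C e (3 ^ n * √(D.disc : ℝ))
      (L * Wp χ (3 ^ n * √(D.disc : ℝ)) * Real.log (3 ^ n * √(D.disc : ℝ)) *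
        HO D (3 ^ n * √(D.disc : ℝ)))

/-- [S12] the volume -/
def VolStmt (n : ℕ) : Prop := ∃ (c : ℝ) (D₀ : ℕ), 0 < c ∧ ∀ D : Datum n, D₀ ≤ D.disc →
  ∀ B : ℝ, (∀ η : ℝ, 0 < η → η ≤ 1 → -Real.log η - B ≤
    Del D.K (1 : DirichletCharacter ℂ 1) (2 * Real.log (3 ^ n * √(D.disc : ℝ))) η) →
    c * Real.exp (-B) * √(D.disc : ℝ) * HO D (3 ^ n * √(D.disc : ℝ)) ≤ (vol D).toReal

/-- [S14] discriminants -/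
def DiscStmt : Prop := ∀ (K : Type) [Field K] [NumberField K] (E : IntermediateField ℚ K),
  Module.finrank ℚ E = 2 → 2 < Module.finrank ℚ K → |(discr E : ℝ)| ^ 2 ≤ |(discr K : ℝ)|

/-- [S13] the key statement -/
def KeyStmt (n : ℕ) : Prop := ∃ c C : ℝ, 0 < c ∧ 0 < C ∧ ∀ e : ℝ, 0 < e → ∃ D₀ : ℕ,
  ∀ D : Datum n, D₀ ≤ D.disc → ∃ H : ℝ, 0 < H ∧ c * √(D.disc : ℝ) * H ≤ (vol D).toReal ∧
    UpB D C e (3 ^ n * √(D.disc : ℝ)) H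

end Vale.Agent.P007.S11
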