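import Vale.Agent.P007.S11.Defs2
import Vale.Agent.P007.H11.QStep4
import Vale.Agent.P007.H11.QTop0
import Vale.Agent.P007.H11.QV4
import Vale.Agent.P007.H11.RDel

/-!
The dependence on the bound for the quadratic subfields in `not_exceptional_gen` is additive.
-/

set_option autoImplicit false

open NumberField

namespace Vale.Agent.P007.S11

open Vale.Agent.P007 Vale.Agent.P007.Z Vale.Agent.P007.Z.FinalAux Vale.Agent.P007.H11

/-- only one element of `d` can be small -/
theorem model_ge_one (d : List ℝ) (hd : ∀ x ∈ d, 0 < x ∧ x ≤ 1) {m : ℝ} (hm : m ∈ d)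
    (hmin : ∀ x ∈ d, m ≤ x) {D : ℝ} (hD0 : 0 ≤ D)
    (hD : ∀ η : ℝ, 0 < η → η ≤ 1 → -D ≤ model 1 d η) (η : ℝ) :
    -Real.log η + Real.log m - D ≤ model 1 d η := by
  have hp : d.Perm (m :: d.erase m) := List.perm_cons_erase hm
  have hge := RDel305.model_ge (d := d) (fun x hx => (hd x hx).1) η
  have hsum : (d.map Real.log).sum = Real.log m + ((d.erase m).map Real.log).sum := by
    rw [(hp.map Real.log).sum_eq, List.map_cons, List.sum_cons]
  by_cases hne : d.erase m = []
  · rw [hne] at hsum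
    simp only [List.map_nil, List.sum_nil, add_zero] at hsum
    linarith
  obtain ⟨x₂, hx₂, hmin₂⟩ := Finset.exists_min_image (d.erase m).toFinset id
    (by rwa [List.toFinset_nonempty_iff])
  rw [List.mem_toFinset] at hx₂
  have hmin' : ∀ x ∈ d.erase m, x₂ ≤ x := fun x hx => hmin₂ x (List.mem_toFinset.mpr hx)
  have hx₂d : x₂ ∈ d := List.mem_of_mem_erase hx₂
  have h1 := hD x₂ (hd x₂ hx₂d).1 (hd x₂ hx₂d).2
  have h2 : model 1 d x₂ = ((d.erase m).map Real.log).sum := by
    unfold model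
    rw [Nat.cast_one, one_mul, (hp.map fun x => Real.log (max x₂ x)).sum_eq, List.map_cons,
      List.sum_cons, max_eq_left (hmin x₂ hx₂d)]
    have h3 : ((d.erase m).map fun x => Real.log (max x₂ x)) = (d.erase m).map Real.log :=
      List.map_congr_left fun x hx => by rw [max_eq_right (hmin' x hx)]
    rw [h3]
    ring
  linarith

/-- [S9] -/
theorem del_add (n : ℕ) : DelAddStmt n := by
  obtain ⟨N, Ccl, hcl⟩ := exists_closure n
  obtain ⟨CZ, ℓZ, hℓZ, hZ⟩ := exists_ZForm n 1
  obtain ⟨CQ, hQ⟩ := Sc_rat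
  choose fA fℓ hle hmul hR using exists_rung (cyclic_step_of exists_ZForm) (fun N A => step4 N A) v4a v4b N
  set T : ℕ → ℝ := fun k => fA^[k] (max |CZ| (2 * |Ccl|)) with hTdef
  have hT0 : T 0 = max |CZ| (2 * |Ccl|) := rfl
  have hTs : ∀ k, T (k + 1) = fA (T k) := fun k => Function.iterate_succ_apply' fA k _
  have hTm : Monotone T := monotone_nat_of_le_succ fun k => by
    rw [hTs]
    exact hle _
  have hT00 : 0 ≤ T 0 := by
    rw [hT0]
    exact (abs_nonneg CZ).trans (le_max_left _ _)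
  have hTnn : ∀ k, 0 ≤ T k := fun k => hT00.trans (hTm (Nat.zero_le k))
  set R : ℕ := 2 ^ N with hRdef
  set ℓm : ℝ := ∑ k ∈ Finset.range (R + 1), |fℓ (T k)| with hℓm
  have hℓmle : ∀ k, k ≤ R → fℓ (T k) ≤ ℓm := fun k hk =>
    (le_abs_self _).trans (Finset.single_le_sum (f := fun k => |fℓ (T k)|)
      (fun i _ => abs_nonneg _) (Finset.mem_range.mpr (by omega)))
  set M : ℝ := 2 * T R + |CQ| with hM
  have hM0 : 0 ≤ M := by
    have := hTnn R
    positivity
  -- the final constant
  refine ⟨2 * |CZ| + M, max ℓZ ℓm, ?_⟩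
  intro K _ _ _ hK ℓ hℓ hdisc B hB0 hKB η hη hη1
  have hℓ1 : 1 ≤ ℓ := le_trans hℓZ (le_trans (le_max_left _ _) hℓ)
  obtain ⟨δ, d, hδ, hlen, hd, hχ, hmod⟩ := hZ K (le_of_eq hK) 1 1 (by simp) ℓ
    (le_trans (le_max_left _ _) hℓ) (by linarith) (by simp; linarith only [hℓ1])
  obtain ⟨rfl, hdpos⟩ := hχ rfl
  have hlen0 : (0 : ℝ) ≤ (d.length : ℝ) := Nat.cast_nonneg _
  have hCZ0 : 0 ≤ CZ := le_trans hlen0 hlen
  have hDel := hmod η hη hη1
  rw [abs_le] at hDel
  by_cases hne : d = []
  · subst hne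
    have h1 : model 1 [] η = -Real.log η := by simp only [model, Nat.cast_one, one_mul,
                                                 List.map_nil, List.sum_nil, add_zero]
    rw [h1] at hDel
    have h2 := abs_nonneg CZ
    have h3 := le_abs_self CZ
    linarith [hDel.1]
  -- the smallest element
  obtain ⟨m, hm, hmin⟩ := Finset.exists_min_image d.toFinset id
    (by rwa [List.toFinset_nonempty_iff])
  rw [List.mem_toFinset] at hm
  have hmin' : ∀ x ∈ d, m ≤ x := fun x hx => hmin x (List.mem_toFinset.mpr hx)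
  have hm0 : 0 < m := hdpos m hm
  have hm1 : m ≤ 1 := (hd m hm).2
  have hmodel := model_at_min d (fun x hx => ⟨hdpos x hx, (hd x hx).2⟩) m hm hmin'
  have hDelm := hmod m hm0 hm1
  rw [abs_le] at hDelm
  have hScK : Sc K (fun _ => True) ℓ m ≤ CZ := by
    have := FinalAux.Sc_le_Del K hℓ1 hm0 hm1
    linarith [hDelm.2]
  -- Galois closure
  obtain ⟨L, iF, iN, iA, iR, iG, hLN, hLd⟩ := hcl K hK
  have hdK : 0 ≤ Real.log |(discr K : ℝ)| := by
    apply Real.log_nonneg
    have h1 : discr K ≠ 0 := discr_ne_zero K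
    have h2 : (1 : ℤ) ≤ |discr K| := Int.one_le_abs h1
    have h3 : ((1 : ℤ) : ℝ) ≤ ((|discr K| : ℤ) : ℝ) := by exact_mod_cast h2
    rw [Int.cast_abs] at h3
    simpa only [ge_iff_le, Int.cast_one] using h3
  have hLd' : Real.log |(discr L : ℝ)| ≤ 2 * |Ccl| * ℓ := by
    have h1 : Ccl * (1 + Real.log |(discr K : ℝ)|) ≤ |Ccl| * (1 + Real.log |(discr K : ℝ)|) :=
      mul_le_mul_of_nonneg_right (le_abs_self _) (by linarith)
    have h2 : |Ccl| * (1 + Real.log |(discr K : ℝ)|) ≤ |Ccl| * (2 * ℓ) :=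
      mul_le_mul_of_nonneg_left (by linarith) (abs_nonneg _)
    linarith
  -- the gap
  obtain ⟨k, hkR, hgap⟩ := exists_gap
    (fun H : Subgroup (L ≃ₐ[ℚ] L) => Sc (IntermediateField.fixedField H) (fun _ => True) ℓ m)
    T hTm R (card_subgroup_le L N hLN)
  have hTk : T 0 ≤ T k := hTm (Nat.zero_le k)
  have hLk : Real.log |(discr L : ℝ)| ≤ T k * ℓ := by
    refine hLd'.trans (mul_le_mul_of_nonneg_right ?_ (by linarith))
    exact ((le_max_right |CZ| _).trans (le_of_eq hT0.symm)).trans hTk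
  have hrung := hR (T k) L hLN ℓ ((hℓmle k hkR).trans ((le_max_right _ _).trans hℓ)) hLk m hm0 hm1
  rw [← hTs] at hrung
  have hNT : (N : ℝ) * T k ≤ T (k + 1) := by
    rw [hTs]
    exact hmul _
  -- the group of `K`
  let φ : K →ₐ[ℚ] L := (algebraMap K L).toRatAlgHom
  let G : Subgroup (L ≃ₐ[ℚ] L) := φ.fieldRange.fixingSubgroup
  have hfix : IntermediateField.fixedField G = φ.fieldRange :=
    IsGalois.fixedField_fixingSubgroup _
  have hG : Sc (IntermediateField.fixedField G) (fun _ => True) ℓ m ≤ T k := by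
    refine le_trans (Sc_mono _ K hℓ1 hm0 hm1 ?_)
      (hScK.trans (((le_abs_self CZ).trans (le_max_left _ _)).trans (hT0.ge.trans hTk)))
    intro p hp hpos
    let _ : Algebra K (IntermediateField.fixedField G) :=
      RingHom.toAlgebra (RingHom.codRestrict (φ : K →+* L)
        (IntermediateField.fixedField G).toSubfield.toSubring.toSubsemiring (by
          intro x
          show φ x ∈ IntermediateField.fixedField G
          rw [hfix]
          exact ⟨x, rfl⟩))
    exact aE_pos_of_algebra K (IntermediateField.fixedField G) p hp hpos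
  have hlogm : -(B + M) ≤ Real.log m := by
    have hTR : T k ≤ T R := hTm hkR
    have g1 := le_abs_self CQ
    have g3 := abs_nonneg CQ
    have g5 := hTnn k
    rcases dichotomy groupStmt L N hLN hℓ1 hm0 hm1 (T k) (T (k + 1)) (hTnn k) hNT hrung hgap G hG
      with h | ⟨S, hS2, hGS, hS⟩
    · have htop : ∑' p : Nat.Primes, wt ℓ m p ≤ T k := by
        refine le_trans (le_of_eq ?_) h
        rw [FinalAux.Sc_eq]
        congr 1
        funext p
        simp only [tm, aE_top_pos L p p.2, if_true]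
      have hQm := hQ ℓ hℓ1 m hm0 hm1
      linarith
    · obtain ⟨E, hE2, ⟨e⟩⟩ := quad_sub K L S hS2 (fun σ hσ => hGS (by
        rw [IntermediateField.mem_fixingSubgroup_iff]
        rintro _ ⟨x, rfl⟩
        exact hσ x))
      have h1 := hKB E hE2 m hm0 hm1
      have h2 := Del_le_Sc E hℓ1 hm0 hm1
      have h3 : Sc E (fun _ => True) ℓ m =
          Sc (IntermediateField.fixedField S) (fun _ => True) ℓ m :=
        CStep.Sc_congr (fun j => aE_congr _ _ e j) ℓ m
      rw [h3, hE2] at h2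
      push_cast at h2
      linarith
  have hD : ∀ e : ℝ, 0 < e → e ≤ 1 → -|CZ| ≤ model 1 d e := fun e he he1 => by
    have h1 := hmod e he he1
    rw [abs_le] at h1
    have h2 := Del_nonneg1 K hℓ1 he he1
    have h3 := le_abs_self CZ
    linarith [h1.2]
  have hge := model_ge_one d (fun x hx => ⟨hdpos x hx, (hd x hx).2⟩) hm hmin' (abs_nonneg CZ) hD η
  have h3 := le_abs_self CZ
  linarith [hDel.1]

end Vale.Agent.P007.S11
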