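import Vale.Agent.P007.S11.Defs2

/-! The lower bound for `Δ_E` with an explicit dependence on the residue. -/

set_option autoImplicit false

open NumberField Filter Topology

namespace Vale.Agent.P007.S11

open Vale.Agent.P007 Vale.Agent.P007.Z Vale.Agent.P007.Z.CStep Vale.Agent.P007.H11
open Vale.Agent.P007.F (Reg)
open Vale.Agent.P007.H11.RDel305

/-- `reg_del` with the explicit dependence on the constant -/
theorem reg_del_expl : ∃ B ℓ₀ : ℝ, ∀ c : ℝ, 0 < c → ∀ (E : Type) [Field E] [NumberField E]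
    [IsTotallyReal E], Module.finrank ℚ E = 2 → ∀ D : ℝ, ℓ₀ ≤ Real.log D →
    |(discr E : ℝ)| ≤ D → Reg c E D → ∀ ℓ : ℝ, Real.log D ≤ ℓ → ∀ η : ℝ, 0 < η → η ≤ 1 →
      -Real.log η - (B - Real.log c) ≤ Del E (1 : DirichletCharacter ℂ 1) ℓ η := by
  obtain ⟨C, ℓ₀, hℓ₀, hZ⟩ := exists_ZForm 2 1
  refine ⟨17 + 3 * C, ℓ₀, fun c hc E _ _ _ h2 D hD hdisc hreg ℓ hℓ η hη hη1 => ?_⟩
  have hD0 : 0 < Real.log D := by linarith
  have hℓ0 : 0 < ℓ := by linarith
  have hdE : Real.log |(discr E : ℝ)| ≤ Real.log D := by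
    refine Real.log_le_log ?_ hdisc
    rw [abs_pos]
    exact_mod_cast discr_ne_zero E
  have hone : Odd (orderOf (1 : DirichletCharacter ℂ 1)) := by
    rw [orderOf_one]
    exact odd_one
  have hZ1 : ∀ l : ℝ, Real.log D ≤ l → ZOne E (1 : DirichletCharacter ℂ 1) l C := by
    intro l hl
    refine hZ E h2.le 1 1 hone l (hD.trans hl) (by linarith) ?_
    rw [Nat.cast_one, Real.log_one]
    linarith
  obtain ⟨δ, d, -, -, -, h1, hb⟩ := hZ1 ℓ hℓ
  obtain ⟨rfl, hpos⟩ := h1 rfl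
  -- the values at one point
  obtain ⟨u, hu, hnear⟩ := exists_near E
  obtain ⟨e, he, he1, hed⟩ := exists_le_all hpos
  set ε : ℝ := min e ((u - 1) / 2) with hε
  have hε0 : 0 < ε := lt_min he (by linarith)
  have hεe : ε ≤ e := min_le_left _ _
  have hεu : ε ≤ (u - 1) / 2 := min_le_right _ _
  have hεℓ : ε / ℓ ≤ ε := div_le_self hε0.le (by linarith)
  have hεℓ0 : 0 < ε / ℓ := by positivity
  have h3 := hnear (1 + ε / ℓ) (by linarith) (by linarith)
  rw [add_sub_cancel_left] at h3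
  have hρ : 0 < dedekindZeta_residue E := dedekindZeta_residue_pos E
  have hz := zeta_pos E (s := 1 + ε / ℓ) (by linarith)
  have h4 := Real.log_le_log (by positivity) h3
  rw [Real.log_mul hρ.ne' (Real.exp_pos _).ne', Real.log_exp, Real.log_mul hεℓ0.ne' hz.ne',
    Real.log_div hε0.ne' hℓ0.ne'] at h4
  have h5 := (abs_le.1 (abs_log_zeta_sub_PS E (s := 1 + ε / ℓ) (by linarith))).2
  rw [h2, Nat.cast_ofNat] at h5
  have h6 := (abs_le.1 (hb ε hε0 (hεe.trans he1))).2
  rw [N.Del_one E hℓ0 hε0, model_eq_of_le fun x hx => hεe.trans (hed x hx)] at h6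
  -- the scale `log D`
  have h7 := ZOne.le (hZ1 (Real.log D) le_rfl) (η := Real.log D / ℓ) (by positivity)
    (by rw [div_le_one hℓ0]; exact hℓ)
  have e1 : Real.log D / ℓ / Real.log D = 1 / ℓ := by
    field_simp
  rw [N.Del_one E hD0 (by positivity), e1, Real.log_div hD0.ne' hℓ0.ne'] at h7
  have hs : 1 < 1 + 1 / Real.log D := by
    have : 0 < 1 / Real.log D := by positivity
    linarith
  have h8 := (abs_le.1 (abs_log_zeta_sub_PS E hs)).1
  rw [h2, Nat.cast_ofNat] at h8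
  have hz' := zeta_pos E hs
  unfold Reg at hreg
  have h9 := Real.log_le_log (by positivity) hreg
  rw [Real.log_mul hc.ne' hz'.ne', Real.log_mul hρ.ne' hD0.ne'] at h9
  -- the conclusion
  have h10 := (abs_le.1 (hb η hη hη1)).1
  have h11 := model_ge hpos η
  linarith

/-- **[S8]** -/
theorem del_exc (h1 : ResStmt) (h2 : ZetaUpStmt) : DelExcStmt := by
  obtain ⟨c₁, hc₁, h1⟩ := h1
  obtain ⟨C₂, hC₂, h2⟩ := h2
  obtain ⟨B, ℓ₀, h3⟩ := reg_del_expl
  refine ⟨B - Real.log (2 * c₁ / C₂), max 2 (Real.exp |ℓ₀|), ?_⟩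
  intro E _ _ _ hE C χ Q L hQD X hX hd η hη hη1
  have hX2 : 2 ≤ X := (le_max_left _ _).trans hX
  have hX0 : 0 < X := by linarith only [hX2]
  have hlog : 0 < Real.log X := Real.log_pos (by linarith only [hX2])
  have hlog2 : Real.log (X ^ 2) = 2 * Real.log X := by
    rw [Real.log_pow]
    norm_num
  have hℓ : ℓ₀ ≤ Real.log (X ^ 2) := by
    have h4 : |ℓ₀| ≤ Real.log X := by
      rw [Real.le_log_iff_exp_le hX0]
      exact (le_max_right _ _).trans hX
    have h5 := le_abs_self ℓ₀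
    rw [hlog2]
    linarith only [h4, h5, hlog]
  have hres := h1 E hE C χ Q L hQD
  have hzu := h2 E hE C χ Q L hQD X hX2
  have hL := hQD.pos
  have hW : 0 < Wp χ X := by
    refine Finset.prod_pos fun p hp => ?_
    have hp' := (Finset.mem_filter.1 hp).2
    have h2 : (2 : ℝ) ≤ p := by exact_mod_cast hp'.two_le
    have h3 : 1 / (p : ℝ) ≤ 1 / 2 := one_div_le_one_div_of_le (by norm_num) h2
    have h4 : χ p / (p : ℝ) ≤ 1 / 2 := by
      have h5 : χ p / (p : ℝ) ≤ 1 / (p : ℝ) := by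
        refine div_le_div_of_nonneg_right ?_ (by linarith only [h2])
        rcases hQD.qc.val p with h | h | h <;> rw [h] <;> norm_num
      exact h5.trans h3
    refine mul_pos ?_ ?_ <;> linarith only [h3, h4]
  set δ : ℝ := L * Wp χ X * Real.log X with hδ
  have hδ0 : 0 < δ := by positivity
  have hc : 0 < 2 * c₁ / C₂ * δ := by positivity
  have hreg : Reg (2 * c₁ / C₂ * δ) E (X ^ 2) := by
    unfold Reg
    rw [hlog2]
    calc 2 * c₁ / C₂ * δ * ‖dedekindZeta E ((1 + 1 / (2 * Real.log X) : ℝ) : ℂ)‖ =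
        2 * c₁ * L * Real.log X * (‖dedekindZeta E ((1 + 1 / (2 * Real.log X) : ℝ) : ℂ)‖ *
          Wp χ X) / C₂ := by
          rw [hδ]
          ring
      _ ≤ 2 * c₁ * L * Real.log X * C₂ / C₂ := by gcongr
      _ = (c₁ * L) * (2 * Real.log X) := by
          field_simp
      _ ≤ dedekindZeta_residue E * (2 * Real.log X) := by gcongr
  have h4 := h3 _ hc E hE (X ^ 2) hℓ hd hreg (2 * Real.log X) (le_of_eq hlog2) η hη hη1
  rw [Real.log_mul (by positivity) hδ0.ne'] at h4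
  linarith only [h4]

end Vale.Agent.P007.S11
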