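import Vale.Agent.P007.S11.Defs2

/-! [S14] `|d_E|² ≤ |d_K|` for quadratic subfields of fields of degree larger than `2`. -/

set_option autoImplicit false

open NumberField

namespace Vale.Agent.P007.S11

/-- **[S14]** -/
theorem disc_sq : DiscStmt := by
  intro K _ _ E hE hK
  have h1 := natAbs_discr_eq_absNorm_differentIdeal_mul_natAbs_discr_pow E (𝓞 E) K (𝓞 K)
  have hm : 2 ≤ Module.finrank E K := by
    have h2 := Module.finrank_mul_finrank ℚ E K
    by_contra hcon
    have h3 : Module.finrank E K ≤ 1 := by omega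
    have h4 : Module.finrank ℚ E * Module.finrank E K ≤ 2 * 1 := by
      have h5 : Module.finrank ℚ E = 2 := hE
      rw [h5]
      exact Nat.mul_le_mul_left 2 h3
    omega
  have hd : 1 ≤ (discr E).natAbs := Nat.one_le_iff_ne_zero.2 (Int.natAbs_ne_zero.2 (discr_ne_zero E))
  have hK0 : (discr K).natAbs ≠ 0 := Int.natAbs_ne_zero.2 (discr_ne_zero K)
  have hle : (discr E).natAbs ^ 2 ≤ (discr K).natAbs := by
    refine (Nat.pow_le_pow_right hd hm).trans ?_
    refine Nat.le_of_dvd (Nat.pos_of_ne_zero hK0) ?_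
    rw [h1]
    exact Dvd.intro_left _ rfl
  have h6 : |(discr E : ℝ)| = ((discr E).natAbs : ℝ) := by rw [Nat.cast_natAbs, Int.cast_abs]
  have h7 : |(discr K : ℝ)| = ((discr K).natAbs : ℝ) := by rw [Nat.cast_natAbs, Int.cast_abs]
  rw [h6, h7]
  exact_mod_cast hle

end Vale.Agent.P007.S11
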