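import Vale.Agent.P007.S11.Defs

/-! Sums of `1 * χ` over the multiples of a squarefree number. -/

set_option autoImplicit false

namespace Vale.Agent.P007.S11

namespace Dv

lemma abs_chi {Q : ℝ} {χ : ℕ → ℝ} (h : QC Q χ) (m : ℕ) : |χ m| ≤ 1 := by
  rcases h.val m with h | h | h <;> simp [h]

/-- Hecke relation at a prime -/
lemma hecke {Q : ℝ} {χ : ℕ → ℝ} (h : QC Q χ) {p : ℕ} (hp : p.Prime) {m : ℕ} (hm : 1 ≤ m) :
    ac χ (p * m) = (1 + χ p) * ac χ m - χ p * (if p ∣ m then ac χ (m / p) else 0) := by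
  have hp0 := hp.pos
  have hinj : Function.Injective (fun e : ℕ => p * e) := fun a b hab =>
    Nat.eq_of_mul_eq_mul_left hp0 hab
  have hU : (p * m).divisors = m.divisors ∪ m.divisors.image (fun e => p * e) := by
    ext e
    simp only [Nat.mem_divisors, Finset.mem_union, Finset.mem_image]
    constructor
    · rintro ⟨he, _⟩
      by_cases hpe : p ∣ e
      · right
        obtain ⟨f, rfl⟩ := hpe
        exact ⟨f, ⟨Nat.dvd_of_mul_dvd_mul_left hp0 he, by omega⟩, rfl⟩
      · left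
        have hc : Nat.Coprime e p := ((Nat.Prime.coprime_iff_not_dvd hp).2 hpe).symm
        exact ⟨hc.dvd_of_dvd_mul_left he, by omega⟩
    · rintro (⟨he, _⟩ | ⟨f, ⟨hf, _⟩, rfl⟩)
      · exact ⟨he.mul_left p, by positivity⟩
      · exact ⟨Nat.mul_dvd_mul_left p hf, by positivity⟩
  have hI : m.divisors ∩ m.divisors.image (fun e => p * e) =
      (if p ∣ m then (m / p).divisors else ∅).image (fun e => p * e) := by
    ext e
    simp only [Nat.mem_divisors, Finset.mem_inter, Finset.mem_image]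
    constructor
    · rintro ⟨⟨he, _⟩, f, ⟨hf, _⟩, rfl⟩
      have hpm : p ∣ m := (Dvd.intro f rfl).trans he
      refine ⟨f, ?_, rfl⟩
      rw [if_pos hpm, Nat.mem_divisors]
      constructor
      · rw [Nat.dvd_div_iff_mul_dvd hpm]; exact he
      · have := Nat.div_pos (Nat.le_of_dvd (by omega) hpm) hp0
        omega
    · rintro ⟨f, hf, rfl⟩
      by_cases hpm : p ∣ m
      · rw [if_pos hpm, Nat.mem_divisors] at hf
        have h1 : p * f ∣ m := by
          rw [← Nat.dvd_div_iff_mul_dvd hpm]; exact hf.1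
        exact ⟨⟨h1, by omega⟩, f, ⟨(Dvd.intro_left p rfl).trans h1, by omega⟩, rfl⟩
      · rw [if_neg hpm] at hf
        simp at hf
  have hsum := Finset.sum_union_inter (s₁ := m.divisors)
    (s₂ := m.divisors.image (fun e => p * e)) (f := χ)
  rw [← hU, hI, Finset.sum_image (fun a _ b _ hab => hinj hab),
    Finset.sum_image (fun a _ b _ hab => hinj hab)] at hsum
  have e1 : ∑ x ∈ m.divisors, χ (p * x) = χ p * ac χ m := by
    unfold ac
    rw [Finset.mul_sum]
    exact Finset.sum_congr rfl fun x _ => h.mul p x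
  have e2 : ∑ x ∈ (if p ∣ m then (m / p).divisors else ∅), χ (p * x) =
      χ p * (if p ∣ m then ac χ (m / p) else 0) := by
    split_ifs with hpm
    · unfold ac
      rw [Finset.mul_sum]
      exact Finset.sum_congr rfl fun x _ => h.mul p x
    · simp
  rw [e1, e2] at hsum
  change ac χ (p * m) + _ = ac χ m + _ at hsum
  linarith

/-- the recursion -/
lemma stepT {Q : ℝ} {χ : ℕ → ℝ} (h : QC Q χ) {p : ℕ} (hp : p.Prime) {d : ℕ} (hd : 1 ≤ d)
    (hpd : ¬ p ∣ d) (N : ℕ) :
    ∑ n ∈ Finset.Icc 1 N, ac χ (p * d * n) =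
      (1 + χ p) * ∑ n ∈ Finset.Icc 1 N, ac χ (d * n) -
        χ p * ∑ n ∈ Finset.Icc 1 (N / p), ac χ (d * n) := by
  have hp0 := hp.pos
  have h1 : ∀ n ∈ Finset.Icc 1 N, ac χ (p * d * n) = (1 + χ p) * ac χ (d * n) -
      χ p * (if p ∣ n then ac χ (d * (n / p)) else 0) := by
    intro n hn
    rw [Finset.mem_Icc] at hn
    rw [mul_assoc, hecke h hp (Nat.mul_pos (by omega) (by omega))]
    congr 2
    have : p ∣ d * n ↔ p ∣ n := by
      rw [hp.dvd_mul]
      tauto
    by_cases hpn : p ∣ n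
    · rw [if_pos (this.2 hpn), if_pos hpn, Nat.mul_div_assoc d hpn]
    · rw [if_neg (fun hh => hpn (this.1 hh)), if_neg hpn]
  rw [Finset.sum_congr rfl h1, Finset.sum_sub_distrib, ← Finset.mul_sum, ← Finset.mul_sum]
  congr 2
  rw [← Finset.sum_filter]
  symm
  apply Finset.sum_bij (fun n _ => p * n)
  · intro n hn
    simp only [Finset.mem_Icc, Finset.mem_filter] at hn ⊢
    refine ⟨⟨Nat.mul_pos hp0 (by omega), ?_⟩, Dvd.intro n rfl⟩
    have := (Nat.le_div_iff_mul_le hp0).1 hn.2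
    rwa [mul_comm]
  · intro a _ b _ hab
    exact Nat.eq_of_mul_eq_mul_left hp0 hab
  · intro n hn
    simp only [Finset.mem_Icc, Finset.mem_filter] at hn
    obtain ⟨⟨h1, h2⟩, k, rfl⟩ := hn
    refine ⟨k, ?_, rfl⟩
    rw [Finset.mem_Icc]
    constructor
    · exact Nat.pos_of_mul_pos_left h1 |> fun _ => by
        rcases Nat.eq_zero_or_pos k with hk | hk
        · subst hk; simp at h1
        · exact hk
    · rw [Nat.le_div_iff_mul_le hp0, mul_comm]
      exact h2
  · intro n hn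
    rw [Nat.mul_div_cancel_left n hp0]

/-- the induction on the set of primes -/
lemma main {Q L C : ℝ} {χ : ℕ → ℝ} (h : QC Q χ)
    (hC : ∀ y : ℝ, 0 ≤ y → |∑ m ∈ Finset.Icc 1 ⌊y⌋₊, ac χ m - L * y| ≤ C * √y)
    (hC0 : 0 ≤ C) (s : Finset ℕ) (hs : ∀ p ∈ s, p.Prime) :
    ∀ x : ℝ, 0 ≤ x → |∑ n ∈ Finset.Icc 1 ⌊x⌋₊, ac χ ((∏ p ∈ s, p) * n) -
      L * x * ∏ p ∈ s, (1 + χ p - χ p / p)| ≤ (∏ p ∈ s, (2 + 1 / √(p : ℝ))) * (C * √x) := by
  classical
  induction s using Finset.induction_on with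
  | empty =>
    intro x hx
    simpa using hC x hx
  | insert p s hps ih =>
    intro x hx
    have hp : p.Prime := hs p (Finset.mem_insert_self p s)
    have hs' : ∀ q ∈ s, q.Prime := fun q hq => hs q (Finset.mem_insert_of_mem hq)
    have ih1 := ih hs' x hx
    have hp0 : (0 : ℝ) < p := by exact_mod_cast hp.pos
    have ih2 := ih hs' (x / p) (by positivity)
    have hpd : ¬ p ∣ ∏ q ∈ s, q := by
      intro hdv
      obtain ⟨q, hq, hpq⟩ := (Prime.dvd_finsetProd_iff (Nat.prime_iff.1 hp) _).1 hdv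
      have := (Nat.prime_dvd_prime_iff_eq hp (hs' q hq)).1 hpq
      subst this
      exact hps hq
    have hd1 : 1 ≤ ∏ q ∈ s, q := Finset.prod_pos fun q hq => (hs' q hq).pos
    rw [Finset.prod_insert hps, Finset.prod_insert hps, Finset.prod_insert hps,
      stepT h hp hd1 hpd]
    have hfl : ⌊x⌋₊ / p = ⌊x / p⌋₊ := (Nat.floor_div_natCast x p).symm
    rw [hfl]
    set T1 := ∑ n ∈ Finset.Icc 1 ⌊x⌋₊, ac χ ((∏ p ∈ s, p) * n)
    set T2 := ∑ n ∈ Finset.Icc 1 ⌊x / p⌋₊, ac χ ((∏ p ∈ s, p) * n)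
    set R := ∏ p ∈ s, (1 + χ p - χ p / p)
    set c := ∏ p ∈ s, (2 + 1 / √(p : ℝ)) with hc
    have hc0 : 0 ≤ c := Finset.prod_nonneg fun q _ => by positivity
    have e : (1 + χ p) * T1 - χ p * T2 - L * x * ((1 + χ p - χ p / p) * R) =
        (1 + χ p) * (T1 - L * x * R) - χ p * (T2 - L * (x / p) * R) := by
      field_simp
      ring
    rw [e]
    have hsx : √(x / p) = √x * (1 / √(p : ℝ)) := by
      rw [Real.sqrt_div hx]; ring
    rw [hsx] at ih2
    have hchi := abs_chi h p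
    have h2 : |1 + χ p| ≤ 2 := by
      rw [abs_le] at hchi ⊢
      constructor <;> linarith [hchi.1, hchi.2]
    calc |(1 + χ p) * (T1 - L * x * R) - χ p * (T2 - L * (x / p) * R)|
        ≤ |(1 + χ p) * (T1 - L * x * R)| + |χ p * (T2 - L * (x / p) * R)| := abs_sub _ _
      _ ≤ 2 * (c * (C * √x)) + 1 * (c * (C * (√x * (1 / √(p : ℝ))))) := by
          rw [abs_mul, abs_mul]
          apply add_le_add
          · exact mul_le_mul h2 ih1 (abs_nonneg _) (by norm_num)
          · exact mul_le_mul hchi ih2 (abs_nonneg _) (by norm_num)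
      _ = (2 + 1 / √(p : ℝ)) * c * (C * √x) := by ring

lemma prod_le (s : Finset ℕ) (hs : ∀ p ∈ s, p.Prime) :
    ∏ p ∈ s, ((2 + 1 / √(p : ℝ)) / √(p : ℝ)) ≤ 3 ^ 7 := by
  classical
  have h1 : ∀ p ∈ s, 1 ≤ √(p : ℝ) := by
    intro p hp
    apply Real.le_sqrt_of_sq_le
    have : (1 : ℝ) ≤ p := by exact_mod_cast (hs p hp).one_le
    linarith
  rw [← Finset.prod_filter_mul_prod_filter_not s (fun p => p < 7)]
  have hA : ∏ p ∈ s.filter (fun p => p < 7), ((2 + 1 / √(p : ℝ)) / √(p : ℝ)) ≤ 3 ^ 7 := by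
    calc ∏ p ∈ s.filter (fun p => p < 7), ((2 + 1 / √(p : ℝ)) / √(p : ℝ))
        ≤ ∏ _p ∈ s.filter (fun p => p < 7), (3 : ℝ) := by
          apply Finset.prod_le_prod
          · intro p _; positivity
          · intro p hp
            have h2 := h1 p (Finset.mem_filter.1 hp).1
            have h3 : 1 / √(p : ℝ) ≤ 1 := by
              rw [div_le_one (by linarith)]; exact h2
            rw [div_le_iff₀ (by linarith)]
            linarith
      _ = 3 ^ (s.filter (fun p => p < 7)).card := by rw [Finset.prod_const]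
      _ ≤ 3 ^ 7 := by
          apply pow_le_pow_right₀ (by norm_num)
          calc (s.filter (fun p => p < 7)).card ≤ (Finset.range 7).card := by
                apply Finset.card_le_card
                intro p hp
                rw [Finset.mem_range]
                exact (Finset.mem_filter.1 hp).2
            _ = 7 := by simp
  have hB : ∏ p ∈ s.filter (fun p => ¬ p < 7), ((2 + 1 / √(p : ℝ)) / √(p : ℝ)) ≤ 1 := by
    apply Finset.prod_le_one
    · intro p _; positivity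
    · intro p hp
      have h2 : ¬ p < 7 := (Finset.mem_filter.1 hp).2
      have h3 : (7 : ℝ) ≤ p := by exact_mod_cast not_lt.1 h2
      have h4 : 5 / 2 ≤ √(p : ℝ) := by
        apply Real.le_sqrt_of_sq_le
        norm_num
        linarith
      have h5 : 1 / √(p : ℝ) ≤ 1 / (5 / 2) := one_div_le_one_div_of_le (by norm_num) h4
      rw [div_le_one (by linarith)]
      norm_num at h5 ⊢
      linarith
  have hB0 : 0 ≤ ∏ p ∈ s.filter (fun p => ¬ p < 7), ((2 + 1 / √(p : ℝ)) / √(p : ℝ)) :=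
    Finset.prod_nonneg fun p _ => by positivity
  calc _ ≤ (3 : ℝ) ^ 7 * 1 := mul_le_mul hA hB hB0 (by norm_num)
    _ = 3 ^ 7 := mul_one _

end Dv

open Dv in
/-- [S2] divisibility -/
theorem divis (H : HyperStmt) : DivisStmt := by
  obtain ⟨C, hC, H⟩ := H
  refine ⟨3 ^ 7 * C, by positivity, ?_⟩
  intro Q L χ h hL d hd y hy
  have hQ := h.Q1
  have hlQ : 0 ≤ Real.log Q := Real.log_nonneg hQ
  have hQ0 : 0 ≤ Q := by linarith
  set s := d.primeFactors with hs
  have hsp : ∀ p ∈ s, p.Prime := fun p hp => Nat.prime_of_mem_primeFactors hp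
  have hds : ∏ p ∈ s, p = d := Nat.prod_primeFactors_of_squarefree hd
  have hd0 : 0 < d := Nat.pos_of_ne_zero hd.ne_zero
  have hdR : (0 : ℝ) < d := by exact_mod_cast hd0
  set E := C * (1 + Real.log Q) * √Q with hE
  have hE0 : 0 ≤ E := by positivity
  have hb : ∀ y : ℝ, 0 ≤ y → |∑ m ∈ Finset.Icc 1 ⌊y⌋₊, ac χ m - L * y| ≤ E * √y := by
    intro y hy
    have := H Q L χ h hL y hy
    rw [Real.sqrt_mul hQ0] at this
    calc _ ≤ _ := this
      _ = E * √y := by rw [hE]; ring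
  have key := main h hb hE0 s hsp (y / d) (by positivity)
  rw [hds] at key
  have hfl : ⌊y / d⌋₊ = ⌊y⌋₊ / d := Nat.floor_div_natCast y d
  have e1 : ∑ m ∈ (Finset.Icc 1 ⌊y⌋₊).filter (fun m => d ∣ m), ac χ m =
      ∑ n ∈ Finset.Icc 1 ⌊y / d⌋₊, ac χ (d * n) := by
    rw [hfl]
    symm
    apply Finset.sum_bij (fun n _ => d * n)
    · intro n hn
      simp only [Finset.mem_Icc, Finset.mem_filter] at hn ⊢
      refine ⟨⟨Nat.mul_pos hd0 (by omega), ?_⟩, Dvd.intro n rfl⟩
      have := (Nat.le_div_iff_mul_le hd0).1 hn.2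
      rwa [mul_comm]
    · intro a _ b _ hab
      exact Nat.eq_of_mul_eq_mul_left hd0 hab
    · intro n hn
      simp only [Finset.mem_Icc, Finset.mem_filter] at hn
      obtain ⟨⟨h1, h2⟩, k, rfl⟩ := hn
      refine ⟨k, ?_, rfl⟩
      rw [Finset.mem_Icc]
      constructor
      · rcases Nat.eq_zero_or_pos k with hk | hk
        · subst hk; simp at h1
        · exact hk
      · rw [Nat.le_div_iff_mul_le hd0, mul_comm]
        exact h2
    · intro n hn
      rfl
  have e2 : rho χ d = (1 / d) * ∏ p ∈ s, (1 + χ p - χ p / p) := by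
    have : (1 : ℝ) / d = ∏ p ∈ s, (1 / (p : ℝ)) := by
      rw [Finset.prod_div_distrib, Finset.prod_const_one]
      congr 1
      rw [← Nat.cast_prod, hds]
    rw [this, ← Finset.prod_mul_distrib]
    unfold rho
    refine Finset.prod_congr rfl fun p hp => ?_
    have hp0 : (p : ℝ) ≠ 0 := by exact_mod_cast (hsp p hp).ne_zero
    field_simp
  have e3 : √(d : ℝ) = ∏ p ∈ s, √(p : ℝ) := by
    have : (d : ℝ) = ∏ p ∈ s, (p : ℝ) := by rw [← Nat.cast_prod, hds]
    rw [this, Real.sqrt_eq_rpow, ← Real.finsetProd_rpow _ _ (fun p _ => Nat.cast_nonneg p)]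
    simp only [Real.sqrt_eq_rpow]
  rw [e1, e2]
  have e4 : L * y * (1 / d * ∏ p ∈ s, (1 + χ p - χ p / p)) =
      L * (y / d) * ∏ p ∈ s, (1 + χ p - χ p / p) := by ring
  rw [e4]
  refine key.trans ?_
  have hpl := prod_le s hsp
  rw [Finset.prod_div_distrib, ← e3] at hpl
  have e5 : (∏ p ∈ s, (2 + 1 / √(p : ℝ))) * (E * √(y / d)) =
      (∏ p ∈ s, (2 + 1 / √(p : ℝ))) / √(d : ℝ) * (E * √y) := by
    rw [Real.sqrt_div hy]; ring
  rw [e5]
  calc _ ≤ 3 ^ 7 * (E * √y) := mul_le_mul_of_nonneg_right hpl (by positivity)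
    _ = 3 ^ 7 * C * (1 + Real.log Q) * √(Q * y) := by
        rw [Real.sqrt_mul hQ0, hE]; ring

end Vale.Agent.P007.S11
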