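import Vale.Agent.P007.S11.Defs

/-! Euler products of real completely multiplicative functions, and `L(s, χ)` near `s = 1`. -/

set_option autoImplicit false

open Filter Topology

namespace Vale.Agent.P007.S11

namespace EL

/-- `n ↦ χ(n) n^{-s}` -/
noncomputable def hom (χ : ℕ → ℝ) (h0 : χ 0 = 0) (h1 : χ 1 = 1)
    (hm : ∀ a b : ℕ, χ (a * b) = χ a * χ b) (s : ℝ) : ℕ →*₀ ℝ where
  toFun n := χ n * (n : ℝ) ^ (-s)
  map_zero' := by simp [h0]
  map_one' := by simp [h1]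
  map_mul' a b := by
    rw [hm, Nat.cast_mul, Real.mul_rpow (Nat.cast_nonneg a) (Nat.cast_nonneg b)]
    ring

theorem inv_one_sub_le {x : ℝ} (hx : |x| ≤ 1 / 2) : (1 - x)⁻¹ ≤ Real.exp (x + 2 * x ^ 2) := by
  have h1 : |x| < 1 := by linarith
  have h2 := Real.abs_log_sub_add_sum_range_le h1 1
  simp only [Finset.sum_range_one, Nat.cast_zero, zero_add, pow_one, div_one] at h2
  have h3 : |x| ^ (1 + 1) / (1 - |x|) ≤ 2 * x ^ 2 := by
    have e : |x| ^ (1 + 1) = x ^ 2 := by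
      rw [show (1 + 1 : ℕ) = 2 from rfl, sq_abs]
    rw [e, div_le_iff₀ (by linarith)]
    nlinarith [sq_nonneg x, abs_nonneg x]
  have h4 := (abs_le.1 (h2.trans h3)).1
  have hx0 : 0 < 1 - x := by linarith [le_abs_self x]
  rw [← Real.log_le_iff_le_exp (inv_pos.2 hx0), Real.log_inv]
  linarith

theorem sum_inv_sq_le (S : Finset ℕ) : ∑ n ∈ S, 1 / (n : ℝ) ^ 2 ≤ 2 := by
  have h := hasSum_zeta_two
  refine (h.summable.sum_le_tsum S fun n _ => by positivity).trans ?_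
  rw [h.tsum_eq]
  have h1 : Real.pi < 3.15 := Real.pi_lt_d2
  have h2 : 0 < Real.pi := Real.pi_pos
  nlinarith

theorem tsum_le_exp (f : ℕ →*₀ ℝ) {s : ℝ} (hs : 1 < s) (hf : ∀ n : ℕ, 1 ≤ n → |f n| ≤ (n : ℝ) ^ (-s)) :
    ∑' n, f n ≤ Real.exp (∑' p : Nat.Primes, f p + 4) := by
  have hf' : ∀ n : ℕ, ‖f n‖ ≤ (n : ℝ) ^ (-s) := by
    intro n
    rcases Nat.eq_zero_or_pos n with rfl | hn
    · rw [map_zero, norm_zero]
      positivity
    · rw [Real.norm_eq_abs]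
      exact hf n hn
  have hsum0 : Summable fun n : ℕ => (n : ℝ) ^ (-s) := by
    rw [Real.summable_nat_rpow]
    linarith
  have hsum : Summable fun n => ‖f n‖ := Summable.of_nonneg_of_le (fun _ => norm_nonneg _) hf' hsum0
  have hP := EulerProduct.eulerProduct_completely_multiplicative_hasProd hsum
  have hsp : Summable fun p : Nat.Primes => f p :=
    (hsum.of_norm.comp_injective (i := fun p : Nat.Primes => (p : ℕ)) Subtype.val_injective)
  have hT : Tendsto (fun S : Finset Nat.Primes => Real.exp (∑ p ∈ S, f p + 4)) atTop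
      (𝓝 (Real.exp (∑' p : Nat.Primes, f p + 4))) :=
    (Real.continuous_exp.tendsto _).comp (hsp.hasSum.add_const 4)
  refine le_of_tendsto_of_tendsto' hP hT fun S => ?_
  have h1 : ∀ p ∈ S, (1 - f p)⁻¹ ≤ Real.exp (f p + 2 * f p ^ 2) := by
    intro p _
    refine inv_one_sub_le ?_
    have h2 := hf p p.2.one_lt.le
    refine h2.trans ?_
    have h3 : (2 : ℝ) ≤ (p : ℕ) := by exact_mod_cast p.2.two_le
    calc ((p : ℕ) : ℝ) ^ (-s) ≤ ((p : ℕ) : ℝ) ^ (-1 : ℝ) :=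
          Real.rpow_le_rpow_of_exponent_le (by linarith) (by linarith)
      _ = ((p : ℕ) : ℝ)⁻¹ := Real.rpow_neg_one _
      _ ≤ 1 / 2 := by
          rw [one_div]
          exact inv_anti₀ (by norm_num) h3
  have h0 : ∀ p ∈ S, 0 ≤ (1 - f p)⁻¹ := by
    intro p _
    have h2 := hf p p.2.one_lt.le
    have h3 : (2 : ℝ) ≤ (p : ℕ) := by exact_mod_cast p.2.two_le
    have h4 : ((p : ℕ) : ℝ) ^ (-s) ≤ 1 := by
      refine Real.rpow_le_one_of_one_le_of_nonpos (by linarith) (by linarith)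
    have := (abs_le.1 (h2.trans h4)).2
    exact inv_nonneg.2 (by linarith)
  refine (Finset.prod_le_prod h0 h1).trans ?_
  rw [← Real.exp_sum, Real.exp_le_exp, Finset.sum_add_distrib]
  have h5 : ∑ p ∈ S, 2 * f p ^ 2 ≤ 4 := by
    rw [← Finset.mul_sum]
    have h6 : ∑ p ∈ S, f p ^ 2 ≤ ∑ p ∈ S, 1 / ((p : ℕ) : ℝ) ^ 2 := by
      refine Finset.sum_le_sum fun p _ => ?_
      have h2 := hf p p.2.one_lt.le
      have h3 : (1 : ℝ) ≤ (p : ℕ) := by exact_mod_cast p.2.one_lt.le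
      have h7 : |f p| ≤ ((p : ℕ) : ℝ)⁻¹ := by
        refine h2.trans ?_
        rw [← Real.rpow_neg_one]
        exact Real.rpow_le_rpow_of_exponent_le h3 (by linarith)
      rw [← sq_abs, one_div, ← inv_pow]
      exact pow_le_pow_left₀ (abs_nonneg _) h7 2
    have h8 : ∑ p ∈ S, 1 / ((p : ℕ) : ℝ) ^ 2 =
        ∑ n ∈ S.image (fun p : Nat.Primes => (p : ℕ)), 1 / (n : ℝ) ^ 2 := by
      rw [Finset.sum_image]
      intro a _ b _ hab
      exact Subtype.ext hab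
    have h9 := sum_inv_sq_le (S.image (fun p : Nat.Primes => (p : ℕ)))
    linarith
  linarith

theorem abel (a : ℕ → ℝ) (δ : ℝ) (N : ℕ) :
    ∑ k ∈ Finset.Icc 1 N, a k * (k : ℝ) ^ (-δ) =
      (∑ k ∈ Finset.Icc 1 N, a k) * ((N : ℝ) + 1) ^ (-δ) +
      ∑ n ∈ Finset.Icc 1 N, (∑ k ∈ Finset.Icc 1 n, a k) *
        ((n : ℝ) ^ (-δ) - ((n : ℝ) + 1) ^ (-δ)) := by
  induction N with
  | zero => simp
  | succ N ih =>
    rw [Finset.sum_Icc_succ_top (by omega), Finset.sum_Icc_succ_top (by omega),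
      Finset.sum_Icc_succ_top (by omega), ih]
    rw [Finset.sum_Icc_succ_top (by omega)]
    push_cast
    ring

theorem tele (δ : ℝ) (N : ℕ) :
    ∑ n ∈ Finset.Icc 1 N, ((n : ℝ) ^ (-δ) - ((n : ℝ) + 1) ^ (-δ)) = 1 - ((N : ℝ) + 1) ^ (-δ) := by
  induction N with
  | zero => simp
  | succ N ih =>
    rw [Finset.sum_Icc_succ_top (by omega), ih]
    push_cast
    ring

theorem diff_le {δ : ℝ} (hδ : 0 ≤ δ) {n : ℕ} (hn : 1 ≤ n) :
    0 ≤ (n : ℝ) ^ (-δ) - ((n : ℝ) + 1) ^ (-δ) ∧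
      (n : ℝ) ^ (-δ) - ((n : ℝ) + 1) ^ (-δ) ≤ δ / n := by
  have hn' : (1 : ℝ) ≤ n := by exact_mod_cast hn
  have hn0 : (0 : ℝ) < n := by linarith
  constructor
  · rw [sub_nonneg]
    exact Real.rpow_le_rpow_of_nonpos hn0 (by linarith) (by linarith)
  · have e : ((n : ℝ) + 1) ^ (-δ) = (n : ℝ) ^ (-δ) * Real.exp (-(δ * Real.log (1 + 1 / n))) := by
      have e1 : (n : ℝ) + 1 = n * (1 + 1 / n) := by field_simp
      rw [e1, Real.mul_rpow hn0.le (by positivity), Real.rpow_def_of_pos (x := 1 + 1 / (n : ℝ))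
        (by positivity)]
      congr 2
      ring
    have h1 := Real.add_one_le_exp (-(δ * Real.log (1 + 1 / n)))
    have h2 : Real.log (1 + 1 / (n : ℝ)) ≤ 1 / n := by
      have := Real.log_le_sub_one_of_pos (x := 1 + 1 / (n : ℝ)) (by positivity)
      linarith
    have h3 : (n : ℝ) ^ (-δ) ≤ 1 := Real.rpow_le_one_of_one_le_of_nonpos hn' (by linarith)
    have h4 : 0 ≤ (n : ℝ) ^ (-δ) := by positivity
    have h5 : 0 ≤ Real.log (1 + 1 / (n : ℝ)) := Real.log_nonneg (by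
      have : 0 ≤ 1 / (n : ℝ) := by positivity
      linarith)
    have h6 : δ * Real.log (1 + 1 / (n : ℝ)) ≤ δ / n := by
      calc δ * Real.log (1 + 1 / (n : ℝ)) ≤ δ * (1 / n) := mul_le_mul_of_nonneg_left h2 hδ
        _ = δ / n := by ring
    rw [e]
    have h7 : 0 ≤ δ * Real.log (1 + 1 / (n : ℝ)) := mul_nonneg hδ h5
    calc (n : ℝ) ^ (-δ) - (n : ℝ) ^ (-δ) * Real.exp (-(δ * Real.log (1 + 1 / n)))
        = (n : ℝ) ^ (-δ) * (1 - Real.exp (-(δ * Real.log (1 + 1 / n)))) := by ring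
      _ ≤ (n : ℝ) ^ (-δ) * (δ * Real.log (1 + 1 / n)) :=
          mul_le_mul_of_nonneg_left (by linarith) h4
      _ ≤ 1 * (δ * Real.log (1 + 1 / n)) := mul_le_mul_of_nonneg_right h3 h7
      _ ≤ δ / n := by linarith

theorem L_ge {χ : ℕ → ℝ} {Q L : ℝ} (hQ : QC Q χ) (hL : IsL χ Q L) {δ : ℝ} (hδ : 0 < δ) :
    L - 4 * Q * δ ≤ ∑' n : ℕ, χ n * (n : ℝ) ^ (-(1 + δ)) := by
  have hQ0 : 0 ≤ Q := by linarith [hQ.Q1]
  have habs : ∀ n, |χ n| ≤ 1 := by
    intro n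
    rcases hQ.val n with h | h | h <;> rw [h] <;> norm_num
  have hsum0 : Summable fun n : ℕ => (n : ℝ) ^ (-(1 + δ)) := by
    rw [Real.summable_nat_rpow]
    linarith
  have hsum : Summable fun n : ℕ => χ n * (n : ℝ) ^ (-(1 + δ)) := by
    refine Summable.of_norm_bounded hsum0 fun n => ?_
    rw [norm_mul, Real.norm_eq_abs, Real.norm_eq_abs, abs_of_nonneg (by positivity : 0 ≤ (n : ℝ) ^ (-(1 + δ)))]
    exact mul_le_of_le_one_left (by positivity) (habs n)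
  have h1 : Tendsto (fun N : ℕ => ∑ n ∈ Finset.range (N + 1), χ n * (n : ℝ) ^ (-(1 + δ))) atTop
      (𝓝 (∑' n : ℕ, χ n * (n : ℝ) ^ (-(1 + δ)))) :=
    hsum.hasSum.tendsto_sum_nat.comp (tendsto_add_atTop_nat 1)
  have h2 : Tendsto (fun N : ℕ => L - 4 * Q * δ - 2 * Q * (1 / (N : ℝ))) atTop
      (𝓝 (L - 4 * Q * δ - 2 * Q * 0)) :=
    (tendsto_one_div_atTop_nhds_zero_nat.const_mul (2 * Q)).const_sub _
  rw [mul_zero, sub_zero] at h2
  refine le_of_tendsto_of_tendsto h2 h1 ?_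
  filter_upwards [eventually_ge_atTop 1] with N hN
  have hN' : (1 : ℝ) ≤ N := by exact_mod_cast hN
  have h3 : ∑ n ∈ Finset.range (N + 1), χ n * (n : ℝ) ^ (-(1 + δ)) =
      ∑ k ∈ Finset.Icc 1 N, (χ k / k) * (k : ℝ) ^ (-δ) := by
    rw [Finset.range_eq_Ico, Finset.sum_eq_sum_Ico_succ_bot (by omega)]
    have e0 : χ 0 * ((0 : ℕ) : ℝ) ^ (-(1 + δ)) = 0 := by rw [hQ.zero, zero_mul]
    rw [e0, zero_add]
    refine Finset.sum_congr ?_ fun k hk => ?_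
    · ext k
      simp only [Finset.mem_Ico, Finset.mem_Icc]
      omega
    · have hk1 : 1 ≤ k := by
        have := Finset.mem_Icc.1 hk
        omega
      have hk0 : (0 : ℝ) < k := by exact_mod_cast hk1
      rw [neg_add, Real.rpow_add hk0, Real.rpow_neg_one]
      ring
  rw [h3, abel]
  have h4 : ∀ n : ℕ, 1 ≤ n → L - 2 * Q / n ≤ ∑ k ∈ Finset.Icc 1 n, χ k / k := by
    intro n hn
    have := (abs_le.1 (hL n hn)).1
    linarith
  have h5 : 0 ≤ ((N : ℝ) + 1) ^ (-δ) := by positivity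
  have h6 : ((N : ℝ) + 1) ^ (-δ) ≤ 1 :=
    Real.rpow_le_one_of_one_le_of_nonpos (by linarith) (by linarith)
  have h7 : (L - 2 * Q / N) * ((N : ℝ) + 1) ^ (-δ) ≤
      (∑ k ∈ Finset.Icc 1 N, χ k / k) * ((N : ℝ) + 1) ^ (-δ) :=
    mul_le_mul_of_nonneg_right (h4 N hN) h5
  have h8 : ∑ n ∈ Finset.Icc 1 N, (L - 2 * Q / n) * ((n : ℝ) ^ (-δ) - ((n : ℝ) + 1) ^ (-δ)) ≤
      ∑ n ∈ Finset.Icc 1 N, (∑ k ∈ Finset.Icc 1 n, χ k / k) *
        ((n : ℝ) ^ (-δ) - ((n : ℝ) + 1) ^ (-δ)) := by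
    refine Finset.sum_le_sum fun n hn => ?_
    have hn1 := (Finset.mem_Icc.1 hn).1
    exact mul_le_mul_of_nonneg_right (h4 n hn1) (diff_le hδ.le hn1).1
  have h9 : ∑ n ∈ Finset.Icc 1 N, (L - 2 * Q / n) * ((n : ℝ) ^ (-δ) - ((n : ℝ) + 1) ^ (-δ)) =
      L * (1 - ((N : ℝ) + 1) ^ (-δ)) -
        ∑ n ∈ Finset.Icc 1 N, 2 * Q / n * ((n : ℝ) ^ (-δ) - ((n : ℝ) + 1) ^ (-δ)) := by
    rw [← tele, Finset.mul_sum, ← Finset.sum_sub_distrib]
    refine Finset.sum_congr rfl fun n _ => ?_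
    ring
  have h10 : ∑ n ∈ Finset.Icc 1 N, 2 * Q / n * ((n : ℝ) ^ (-δ) - ((n : ℝ) + 1) ^ (-δ)) ≤
      4 * Q * δ := by
    calc _ ≤ ∑ n ∈ Finset.Icc 1 N, 2 * Q * δ * (1 / (n : ℝ) ^ 2) := by
          refine Finset.sum_le_sum fun n hn => ?_
          have hn1 := (Finset.mem_Icc.1 hn).1
          have hn0 : (0 : ℝ) < n := by exact_mod_cast hn1
          calc 2 * Q / n * ((n : ℝ) ^ (-δ) - ((n : ℝ) + 1) ^ (-δ)) ≤ 2 * Q / n * (δ / n) :=
                mul_le_mul_of_nonneg_left (diff_le hδ.le hn1).2 (by positivity)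
            _ = 2 * Q * δ * (1 / (n : ℝ) ^ 2) := by
                field_simp
      _ = 2 * Q * δ * ∑ n ∈ Finset.Icc 1 N, 1 / (n : ℝ) ^ 2 := by rw [Finset.mul_sum]
      _ ≤ 2 * Q * δ * 2 := mul_le_mul_of_nonneg_left (sum_inv_sq_le _) (by positivity)
      _ = 4 * Q * δ := by ring
  have h11 : 2 * Q / N * ((N : ℝ) + 1) ^ (-δ) ≤ 2 * Q * (1 / N) := by
    have : 2 * Q / (N : ℝ) * ((N : ℝ) + 1) ^ (-δ) ≤ 2 * Q / N * 1 :=
      mul_le_mul_of_nonneg_left h6 (by positivity)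
    calc _ ≤ _ := this
      _ = 2 * Q * (1 / N) := by ring
  nlinarith only [h7, h8, h9, h10, h11]

end EL

end Vale.Agent.P007.S11
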