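import Vale.Agent.P007.S11.Defs

/-! The hyperbola method for `1 * χ`. -/

set_option autoImplicit false

namespace Vale.Agent.P007.S11

namespace Hy

lemma abs_chi {Q : ℝ} {χ : ℕ → ℝ} (h : QC Q χ) (m : ℕ) : |χ m| ≤ 1 := by
  rcases h.val m with h | h | h <;> simp [h]

lemma sum_ac (χ : ℕ → ℝ) (N : ℕ) :
    ∑ m ∈ Finset.Icc 1 N, ac χ m = ∑ k ∈ Finset.Icc 1 N, χ k * ((N / k : ℕ) : ℝ) := by
  unfold ac
  have h1 : ∀ m ∈ Finset.Icc 1 N, ∑ k ∈ m.divisors, χ k =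
      ∑ k ∈ Finset.Icc 1 N, if k ∣ m then χ k else 0 := by
    intro m hm
    rw [← Finset.sum_filter]
    apply Finset.sum_congr _ (fun _ _ => rfl)
    ext k
    simp only [Nat.mem_divisors, Finset.mem_filter, Finset.mem_Icc] at hm ⊢
    constructor
    · rintro ⟨h, h0⟩
      exact ⟨⟨Nat.pos_of_dvd_of_pos h (by omega), (Nat.le_of_dvd (by omega) h).trans hm.2⟩, h⟩
    · rintro ⟨_, h⟩
      exact ⟨h, by omega⟩
  rw [Finset.sum_congr rfl h1, Finset.sum_comm]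
  refine Finset.sum_congr rfl fun k hk => ?_
  rw [← Finset.sum_filter, Finset.sum_const, nsmul_eq_mul, mul_comm]
  congr 2
  rw [← Nat.Ioc_filter_dvd_card_eq_div N k]
  congr 1

lemma tail_sum (χ : ℕ → ℝ) (N K : ℕ) (hKN : K ≤ N) :
    ∑ k ∈ Finset.Icc 1 N, χ k * ((N / k : ℕ) : ℝ) =
      ∑ k ∈ Finset.Icc 1 K, χ k * ((N / k : ℕ) : ℝ) +
      ∑ l ∈ Finset.Icc 1 N, ∑ k ∈ Finset.Ioc K (N / l), χ k := by
  have h0 : Finset.Icc 1 N = Finset.Icc 1 K ∪ Finset.Ioc K N := by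
    ext k
    simp only [Finset.mem_union, Finset.mem_Icc, Finset.mem_Ioc]
    omega
  have hd : Disjoint (Finset.Icc 1 K) (Finset.Ioc K N) := by
    rw [Finset.disjoint_left]
    intro k hk hk'
    simp only [Finset.mem_Icc, Finset.mem_Ioc] at hk hk'
    omega
  conv_lhs => rw [h0]
  rw [Finset.sum_union hd]
  congr 1
  have h1 : ∀ k ∈ Finset.Ioc K N, χ k * ((N / k : ℕ) : ℝ) =
      ∑ l ∈ Finset.Icc 1 N, if l ≤ N / k then χ k else 0 := by
    intro k hk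
    rw [← Finset.sum_filter, Finset.sum_const, nsmul_eq_mul, mul_comm]
    congr 2
    have : (Finset.Icc 1 N).filter (fun l => l ≤ N / k) = Finset.Icc 1 (N / k) := by
      ext l
      simp only [Finset.mem_filter, Finset.mem_Icc]
      have := Nat.div_le_self N k
      omega
    rw [this, Nat.card_Icc, Nat.add_sub_cancel]
  rw [Finset.sum_congr rfl h1, Finset.sum_comm]
  refine Finset.sum_congr rfl fun l hl => ?_
  rw [← Finset.sum_filter]
  apply Finset.sum_congr _ (fun _ _ => rfl)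
  ext k
  simp only [Finset.mem_filter, Finset.mem_Ioc]
  simp only [Finset.mem_Icc] at hl
  constructor
  · rintro ⟨⟨h1, h2⟩, h3⟩
    refine ⟨h1, ?_⟩
    rw [Nat.le_div_iff_mul_le (by omega)] at h3 ⊢
    rwa [mul_comm]
  · rintro ⟨h1, h2⟩
    refine ⟨⟨h1, h2.trans (Nat.div_le_self _ _)⟩, ?_⟩
    rw [Nat.le_div_iff_mul_le (by omega)] at h2 ⊢
    rwa [mul_comm]

lemma sum_Ioc_le {Q : ℝ} {χ : ℕ → ℝ} (h : QC Q χ) (a b : ℕ) :
    |∑ k ∈ Finset.Ioc a b, χ k| ≤ 2 * Q := by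
  have hQ := h.Q1
  rcases le_total a b with hab | hab
  · have h0 : Finset.Icc 1 b = Finset.Icc 1 a ∪ Finset.Ioc a b := by
      ext k
      simp only [Finset.mem_union, Finset.mem_Icc, Finset.mem_Ioc]
      omega
    have hd : Disjoint (Finset.Icc 1 a) (Finset.Ioc a b) := by
      rw [Finset.disjoint_left]
      intro k hk hk'
      simp only [Finset.mem_Icc, Finset.mem_Ioc] at hk hk'
      omega
    have h1 := h.sum b
    have h2 := h.sum a
    rw [h0, Finset.sum_union hd] at h1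
    rw [abs_le] at h1 h2 ⊢
    constructor <;> linarith [h1.1, h1.2, h2.1, h2.2]
  · rw [Finset.Ioc_eq_empty_of_le hab]
    simp
    linarith

lemma tail_le {Q : ℝ} {χ : ℕ → ℝ} (h : QC Q χ) (N K : ℕ) (hK : 1 ≤ K) :
    |∑ l ∈ Finset.Icc 1 N, ∑ k ∈ Finset.Ioc K (N / l), χ k| ≤ 2 * Q * (N / K : ℝ) := by
  have hQ := h.Q1
  have h1 : ∑ l ∈ Finset.Icc 1 N, ∑ k ∈ Finset.Ioc K (N / l), χ k =
      ∑ l ∈ Finset.Icc 1 (N / K), ∑ k ∈ Finset.Ioc K (N / l), χ k := by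
    symm
    apply Finset.sum_subset
    · intro l hl
      simp only [Finset.mem_Icc] at hl ⊢
      have := Nat.div_le_self N K
      omega
    · intro l hl hl'
      simp only [Finset.mem_Icc] at hl hl'
      have h2 : N / K < l := by omega
      have h3 : N / l ≤ K := by
        have := (Nat.div_lt_iff_lt_mul (by omega)).1 h2
        have h4 : N / l < K + 1 := by
          rw [Nat.div_lt_iff_lt_mul (by omega)]
          nlinarith
        omega
      rw [Finset.Ioc_eq_empty_of_le h3]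
      simp
  rw [h1]
  calc |∑ l ∈ Finset.Icc 1 (N / K), ∑ k ∈ Finset.Ioc K (N / l), χ k|
      ≤ ∑ l ∈ Finset.Icc 1 (N / K), |∑ k ∈ Finset.Ioc K (N / l), χ k| :=
        Finset.abs_sum_le_sum_abs _ _
    _ ≤ ∑ _l ∈ Finset.Icc 1 (N / K), 2 * Q := Finset.sum_le_sum fun l _ => sum_Ioc_le h _ _
    _ = 2 * Q * ((N / K : ℕ) : ℝ) := by
        rw [Finset.sum_const, nsmul_eq_mul, Nat.card_Icc, Nat.add_sub_cancel]
        ring
    _ ≤ 2 * Q * (N / K : ℝ) := by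
        apply mul_le_mul_of_nonneg_left Nat.cast_div_le (by linarith)

lemma head_le {Q : ℝ} {χ : ℕ → ℝ} (h : QC Q χ) (N K : ℕ) :
    |∑ k ∈ Finset.Icc 1 K, χ k * ((N / k : ℕ) : ℝ) - N * ∑ k ∈ Finset.Icc 1 K, χ k / (k : ℝ)| ≤
      K := by
  rw [Finset.mul_sum, ← Finset.sum_sub_distrib]
  calc |∑ k ∈ Finset.Icc 1 K, (χ k * ((N / k : ℕ) : ℝ) - N * (χ k / (k : ℝ)))|
      ≤ ∑ k ∈ Finset.Icc 1 K, |χ k * ((N / k : ℕ) : ℝ) - N * (χ k / (k : ℝ))| :=
        Finset.abs_sum_le_sum_abs _ _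
    _ ≤ ∑ _k ∈ Finset.Icc 1 K, (1 : ℝ) := by
        refine Finset.sum_le_sum fun k hk => ?_
        simp only [Finset.mem_Icc] at hk
        have hk0 : (0 : ℝ) < k := by exact_mod_cast hk.1
        have e : χ k * ((N / k : ℕ) : ℝ) - N * (χ k / (k : ℝ)) =
            χ k * (((N / k : ℕ) : ℝ) - N / k) := by ring
        rw [e, abs_mul]
        have h1 := abs_chi h k
        have h2 : |((N / k : ℕ) : ℝ) - N / k| ≤ 1 := by
          rw [abs_le]
          have h3 : ((N / k : ℕ) : ℝ) ≤ (N : ℝ) / k := Nat.cast_div_le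
          have h4 : (N : ℝ) / k ≤ ((N / k : ℕ) : ℝ) + 1 := by
            rw [div_le_iff₀ hk0]
            have := Nat.lt_div_mul_add (a := N) (b := k) (by omega)
            have h5 : N ≤ (N / k + 1) * k := by
              rw [add_mul, one_mul]; omega
            exact_mod_cast h5
          constructor <;> linarith
        calc |χ k| * |((N / k : ℕ) : ℝ) - N / k| ≤ 1 * 1 :=
              mul_le_mul h1 h2 (abs_nonneg _) zero_le_one
          _ = 1 := one_mul 1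
    _ = K := by simp

lemma harm_le (K : ℕ) : ∑ k ∈ Finset.Icc 1 K, (1 : ℝ) / k ≤ 1 + Real.log K := by
  have h := harmonic_le_one_add_log K
  rw [harmonic_eq_sum_Icc] at h
  push_cast at h
  simpa [one_div] using h

lemma L_le {Q L : ℝ} {χ : ℕ → ℝ} (h : QC Q χ) (hL : IsL χ Q L) :
    |L| ≤ 4 * (1 + Real.log Q) := by
  have hQ := h.Q1
  have hlQ : 0 ≤ Real.log Q := Real.log_nonneg hQ
  set K := ⌈Q⌉₊ with hK
  have hK1 : 1 ≤ K := by
    rw [hK]; exact Nat.one_le_ceil_iff.2 (by linarith)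
  have hKQ : Q ≤ K := Nat.le_ceil Q
  have hKQ' : (K : ℝ) ≤ 2 * Q := by
    have := Nat.ceil_lt_add_one (show (0 : ℝ) ≤ Q by linarith)
    linarith
  have hK0 : (0 : ℝ) < K := by exact_mod_cast hK1
  have h1 := hL K hK1
  have h2 : 2 * Q / K ≤ 2 := by
    rw [div_le_iff₀ hK0]; linarith
  have h3 : |∑ k ∈ Finset.Icc 1 K, χ k / (k : ℝ)| ≤ 1 + Real.log K := by
    refine le_trans (Finset.abs_sum_le_sum_abs _ _) (le_trans ?_ (harm_le K))
    refine Finset.sum_le_sum fun k hk => ?_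
    rw [abs_div, Nat.abs_cast]
    exact div_le_div_of_nonneg_right (abs_chi h k) (Nat.cast_nonneg k)
  have h4 : Real.log K ≤ 1 + Real.log Q := by
    calc Real.log K ≤ Real.log (2 * Q) := Real.log_le_log hK0 hKQ'
      _ = Real.log 2 + Real.log Q := Real.log_mul (by norm_num) (by linarith)
      _ ≤ 1 + Real.log Q := by
          have := Real.log_two_lt_d9
          linarith
  have h5 : |L| ≤ |∑ k ∈ Finset.Icc 1 K, χ k / (k : ℝ)| +
      |∑ k ∈ Finset.Icc 1 K, χ k / (k : ℝ) - L| := by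
    have := abs_sub (∑ k ∈ Finset.Icc 1 K, χ k / (k : ℝ))
      (∑ k ∈ Finset.Icc 1 K, χ k / (k : ℝ) - L)
    have e : ∑ k ∈ Finset.Icc 1 K, χ k / (k : ℝ) -
      (∑ k ∈ Finset.Icc 1 K, χ k / (k : ℝ) - L) = L := by ring
    rw [e] at this
    exact this
  linarith

lemma nat_small {Q L : ℝ} {χ : ℕ → ℝ} (h : QC Q χ) (hL : IsL χ Q L) (N : ℕ) (hN : 1 ≤ N)
    (hNQ : (N : ℝ) ≤ Q) :
    |∑ m ∈ Finset.Icc 1 N, ac χ m - L * N| ≤ 6 * (1 + Real.log Q) * √(Q * N) := by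
  have hQ := h.Q1
  have hlQ : 0 ≤ Real.log Q := Real.log_nonneg hQ
  have hN0 : (0 : ℝ) < N := by exact_mod_cast hN
  have hs : (N : ℝ) ≤ √(Q * N) := by
    apply Real.le_sqrt_of_sq_le
    nlinarith
  have h1 : |∑ m ∈ Finset.Icc 1 N, ac χ m| ≤ (1 + Real.log Q) * N := by
    rw [sum_ac]
    calc |∑ k ∈ Finset.Icc 1 N, χ k * ((N / k : ℕ) : ℝ)|
        ≤ ∑ k ∈ Finset.Icc 1 N, |χ k * ((N / k : ℕ) : ℝ)| := Finset.abs_sum_le_sum_abs _ _
      _ ≤ ∑ k ∈ Finset.Icc 1 N, N * ((1 : ℝ) / k) := by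
          refine Finset.sum_le_sum fun k hk => ?_
          rw [abs_mul, Nat.abs_cast]
          calc |χ k| * ((N / k : ℕ) : ℝ) ≤ 1 * ((N : ℝ) / k) :=
                mul_le_mul (abs_chi h k) Nat.cast_div_le (Nat.cast_nonneg _) zero_le_one
            _ = N * ((1 : ℝ) / k) := by ring
      _ = N * ∑ k ∈ Finset.Icc 1 N, (1 : ℝ) / k := by rw [Finset.mul_sum]
      _ ≤ N * (1 + Real.log N) := mul_le_mul_of_nonneg_left (harm_le N) hN0.le
      _ ≤ (1 + Real.log Q) * N := by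
          rw [mul_comm]
          apply mul_le_mul_of_nonneg_right _ hN0.le
          linarith [Real.log_le_log hN0 hNQ]
  have h2 : |L * N| ≤ 4 * (1 + Real.log Q) * N := by
    rw [abs_mul, Nat.abs_cast]
    exact mul_le_mul_of_nonneg_right (L_le h hL) hN0.le
  have h3 := abs_sub (∑ m ∈ Finset.Icc 1 N, ac χ m) (L * N)
  have h4 : (1 + Real.log Q) * N ≤ (1 + Real.log Q) * √(Q * N) :=
    mul_le_mul_of_nonneg_left hs (by linarith)
  have h5 : 0 ≤ (1 + Real.log Q) * √(Q * N) := by positivity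
  nlinarith

lemma nat_large {Q L : ℝ} {χ : ℕ → ℝ} (h : QC Q χ) (hL : IsL χ Q L) (N : ℕ) (hN : 1 ≤ N)
    (hNQ : Q ≤ N) :
    |∑ m ∈ Finset.Icc 1 N, ac χ m - L * N| ≤ 6 * (1 + Real.log Q) * √(Q * N) := by
  have hQ := h.Q1
  have hlQ : 0 ≤ Real.log Q := Real.log_nonneg hQ
  have hN0 : (0 : ℝ) < N := by exact_mod_cast hN
  have hN1 : (1 : ℝ) ≤ N := by exact_mod_cast hN
  set s := √(Q * N) with hs
  have hs1 : 1 ≤ s := by
    rw [hs]
    apply Real.le_sqrt_of_sq_le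
    nlinarith
  have hss : s * s = Q * N := Real.mul_self_sqrt (by positivity)
  have hsN : s ≤ N := by
    rw [hs, Real.sqrt_le_left hN0.le]
    nlinarith
  set K := ⌈s⌉₊ with hK
  have hK1 : 1 ≤ K := Nat.one_le_ceil_iff.2 (by linarith)
  have hKs : s ≤ K := Nat.le_ceil s
  have hKs' : (K : ℝ) ≤ 2 * s := by
    have := Nat.ceil_lt_add_one (show (0 : ℝ) ≤ s by linarith)
    linarith
  have hKN : K ≤ N := Nat.ceil_le.2 hsN
  have hK0 : (0 : ℝ) < K := by exact_mod_cast hK1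
  have hQN : Q * N / K ≤ s := by
    rw [div_le_iff₀ hK0, ← hss]
    exact mul_le_mul_of_nonneg_left hKs (by linarith)
  rw [sum_ac, tail_sum χ N K hKN]
  have h1 := head_le h N K
  have h2 := tail_le h N K hK1
  have h3 := hL K hK1
  have h4 : |N * ∑ k ∈ Finset.Icc 1 K, χ k / (k : ℝ) - L * N| ≤ 2 * s := by
    have e : N * ∑ k ∈ Finset.Icc 1 K, χ k / (k : ℝ) - L * N =
      N * (∑ k ∈ Finset.Icc 1 K, χ k / (k : ℝ) - L) := by ring
    rw [e, abs_mul, Nat.abs_cast]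
    calc (N : ℝ) * |∑ k ∈ Finset.Icc 1 K, χ k / (k : ℝ) - L| ≤ N * (2 * Q / K) :=
          mul_le_mul_of_nonneg_left h3 hN0.le
      _ = 2 * (Q * N / K) := by ring
      _ ≤ 2 * s := by linarith
  have h5 : 2 * Q * (N / K : ℝ) ≤ 2 * s := by
    have : 2 * Q * (N / K : ℝ) = 2 * (Q * N / K) := by ring
    linarith
  have h6 : |∑ k ∈ Finset.Icc 1 K, χ k * ((N / k : ℕ) : ℝ) +
      ∑ l ∈ Finset.Icc 1 N, ∑ k ∈ Finset.Ioc K (N / l), χ k - L * N| ≤ 6 * s := by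
    rw [abs_le] at h1 h2 h4 ⊢
    constructor <;> linarith [h1.1, h1.2, h2.1, h2.2, h4.1, h4.2]
  refine h6.trans ?_
  nlinarith

end Hy

open Hy in
/-- [S1] the hyperbola method -/
theorem hyper : HyperStmt := by
  refine ⟨10, by norm_num, ?_⟩
  intro Q L χ h hL y hy
  have hQ := h.Q1
  have hlQ : 0 ≤ Real.log Q := Real.log_nonneg hQ
  have hLb := L_le h hL
  rcases lt_or_ge y 1 with hy1 | hy1
  · have h0 : ⌊y⌋₊ = 0 := Nat.floor_eq_zero.2 hy1
    rw [h0]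
    have : Finset.Icc 1 0 = (∅ : Finset ℕ) := by simp
    rw [this, Finset.sum_empty, zero_sub, abs_neg, abs_mul, abs_of_nonneg hy]
    have hs : y ≤ √(Q * y) := by
      apply Real.le_sqrt_of_sq_le
      nlinarith
    calc |L| * y ≤ 4 * (1 + Real.log Q) * √(Q * y) :=
          mul_le_mul hLb hs hy (by positivity)
      _ ≤ 10 * (1 + Real.log Q) * √(Q * y) := by
          have : 0 ≤ (1 + Real.log Q) * √(Q * y) := by positivity
          nlinarith
  · have hN : 1 ≤ ⌊y⌋₊ := (Nat.one_le_floor_iff y).2 hy1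
    have hNy : (⌊y⌋₊ : ℝ) ≤ y := Nat.floor_le hy
    have hNy' : y < ⌊y⌋₊ + 1 := Nat.lt_floor_add_one y
    have h1 : |∑ m ∈ Finset.Icc 1 ⌊y⌋₊, ac χ m - L * (⌊y⌋₊ : ℝ)| ≤
        6 * (1 + Real.log Q) * √(Q * (⌊y⌋₊ : ℝ)) := by
      rcases le_total (⌊y⌋₊ : ℝ) Q with hc | hc
      · exact nat_small h hL _ hN hc
      · exact nat_large h hL _ hN hc
    have h2 : √(Q * (⌊y⌋₊ : ℝ)) ≤ √(Q * y) :=
      Real.sqrt_le_sqrt (mul_le_mul_of_nonneg_left hNy (by linarith))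
    have h3 : 1 ≤ √(Q * y) := by
      apply Real.le_sqrt_of_sq_le
      nlinarith
    have h4 : |L * (⌊y⌋₊ : ℝ) - L * y| ≤ 4 * (1 + Real.log Q) * √(Q * y) := by
      rw [← mul_sub, abs_mul]
      apply mul_le_mul hLb _ (abs_nonneg _) (by positivity)
      rw [abs_le]
      constructor <;> linarith
    have h5 : 6 * (1 + Real.log Q) * √(Q * (⌊y⌋₊ : ℝ)) ≤ 6 * (1 + Real.log Q) * √(Q * y) :=
      mul_le_mul_of_nonneg_left h2 (by positivity)
    have h6 := abs_add_le (∑ m ∈ Finset.Icc 1 ⌊y⌋₊, ac χ m - L * (⌊y⌋₊ : ℝ))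
      (L * (⌊y⌋₊ : ℝ) - L * y)
    rw [sub_add_sub_cancel] at h6
    linarith

end Vale.Agent.P007.S11
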