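import Vale.Agent.P007.S11.Defs2

/-! The key statement from the blocks. -/

set_option autoImplicit false

open MeasureTheory Matrix NumberField Filter Topology IsDedekindDomain
open scoped ENNReal nonZeroDivisors

namespace Vale.Agent.P007.S11

open Vale.Agent.P007 Vale.Agent.P007.R Vale.Agent.P007.N Vale.Agent.P007.H11 Vale.Agent.P007.Z

variable {n : ℕ}

/-- the upper bounds of Hall and Tenenbaum in the form `UpB` -/
theorem upB_ht (n : ℕ) (hn : 0 < n) : ∃ C : ℝ, 0 < C ∧ ∀ e : ℝ, 0 < e → ∃ X₀ : ℝ,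
    ∀ (D : Datum n) (X : ℝ), X₀ ≤ X → UpB D C e X (HO D X) := by
  obtain ⟨B, hHT⟩ := rO_HT n hn
  obtain ⟨C1, hC1, hcr⟩ := ht_crude n hn B
  obtain ⟨C2, hC2, hsh⟩ := ht_short n hn B
  refine ⟨50 * C1 + 50 * C2, by positivity, fun e he => ?_⟩
  obtain ⟨J, hJ⟩ : ∃ J : ℕ, (1 / 2 : ℝ) ^ J < e := exists_pow_lt_of_lt_one he (by norm_num)
  have hsh' : ∀ j : ℕ, ∃ X₀ : ℝ, ∀ g U : ℕ → ℝ, HT n B g U → ∀ X : ℝ, X₀ ≤ X →
      ∑ m ∈ Finset.Icc ⌈X⌉₊ ⌊(1 + (1 / 2 : ℝ) ^ j) * X⌋₊, g m ≤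
        C2 * (1 / 2 : ℝ) ^ j * X / Real.log X * ∏ p ∈ P2 X, U p := fun j =>
    hsh ((1 / 2 : ℝ) ^ j) (by positivity) (pow_le_one₀ (by norm_num) (by norm_num))
  choose x hxx using hsh'
  set x₁ : ℝ := ∑ j ∈ Finset.range (J + 1), |x j| with hx₁
  have hx1 : ∀ j, j ≤ J → x j ≤ x₁ := fun j hj =>
    (le_abs_self _).trans (Finset.single_le_sum (f := fun j => |x j|)
      (fun i _ => abs_nonneg _) (Finset.mem_range.mpr (by omega)))
  refine ⟨max 2 ((max 2 x₁) / e), fun D X hX => ?_⟩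
  have hX2 : 2 ≤ X := (le_max_left _ _).trans hX
  have hX0 : 0 < X := by linarith only [hX2]
  have hXe : max 2 x₁ ≤ e * X := by
    have := (le_max_right _ _).trans hX
    rwa [div_le_iff₀ he, mul_comm] at this
  have hU := (hHT D).U1
  have hg := (hHT D).nonneg
  have hH : 0 ≤ hx (fun p => (up D p)⁻¹) X := hx_nonneg hU (by linarith only [hX2])
  refine ⟨fun Z hZ hZX => ?_, fun δ hδ hδ1 Y hY hYX => ?_⟩
  · have h1 := crude_all hg hU hC1 (hcr _ _ (hHT D)) hZ hZX hX2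
    refine h1.trans ?_
    have hXZ : 1 ≤ X / Z := by rwa [le_div_iff₀ (by linarith only [hZ]), one_mul]
    have h2 : (X / Z) ^ (1 / 16 : ℝ) ≤ (X / Z) ^ (1 / 8 : ℝ) :=
      Real.rpow_le_rpow_of_exponent_le hXZ (by norm_num)
    rw [HO_eq_hx]
    have h3 : 0 ≤ (X / Z) ^ (1 / 16 : ℝ) := by positivity
    have h9 : 50 * C1 * Z * (X / Z) ^ (1 / 16 : ℝ) * hx (fun p => (up D p)⁻¹) X ≤
        (50 * C1 + 50 * C2) * Z * (X / Z) ^ (1 / 8 : ℝ) * hx (fun p => (up D p)⁻¹) X := by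
      gcongr
      linarith only [hC2]
    exact h9
  · have hδ0 : 0 < δ := by linarith only [he, hδ]
    have hY2 : 2 ≤ Y := (le_max_left _ _).trans (hXe.trans hY)
    have hY0 : 0 < Y := by linarith only [hY2]
    -- the dyadic scale
    obtain ⟨j, hj1, hj2⟩ : ∃ j : ℕ, δ ≤ (1 / 2 : ℝ) ^ j ∧ (1 / 2 : ℝ) ^ (j + 1) < δ := by
      have hex : ∃ k : ℕ, (1 / 2 : ℝ) ^ (k + 1) < δ := by
        refine ⟨J, lt_of_le_of_lt ?_ (hJ.trans_le hδ)⟩
        exact pow_le_pow_of_le_one (by norm_num) (by norm_num) (by omega)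
      classical
      refine ⟨Nat.find hex, ?_, Nat.find_spec hex⟩
      rcases Nat.eq_zero_or_pos (Nat.find hex) with h | h
      · rw [h, pow_zero]
        exact hδ1
      · have := Nat.find_min hex (m := Nat.find hex - 1) (by omega)
        rw [Nat.sub_add_cancel h, not_lt] at this
        exact this
    have hjJ : j ≤ J := by
      by_contra hcon
      push Not at hcon
      have h1 : (1 / 2 : ℝ) ^ j ≤ (1 / 2 : ℝ) ^ J :=
        pow_le_pow_of_le_one (by norm_num) (by norm_num) hcon.le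
      linarith only [h1, hJ, hδ, hj1]
    have h1 := hxx j _ _ (hHT D) Y ((hx1 j hjJ).trans ((le_max_right _ _).trans (hXe.trans hY)))
    have h2 : ∑ m ∈ Finset.Icc ⌈Y⌉₊ ⌊(1 + δ) * Y⌋₊, (rO D m : ℝ) ≤
        ∑ m ∈ Finset.Icc ⌈Y⌉₊ ⌊(1 + (1 / 2 : ℝ) ^ j) * Y⌋₊, (rO D m : ℝ) := by
      refine Finset.sum_le_sum_of_subset_of_nonneg ?_ (fun m _ _ => Nat.cast_nonneg _)
      refine Finset.Icc_subset_Icc le_rfl (Nat.floor_le_floor ?_)
      gcongr
    have h3 : C2 * (1 / 2 : ℝ) ^ j * Y / Real.log Y * ∏ p ∈ P2 Y, (up D p)⁻¹ =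
        C2 * (1 / 2 : ℝ) ^ j * Y * hx (fun p => (up D p)⁻¹) Y := by
      unfold hx; ring
    have h4 := hx_le hU hY2 hYX
    have h5 : (1 / 2 : ℝ) ^ j ≤ 2 * δ := by
      rw [pow_succ] at hj2
      linarith only [hj2]
    have hXY : 1 ≤ X / Y := by rwa [le_div_iff₀ hY0, one_mul]
    have h6 : (X / Y) ^ (1 / 16 : ℝ) ≤ (X / Y) ^ (1 / 8 : ℝ) :=
      Real.rpow_le_rpow_of_exponent_le hXY (by norm_num)
    rw [h3] at h1
    rw [HO_eq_hx]
    calc ∑ m ∈ Finset.Icc ⌈Y⌉₊ ⌊(1 + δ) * Y⌋₊, (rO D m : ℝ)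
        ≤ C2 * (1 / 2 : ℝ) ^ j * Y * hx (fun p => (up D p)⁻¹) Y := h2.trans h1
      _ ≤ C2 * (2 * δ) * Y * (25 * (X / Y) ^ (1 / 8 : ℝ) * hx (fun p => (up D p)⁻¹) X) := by
          have h7 : hx (fun p => (up D p)⁻¹) Y ≤
              25 * (X / Y) ^ (1 / 8 : ℝ) * hx (fun p => (up D p)⁻¹) X := by
            refine h4.trans ?_
            gcongr
          have h8 : 0 ≤ hx (fun p => (up D p)⁻¹) Y := hx_nonneg hU (by linarith only [hY2])
          gcongr
      _ = (50 * C2) * δ * Y * (X / Y) ^ (1 / 8 : ℝ) * hx (fun p => (up D p)⁻¹) X := by ring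
      _ ≤ (50 * C1 + 50 * C2) * δ * Y * (X / Y) ^ (1 / 8 : ℝ) * hx (fun p => (up D p)⁻¹) X := by
          gcongr
          linarith only [hC1]

theorem UpB.mono {D : Datum n} {C C' e X H : ℝ} (h : UpB D C e X H) (hC : C ≤ C') (hH : 0 ≤ H)
    (he : 0 < e) (hX : 0 < X) : UpB D C' e X H := by
  refine ⟨fun Z hZ hZX => (h.1 Z hZ hZX).trans ?_, fun δ hδ hδ1 Y hY hYX =>
    (h.2 δ hδ hδ1 Y hY hYX).trans ?_⟩
  · have : 0 ≤ (X / Z) ^ (1 / 8 : ℝ) := by positivity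
    gcongr
  · have hY0 : 0 < Y := lt_of_lt_of_le (by positivity) hY
    have hδ0 : 0 < δ := lt_of_lt_of_le he hδ
    gcongr

theorem key_Wp_pos {Q : ℝ} {χ : ℕ → ℝ} (h : QC Q χ) (x : ℝ) : 0 < Wp χ x := by
  refine Finset.prod_pos fun p hp => ?_
  have hp' := (Finset.mem_filter.1 hp).2
  have h2 : (2 : ℝ) ≤ p := by exact_mod_cast hp'.two_le
  have h3 : 1 / (p : ℝ) ≤ 1 / 2 := one_div_le_one_div_of_le (by norm_num) h2
  have h4 : χ p / (p : ℝ) ≤ 1 / 2 := by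
    have h5 : χ p / (p : ℝ) ≤ 1 / (p : ℝ) := by
      refine div_le_div_of_nonneg_right ?_ (by linarith only [h2])
      rcases h.val p with h | h | h <;> rw [h] <;> norm_num
    exact h5.trans h3
  refine mul_pos ?_ ?_ <;> linarith only [h3, h4]

/-- **[S13]** the key statement -/
theorem key (n : ℕ) (hn : 3 ≤ n) (h7 : QDStmt) (h8 : DelExcStmt) (h9 : DelAddStmt n)
    (h11 : UpperStmt n) (h12 : VolStmt n) (h14 : DiscStmt) : KeyStmt n := by
  obtain ⟨ε, hε, h11⟩ := h11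
  obtain ⟨Cq, hCq, h7⟩ := h7
  obtain ⟨cq, hcq, h7⟩ := h7 ε hε
  obtain ⟨Cu, hCu, h11⟩ := h11 Cq cq hcq
  obtain ⟨Ce, Xe, h8⟩ := h8
  obtain ⟨Ca, ℓa, h9⟩ := h9
  obtain ⟨cv, Dv, hcv, h12⟩ := h12
  obtain ⟨Ch, hCh, hht⟩ := upB_ht n (by omega)
  refine ⟨cv * Real.exp (-(|Ce| + |Ca|)), Cu + Ch, by positivity, by positivity, fun e he => ?_⟩
  obtain ⟨Du, h11⟩ := h11 e he
  obtain ⟨Xh, hht⟩ := hht e he
  set M : ℝ := max (max Xe Xh) (max 2 (Real.exp |ℓa|)) with hM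
  obtain ⟨Dm, hDm⟩ := exists_nat_ge (M ^ 2)
  refine ⟨max (max Du Dv) Dm, fun D hD => ?_⟩
  have hDu : Du ≤ D.disc := (le_max_left _ _).trans ((le_max_left _ _).trans hD)
  have hDv : Dv ≤ D.disc := (le_max_right _ _).trans ((le_max_left _ _).trans hD)
  have hDM : Dm ≤ D.disc := (le_max_right _ _).trans hD
  have hM2 : 2 ≤ M := (le_max_left _ _).trans (le_max_right _ _)
  have hsdM : M ≤ √(D.disc : ℝ) := by
    refine Real.le_sqrt_of_sq_le (hDm.trans ?_)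
    exact_mod_cast hDM
  have h3n : (1 : ℝ) ≤ 3 ^ n := one_le_pow₀ (by norm_num)
  set sd := √(D.disc : ℝ) with hsd
  set X : ℝ := 3 ^ n * sd with hXdef
  have hsd2 : 2 ≤ sd := hM2.trans hsdM
  have hsdX : sd ≤ X := by nlinarith only [h3n, hsd2]
  have hMX : M ≤ X := hsdM.trans hsdX
  have hX2 : 2 ≤ X := hM2.trans hMX
  have hX0 : 0 < X := by linarith only [hX2]
  have hXe : Xe ≤ X := ((le_max_left _ _).trans (le_max_left _ _)).trans hMX
  have hXh : Xh ≤ X := ((le_max_right _ _).trans (le_max_left _ _)).trans hMX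
  have hXa : Real.exp |ℓa| ≤ X := ((le_max_right _ _).trans (le_max_right _ _)).trans hMX
  have hlogX : 0 < Real.log X := Real.log_pos (by linarith only [hX2])
  have hℓ : ℓa ≤ 2 * Real.log X := by
    have h1 : |ℓa| ≤ Real.log X := by rwa [Real.le_log_iff_exp_le hX0]
    have h2 := le_abs_self ℓa
    linarith only [h1, h2, hlogX]
  have hsq : sd ^ 2 = (D.disc : ℝ) := Real.sq_sqrt (Nat.cast_nonneg _)
  have hdX : (D.disc : ℝ) ≤ X ^ 2 := by
    rw [← hsq]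
    gcongr
  have hle : ((discr D.K).natAbs : ℝ) ≤ (D.disc : ℝ) := by
    have h4 := Vale.Agent.P007.N.disc_mx_le D
    rw [Vale.Agent.P007.N.disc_mx] at h4
    exact_mod_cast h4
  have habs : |(discr D.K : ℝ)| = ((discr D.K).natAbs : ℝ) := by
    rw [Nat.cast_natAbs, Int.cast_abs]
  have hdK : |(discr D.K : ℝ)| ≤ (D.disc : ℝ) := by rw [habs]; exact hle
  have hposK : 0 < |(discr D.K : ℝ)| := abs_pos.2 (by exact_mod_cast discr_ne_zero D.K)
  have hlogK : Real.log |(discr D.K : ℝ)| ≤ 2 * Real.log X := by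
    have h1 := Real.log_le_log hposK (hdK.trans hdX)
    rw [Real.log_pow] at h1
    exact_mod_cast h1
  have hsdE : ∀ E : IntermediateField ℚ D.K, Module.finrank ℚ E = 2 →
      |(discr E : ℝ)| ^ 2 ≤ (D.disc : ℝ) := fun E hE =>
    (h14 D.K E hE (by rw [D.deg]; omega)).trans hdK
  have hEX : ∀ E : IntermediateField ℚ D.K, Module.finrank ℚ E = 2 →
      |(discr E : ℝ)| ≤ X ^ 2 := fun E hE => by
    have h1 : (1 : ℝ) ≤ |(discr E : ℝ)| := by
      have h2 : (1 : ℤ) ≤ |discr E| := Int.one_le_abs (discr_ne_zero E)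
      exact_mod_cast h2
    have h2 := (hsdE E hE).trans hdX
    nlinarith only [h1, h2]
  -- the data of the quadratic subfields
  have hdata := fun E : {E : IntermediateField ℚ D.K // Module.finrank ℚ E = 2} => h7 E.1 E.2
  choose χ Q L hQD hL using hdata
  set δ : {E : IntermediateField ℚ D.K // Module.finrank ℚ E = 2} → ℝ := fun E =>
    L E * Wp (χ E) X * Real.log X with hδ
  have hδ0 : ∀ E, 0 < δ E := fun E => by
    have h1 := key_Wp_pos (hQD E).qc X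
    have h2 := (hQD E).pos
    simp only [hδ]
    positivity
  have hlow : ∀ (B : ℝ), 0 ≤ B → (∀ E, |Ce| - Real.log (δ E) ≤ B) → ∀ η : ℝ, 0 < η → η ≤ 1 →
      -Real.log η - (B + Ca) ≤ Del D.K (1 : DirichletCharacter ℂ 1) (2 * Real.log X) η := by
    intro B hB0 hB
    refine h9 D.K D.deg _ hℓ hlogK B hB0 fun E hE η hη hη1 => ?_
    have h1 := h8 E hE Cq _ _ _ (hQD ⟨E, hE⟩) X hXe (hEX E hE) η hη hη1
    have h2 := hB ⟨E, hE⟩
    have h3 := le_abs_self Ce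
    have h4 : Real.log (L ⟨E, hE⟩ * Wp (χ ⟨E, hE⟩) X * Real.log X) = Real.log (δ ⟨E, hE⟩) := rfl
    rw [h4] at h1
    linarith only [h1, h2, h3]
  have hHO : 0 < HO D X := by
    rw [HO_eq_hx]
    obtain ⟨B, hHT⟩ := rO_HT n (by omega)
    exact hx_pos (hHT D).U1 (by linarith only [hX2])
  have hexp : Real.exp (-(|Ce| + |Ca|)) ≤ Real.exp (-(|Ce| + Ca)) := by
    refine Real.exp_le_exp.2 ?_
    have := le_abs_self Ca
    linarith only [this]
  by_cases hall : ∀ E, 1 ≤ δ E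
  · refine ⟨HO D X, hHO, ?_, (hht D X hXh).mono (by linarith only [hCu]) hHO.le he hX0⟩
    have h1 := h12 D hDv (|Ce| + Ca) (hlow |Ce| (abs_nonneg _) fun E => by
      have := Real.log_nonneg (hall E)
      linarith only [this])
    refine le_trans ?_ h1
    gcongr
  · push Not at hall
    -- the smallest value
    have hfin : Finite (IntermediateField ℚ D.K) :=
      Field.finite_intermediateField_of_exists_primitive_element ℚ D.K
        (Field.exists_primitive_element ℚ D.K)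
    obtain ⟨E₁, hE₁⟩ := hall
    have : Nonempty {E : IntermediateField ℚ D.K // Module.finrank ℚ E = 2} := ⟨E₁⟩
    obtain ⟨E₀, hE₀⟩ := Finite.exists_min δ
    have hlt : δ E₀ < 1 := (hE₀ E₁).trans_lt hE₁
    have hlog0 : Real.log (δ E₀) < 0 := Real.log_neg (hδ0 E₀) hlt
    have hH : 0 < δ E₀ * HO D X := mul_pos (hδ0 E₀) hHO
    refine ⟨δ E₀ * HO D X, hH, ?_, ?_⟩
    · have h1 := h12 D hDv (|Ce| - Real.log (δ E₀) + Ca) (hlow (|Ce| - Real.log (δ E₀))
        (by have := abs_nonneg Ce; linarith only [this, hlog0]) fun E => by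
          have := Real.log_le_log (hδ0 E₀) (hE₀ E)
          linarith only [this])
      refine le_trans ?_ h1
      have h2 : Real.exp (-(|Ce| - Real.log (δ E₀) + Ca)) = Real.exp (-(|Ce| + Ca)) * δ E₀ := by
        rw [show -(|Ce| - Real.log (δ E₀) + Ca) = -(|Ce| + Ca) + Real.log (δ E₀) by ring,
          Real.exp_add, Real.exp_log (hδ0 E₀)]
      rw [h2]
      calc cv * Real.exp (-(|Ce| + |Ca|)) * sd * (δ E₀ * HO D X) =
          cv * (Real.exp (-(|Ce| + |Ca|)) * δ E₀) * sd * HO D X := by ring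
        _ ≤ cv * (Real.exp (-(|Ce| + Ca)) * δ E₀) * sd * HO D X := by
          have := (hδ0 E₀).le
          gcongr
    · have h1 := h11 D hDu E₀.1 E₀.2 (hsdE E₀.1 E₀.2) _ _ _ (hQD E₀) (hL E₀) hlt.le
      exact h1.mono (by linarith only [hCh]) hH.le he hX0

end Vale.Agent.P007.S11
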