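import Vale.Agent.P007.S11.DivBd
import Vale.Agent.P016.Bdl.B1

/-! [S5] the inequality of Pólya and Vinogradov for all nonprincipal characters, weak form. -/

set_option autoImplicit false
set_option linter.all false

open Finset

namespace Vale.Agent.P007.S11.PV137

/-- primitive characters -/
theorem prim {L : ℕ} (hL : 1 < L) (ψ : DirichletCharacter ℂ L) (hψ : ψ.IsPrimitive) (N : ℕ) :
    ‖∑ n ∈ range N, ψ (n : ZMod L)‖ ≤ Real.sqrt L * (1 + Real.log L) := by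
  haveI : NeZero L := ⟨by omega⟩
  refine Vale.Agent.P016.polya_vinogradov (fun n => ψ (n : ZMod L)) L hL ?_ ?_ ?_ ?_ ?_ N
  · intro m n
    show ψ ((m * n : ℕ) : ZMod L) = ψ (m : ZMod L) * ψ (n : ZMod L)
    rw [Nat.cast_mul, map_mul]
  · show ψ ((1 : ℕ) : ZMod L) = 1
    rw [Nat.cast_one, map_one]
  · intro m n h
    show ψ (m : ZMod L) = ψ (n : ZMod L)
    rw [(ZMod.natCast_eq_natCast_iff m n L).mpr h]
  · intro r hr hrL
    by_contra hcon
    have hd : L / r ∣ L := Nat.div_dvd_of_dvd hrL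
    have hf : ψ.FactorsThrough (L / r) := by
      rw [DirichletCharacter.factorsThrough_iff_ker_unitsMap hd]
      intro x hx
      rw [MonoidHom.mem_ker] at hx ⊢
      have hxv : (((x : ZMod L).val : ℕ) : ZMod L) = (x : ZMod L) := ZMod.natCast_zmod_val _
      have hco : Nat.Coprime (x : ZMod L).val L := by
        rw [← ZMod.isUnit_iff_coprime, hxv]
        exact x.isUnit
      have hmod : (x : ZMod L).val ≡ 1 [MOD L / r] := by
        rw [← ZMod.natCast_eq_natCast_iff, Nat.cast_one, ZMod.natCast_val]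
        have h1 := congrArg Units.val hx
        rwa [ZMod.unitsMap_val, Units.val_one] at h1
      have h1 : ψ (((x : ZMod L).val : ℕ) : ZMod L) = 1 := by
        by_contra hne
        exact hcon ⟨_, hco, hmod, hne⟩
      rw [hxv] at h1
      rw [Units.ext_iff, MulChar.coe_toUnitHom, Units.val_one]
      exact h1
    have h1 : ψ.conductor ≤ L / r := Nat.sInf_le hf
    have h2 : ψ.conductor = L := hψ
    have h3 := Nat.div_lt_self (show 0 < L by omega) hr.one_lt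
    omega
  · intro n hn
    exact ψ.map_nonunit (by rwa [ZMod.isUnit_iff_coprime])

theorem prim' {L : ℕ} (hL : 1 < L) (ψ : DirichletCharacter ℂ L) (hψ : ψ.IsPrimitive) (N : ℕ) :
    ‖∑ n ∈ Icc 1 N, ψ (n : ZMod L)‖ ≤ Real.sqrt L * (1 + Real.log L) := by
  have h := prim hL ψ hψ (N + 1)
  rwa [Finset.range_eq_Ico, Finset.sum_eq_sum_Ico_succ_bot (Nat.succ_pos N), Nat.cast_zero,
    ψ.map_zero' (by omega), zero_add] at h

theorem sum_mu (n : ℕ) : ∑ d ∈ n.divisors, (ArithmeticFunction.moebius d : ℂ) =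
    if n = 1 then 1 else 0 := by
  have h : ∑ d ∈ n.divisors, ArithmeticFunction.moebius d = if n = 1 then (1 : ℤ) else 0 := by
    rw [← ArithmeticFunction.coe_mul_zeta_apply, ArithmeticFunction.moebius_mul_coe_zeta,
      ArithmeticFunction.one_apply]
  have h2 := congrArg (fun z : ℤ => (z : ℂ)) h
  simpa using h2

theorem sum_mul_dvd (ψ : ℕ → ℂ) (d N : ℕ) (hd : 0 < d) :
    ∑ m ∈ (Icc 1 N).filter (fun m => d ∣ m), ψ m = ∑ k ∈ Icc 1 (N / d), ψ (d * k) := by
  symm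
  refine Finset.sum_nbij' (fun k => d * k) (fun m => m / d) ?_ ?_ ?_ ?_ ?_
  · intro k hk
    rw [mem_Icc] at hk
    rw [mem_filter, mem_Icc]
    refine ⟨⟨Nat.mul_pos hd hk.1, ?_⟩, Dvd.intro _ rfl⟩
    have := (Nat.le_div_iff_mul_le hd).mp hk.2
    rwa [mul_comm] at this
  · intro m hm
    rw [mem_filter, mem_Icc] at hm
    rw [mem_Icc]
    exact ⟨Nat.div_pos (Nat.le_of_dvd hm.1.1 hm.2) hd, Nat.div_le_div_right hm.1.2⟩
  · intro k _
    exact Nat.mul_div_cancel_left k hd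
  · intro m hm
    rw [mem_filter] at hm
    exact Nat.mul_div_cancel' hm.2
  · intro k _
    rfl

theorem imprim {q : ℕ} [NeZero q] {χ : DirichletCharacter ℂ q} (hχ : χ ≠ 1) (N : ℕ) :
    ‖∑ m ∈ Icc 1 N, χ (m : ZMod q)‖ ≤
      q.divisors.card * (Real.sqrt q * (1 + Real.log q)) := by
  have hq0 : q ≠ 0 := NeZero.ne q
  have hf0 : χ.conductor ≠ 0 := χ.conductor_ne_zero
  have hf1 : χ.conductor ≠ 1 := fun h => hχ (DirichletCharacter.eq_one_iff_conductor_eq_one.mpr h)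
  have hf : 1 < χ.conductor := by omega
  have hfq : χ.conductor ≤ q := Nat.le_of_dvd (Nat.pos_of_ne_zero hq0) χ.conductor_dvd_level
  set ψ : ℕ → ℂ := fun n => χ.primitiveCharacter (n : ZMod χ.conductor) with hψ
  have hψmul : ∀ a b : ℕ, ψ (a * b) = ψ a * ψ b := by
    intro a b
    show χ.primitiveCharacter ((a * b : ℕ) : ZMod χ.conductor) = _
    rw [Nat.cast_mul, map_mul]
  have hψ1 : ∀ a : ℕ, ‖ψ a‖ ≤ 1 := fun a => DirichletCharacter.norm_le_one _ _
  have hbd : ∀ M : ℕ, ‖∑ k ∈ Icc 1 M, ψ k‖ ≤ Real.sqrt q * (1 + Real.log q) := by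
    intro M
    refine (prim' hf χ.primitiveCharacter χ.primitiveCharacter_isPrimitive M).trans ?_
    have h1 : (1 : ℝ) ≤ χ.conductor := by exact_mod_cast hf.le
    have h2 : (χ.conductor : ℝ) ≤ q := by exact_mod_cast hfq
    have h3 : 0 ≤ Real.log χ.conductor := Real.log_nonneg h1
    exact mul_le_mul (Real.sqrt_le_sqrt h2)
      (by linarith [Real.log_le_log (by linarith) h2]) (by linarith) (Real.sqrt_nonneg _)
  have hval : ∀ m ∈ Icc 1 N, χ (m : ZMod q) =
      ∑ d ∈ q.divisors, if d ∣ m then (ArithmeticFunction.moebius d : ℂ) * ψ m else 0 := by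
    intro m hm
    rw [mem_Icc] at hm
    have hm0 : m ≠ 0 := by omega
    rw [← sum_filter, ← sum_mul]
    have h1 : q.divisors.filter (fun d => d ∣ m) = (m.gcd q).divisors := by
      ext d
      rw [mem_filter, Nat.mem_divisors, Nat.mem_divisors, Nat.dvd_gcd_iff]
      constructor
      · rintro ⟨⟨h1, _⟩, h2⟩
        exact ⟨⟨h2, h1⟩, Nat.gcd_ne_zero_left hm0⟩
      · rintro ⟨⟨h2, h1⟩, _⟩
        exact ⟨⟨h1, hq0⟩, h2⟩
    rw [h1, sum_mu]
    split_ifs with hg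
    · rw [one_mul]
      have h2 := χ.primitiveCharacter_apply_of_isCoprime (a := (m : ℤ))
        (Nat.isCoprime_iff_coprime.mpr hg)
      rw [Int.cast_natCast, Int.cast_natCast] at h2
      exact h2.symm
    · rw [zero_mul]
      exact χ.map_nonunit (by rwa [ZMod.isUnit_iff_coprime])
  have hsum : ∑ m ∈ Icc 1 N, χ (m : ZMod q) =
      ∑ d ∈ q.divisors, (ArithmeticFunction.moebius d : ℂ) * ψ d * ∑ k ∈ Icc 1 (N / d), ψ k := by
    rw [sum_congr rfl hval, sum_comm]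
    refine sum_congr rfl fun d hd => ?_
    have hd0 : 0 < d := Nat.pos_of_mem_divisors hd
    rw [← sum_filter, sum_mul_dvd _ d N hd0, mul_sum]
    refine sum_congr rfl fun k _ => ?_
    rw [hψmul, mul_assoc]
  rw [hsum]
  refine (norm_sum_le _ _).trans ?_
  calc ∑ d ∈ q.divisors, ‖(ArithmeticFunction.moebius d : ℂ) * ψ d * ∑ k ∈ Icc 1 (N / d), ψ k‖
      ≤ ∑ _d ∈ q.divisors, (Real.sqrt q * (1 + Real.log q)) := by
        refine sum_le_sum fun d _ => ?_
        rw [norm_mul, norm_mul]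
        have h1 : ‖(ArithmeticFunction.moebius d : ℂ)‖ ≤ 1 := by
          rw [Complex.norm_intCast]
          exact_mod_cast ArithmeticFunction.abs_moebius_le_one
        have h2 : ‖(ArithmeticFunction.moebius d : ℂ)‖ * ‖ψ d‖ ≤ 1 :=
          mul_le_one₀ h1 (norm_nonneg _) (hψ1 d)
        calc ‖(ArithmeticFunction.moebius d : ℂ)‖ * ‖ψ d‖ * ‖∑ k ∈ Icc 1 (N / d), ψ k‖
            ≤ 1 * ‖∑ k ∈ Icc 1 (N / d), ψ k‖ := mul_le_mul_of_nonneg_right h2 (norm_nonneg _)
          _ ≤ _ := by rw [one_mul]; exact hbd _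
    _ = _ := by rw [sum_const, nsmul_eq_mul]

end Vale.Agent.P007.S11.PV137

namespace Vale.Agent.P007.S11

/-- **[S5]** -/
theorem pv137 : PVStmt := by
  obtain ⟨C, hC, hdiv⟩ := divisor_bound (1 / 8) (by norm_num)
  refine ⟨9 * C, by linarith, fun q _ χ hχ N => ?_⟩
  have hq0 : q ≠ 0 := NeZero.ne q
  have hq1 : (1 : ℝ) ≤ q := by exact_mod_cast Nat.one_le_iff_ne_zero.mpr hq0
  have hqp : (0 : ℝ) < q := by linarith
  refine (PV137.imprim hχ N).trans ?_
  have h1 := hdiv q hq0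
  have h2 : Real.log q ≤ (q : ℝ) ^ (1 / 8 : ℝ) / (1 / 8) :=
    Real.log_le_rpow_div hqp.le (by norm_num)
  have h3 : (1 : ℝ) ≤ (q : ℝ) ^ (1 / 8 : ℝ) := Real.one_le_rpow hq1 (by norm_num)
  have h4 : 1 + Real.log q ≤ 9 * (q : ℝ) ^ (1 / 8 : ℝ) := by
    have : (q : ℝ) ^ (1 / 8 : ℝ) / (1 / 8) = 8 * (q : ℝ) ^ (1 / 8 : ℝ) := by ring
    linarith
  have h5 : 0 ≤ Real.log q := Real.log_nonneg hq1
  have h6 : (q : ℝ) ^ (3 / 4 : ℝ) = (q : ℝ) ^ (1 / 8 : ℝ) * ((q : ℝ) ^ (1 / 2 : ℝ) *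
      (q : ℝ) ^ (1 / 8 : ℝ)) := by
    rw [← Real.rpow_add hqp, ← Real.rpow_add hqp]
    norm_num
  rw [h6, Real.sqrt_eq_rpow]
  calc (q.divisors.card : ℝ) * ((q : ℝ) ^ (1 / 2 : ℝ) * (1 + Real.log q))
      ≤ (C * (q : ℝ) ^ (1 / 8 : ℝ)) * ((q : ℝ) ^ (1 / 2 : ℝ) * (9 * (q : ℝ) ^ (1 / 8 : ℝ))) := by
        refine mul_le_mul h1 (mul_le_mul_of_nonneg_left h4 (by positivity)) (by positivity)
          (by positivity)
    _ = _ := by ring

end Vale.Agent.P007.S11
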