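import Vale.Agent.P007.S11.Defs2

/-! [S7b] The data of a quadratic field. -/

set_option autoImplicit false

open NumberField

namespace Vale.Agent.P007.S11

open Vale.Agent.P007 Vale.Agent.P007.Z

/-- **[S7b]** -/
theorem qd (h : QuadCharStmt) (h' : CharStmt) : QDStmt := by
  obtain ⟨C, hC1, hC⟩ := h'
  have hC0 : 0 < C := by linarith
  refine ⟨C * 4 ^ (3 / 4 : ℝ), by positivity, fun ε hε => ?_⟩
  obtain ⟨c, hc, hcc⟩ := hC ε hε
  refine ⟨c * 4 ^ (-ε), by positivity, fun E _ _ hE => ?_⟩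
  obtain ⟨q, iq, χ, hχ1, hχ2, hq, haE⟩ := h E hE
  obtain ⟨L, hQC, hL, hcL⟩ := hcc q χ hχ1 hχ2
  have hq0 : (0 : ℝ) < q := by exact_mod_cast Nat.pos_of_ne_zero iq.out
  have hd0 : 0 ≤ |(discr E : ℝ)| := abs_nonneg _
  refine ⟨fun m => (χ (m : ZMod q)).re, C * (q : ℝ) ^ (3 / 4 : ℝ), L,
    ⟨hQC, hL, ?_, lt_of_lt_of_le (by positivity) hcL, haE⟩, ?_⟩
  · rw [mul_assoc, ← Real.mul_rpow (by norm_num) hd0]
    exact mul_le_mul_of_nonneg_left (Real.rpow_le_rpow hq0.le hq (by norm_num)) hC0.le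
  · refine le_trans ?_ hcL
    rw [mul_assoc, ← Real.mul_rpow (by norm_num) hd0]
    exact mul_le_mul_of_nonneg_left (Real.rpow_le_rpow_of_nonpos hq0 hq (by linarith)) hc.le

end Vale.Agent.P007.S11
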