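import Vale.Agent.P007.S11.Defs2
import Vale.Agent.P007.H11.DelFix

/-!
# The character of a quadratic field (block S7)

* `exists_gen`, `exists_pb` : the ring of integers of a quadratic field is `ℤ[θ]`;  `pb_disc` : the discriminant.
* `card_ideals` : the number of ideals of norm `p` is `1 + (D / p)`.
* `jf`, `chr` : the character `m ↦ J(D | m)` modulo `4 |D|`;  `chr_ne_one` : from the pole of order one.
* **`quad_char : QuadCharStmt`**.
-/

set_option autoImplicit false

open NumberField Polynomial Module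

namespace Vale.Agent.P007.S11

namespace QCh

theorem exists_gen (E : Type) [Field E] [NumberField E] (h2 : finrank ℚ E = 2) :
    ∃ θ : 𝓞 E, Algebra.adjoin ℤ {θ} = ⊤ := by
  have hr : finrank ℤ (𝓞 E) = 2 := by rw [RingOfIntegers.rank, h2]
  let b : Basis (Fin 2) ℤ (𝓞 E) := finBasisOfFinrankEq ℤ (𝓞 E) hr
  set u : ℤ := b.repr 1 0 with hu
  set v : ℤ := b.repr 1 1 with hv
  have h1 : (1 : 𝓞 E) = u • b 0 + v • b 1 := by
    have := b.sum_repr 1
    rw [Fin.sum_univ_two] at this
    exact this.symm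
  have hg : IsCoprime u v := by
    rw [Int.isCoprime_iff_gcd_eq_one]
    obtain ⟨u', hu'⟩ := Int.gcd_dvd_left u v
    obtain ⟨v', hv'⟩ := Int.gcd_dvd_right u v
    set g : ℤ := (Int.gcd u v : ℤ) with hgd
    have h3 : (1 : 𝓞 E) = (g : 𝓞 E) * (u' • b 0 + v' • b 1) := by
      rw [h1, hu', hv', mul_add, zsmul_eq_mul, zsmul_eq_mul, zsmul_eq_mul, zsmul_eq_mul]
      push_cast
      ring
    have h4 := congrArg (Algebra.norm ℤ) h3
    rw [map_one, map_mul] at h4
    have h5 : Algebra.norm ℤ (g : 𝓞 E) = g ^ 2 := by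
      have := Algebra.norm_algebraMap (S := 𝓞 E) (R := ℤ) g
      rw [hr] at this
      simpa using this
    rw [h5] at h4
    have h6 : IsUnit (g ^ 2) := IsUnit.of_mul_eq_one _ h4.symm
    have h7 : IsUnit g := (isUnit_pow_iff two_ne_zero).1 h6
    rw [Int.isUnit_iff] at h7
    omega
  obtain ⟨s, w, hsw⟩ := hg
  -- s * u + w * v = 1
  refine ⟨(-w) • b 0 + s • b 1, ?_⟩
  set θ : 𝓞 E := (-w) • b 0 + s • b 1 with hθ
  have e0 : b 0 = s • (1 : 𝓞 E) - v • θ := by
    rw [hθ, h1]
    have : b 0 = (s * u + w * v) • b 0 := by rw [hsw, one_smul]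
    conv_lhs => rw [this]
    simp only [zsmul_eq_mul]
    push_cast
    ring
  have e1 : b 1 = w • (1 : 𝓞 E) + u • θ := by
    rw [hθ, h1]
    have : b 1 = (s * u + w * v) • b 1 := by rw [hsw, one_smul]
    conv_lhs => rw [this]
    simp only [zsmul_eq_mul]
    push_cast
    ring
  have m1 : θ ∈ Algebra.adjoin ℤ {θ} := Algebra.subset_adjoin rfl
  have m0 : (1 : 𝓞 E) ∈ Algebra.adjoin ℤ {θ} := one_mem _
  have k0 : b 0 ∈ Algebra.adjoin ℤ {θ} := by
    rw [e0]
    exact sub_mem (Subalgebra.smul_mem _ m0 s) (Subalgebra.smul_mem _ m1 v)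
  have k1 : b 1 ∈ Algebra.adjoin ℤ {θ} := by
    rw [e1]
    exact add_mem (Subalgebra.smul_mem _ m0 w) (Subalgebra.smul_mem _ m1 u)
  rw [eq_top_iff]
  intro x _
  rw [← b.sum_repr x, Fin.sum_univ_two]
  exact add_mem (Subalgebra.smul_mem _ k0 _) (Subalgebra.smul_mem _ k1 _)

/-- power basis -/
theorem exists_pb (E : Type) [Field E] [NumberField E] (h2 : finrank ℚ E = 2) :
    ∃ pb : PowerBasis ℤ (𝓞 E), pb.dim = 2 := by
  obtain ⟨θ, hθ⟩ := exists_gen E h2
  refine ⟨PowerBasis.ofAdjoinEqTop' (RingOfIntegers.isIntegral θ) hθ, ?_⟩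
  rw [← PowerBasis.finrank, RingOfIntegers.rank, h2]

/-- ideals of prime norm and homomorphisms -/
noncomputable def idealEquiv {O : Type} [CommRing O] [IsDedekindDomain O] [Module.Free ℤ O] {p : ℕ} (hp : p.Prime) :
    {I : Ideal O // Ideal.absNorm I = p} ≃ (O →+* ZMod p) := by
  haveI : Fact p.Prime := ⟨hp⟩
  symm
  refine Equiv.ofBijective (fun φ => ⟨RingHom.ker φ, ?_⟩) ⟨?_, ?_⟩
  · have hs : Function.Surjective φ := ZMod.ringHom_surjective φ
    rw [Ideal.absNorm_apply, Submodule.cardQuot_apply]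
    rw [Nat.card_congr (RingHom.quotientKerEquivOfSurjective hs).toEquiv, Nat.card_zmod]
  · intro φ ψ h
    have h' : RingHom.ker φ = RingHom.ker ψ := congrArg Subtype.val h
    ext x
    have hs : Function.Surjective φ := ZMod.ringHom_surjective φ
    obtain ⟨n, hn⟩ : ∃ n : ℤ, (n : ZMod p) = φ x := ZMod.intCast_surjective _
    have h1 : x - n ∈ RingHom.ker φ := by
      rw [RingHom.mem_ker, map_sub, map_intCast, hn, sub_self]
    rw [h', RingHom.mem_ker, map_sub, map_intCast, sub_eq_zero] at h1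
    rw [h1, hn]
  · rintro ⟨I, hI⟩
    rw [Ideal.absNorm_apply, Submodule.cardQuot_apply] at hI
    have : Finite (O ⧸ I) := Nat.finite_of_card_ne_zero (by rw [hI]; exact hp.ne_zero)
    let _ := Fintype.ofFinite (O ⧸ I)
    have hc : Fintype.card (O ⧸ I) = p := by rw [← Nat.card_eq_fintype_card, hI]
    let e := ZMod.ringEquivOfPrime (O ⧸ I) hp hc
    refine ⟨(e.symm : (O ⧸ I) →+* ZMod p).comp (Ideal.Quotient.mk I), ?_⟩
    apply Subtype.ext
    show RingHom.ker _ = I
    ext x
    rw [RingHom.mem_ker, RingHom.comp_apply]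
    constructor
    · intro h
      have h2 : (Ideal.Quotient.mk I) x = 0 := by
        have := congrArg e h
        simpa using this
      exact Ideal.Quotient.eq_zero_iff_mem.1 h2
    · intro h
      rw [Ideal.Quotient.eq_zero_iff_mem.2 h, map_zero]


/-- coefficients of the minimal polynomial and the discriminant -/
theorem pb_disc (E : Type) [Field E] [NumberField E] (pb : PowerBasis ℤ (𝓞 E)) (hd : pb.dim = 2) :
    ∃ c0 c1 : ℤ, minpoly ℤ pb.gen = Polynomial.X ^ 2 + Polynomial.C c1 * Polynomial.X + Polynomial.C c0 ∧ c1 ^ 2 - 4 * c0 = discr E := by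
  set m := minpoly ℤ pb.gen with hm
  have hmon : m.Monic := minpoly.monic pb.isIntegral_gen
  have hdeg : m.natDegree = 2 := by rw [hm, pb.natDegree_minpoly, hd]
  have e : m = Polynomial.X ^ 2 + Polynomial.C (m.coeff 1) * Polynomial.X + Polynomial.C (m.coeff 0) := by
    have h1 := m.as_sum_range' 3 (by omega)
    rw [Finset.sum_range_succ, Finset.sum_range_succ, Finset.sum_range_one] at h1
    have h2 : m.coeff 2 = 1 := by
      have := hmon.coeff_natDegree
      rwa [hdeg] at this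
    rw [h2] at h1
    conv_lhs => rw [h1]
    simp only [← C_mul_X_pow_eq_monomial, map_one]
    ring
  refine ⟨m.coeff 0, m.coeff 1, e, ?_⟩
  set c0 := m.coeff 0
  set c1 := m.coeff 1
  have hg : pb.gen ^ 2 = -(c1 : 𝓞 E) * pb.gen - (c0 : 𝓞 E) := by
    have h1 : aeval pb.gen m = 0 := minpoly.aeval ℤ pb.gen
    rw [e] at h1
    simp only [map_add, map_mul, map_pow, aeval_X, eq_intCast, map_intCast] at h1
    linear_combination h1
  let b : Basis (Fin 2) ℤ (𝓞 E) := pb.basis.reindex (finCongr hd)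
  have b0 : b 0 = 1 := by
    simp [b]
  have b1 : b 1 = pb.gen := by
    simp [b]
  have hrk : finrank ℤ (𝓞 E) = 2 := by rw [PowerBasis.finrank pb, hd]
  have t1 : Algebra.trace ℤ (𝓞 E) 1 = 2 := by
    have := Algebra.trace_algebraMap (R := ℤ) (S := 𝓞 E) 1
    rw [map_one, hrk] at this
    simpa using this
  have tg : Algebra.trace ℤ (𝓞 E) pb.gen = -c1 := by
    have hgg : pb.gen * pb.gen = (-c1) • b 1 + (-c0) • b 0 := by
      rw [← pow_two, hg, b0, b1]
      simp only [zsmul_eq_mul]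
      push_cast
      ring
    have r1 : b.repr (pb.gen * pb.gen) 1 = -c1 := by
      rw [hgg, map_add, map_smul, map_smul, b.repr_self, b.repr_self]
      simp
    have r0 : b.repr pb.gen 0 = 0 := by
      rw [← b1, b.repr_self]
      simp
    rw [Algebra.trace_eq_matrix_trace b, Matrix.trace_fin_two, Algebra.leftMulMatrix_eq_repr_mul,
      Algebra.leftMulMatrix_eq_repr_mul, b0, mul_one, b1, r1, r0, zero_add]
  have tc : ∀ c : ℤ, Algebra.trace ℤ (𝓞 E) (c : 𝓞 E) = 2 * c := by
    intro c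
    have := Algebra.trace_algebraMap (R := ℤ) (S := 𝓞 E) c
    rw [hrk] at this
    simpa using this
  have tg2 : Algebra.trace ℤ (𝓞 E) (pb.gen * pb.gen) = c1 ^ 2 - 2 * c0 := by
    rw [← pow_two, hg, map_sub, tc]
    have h3 : -(c1 : 𝓞 E) * pb.gen = (-c1) • pb.gen := by
      rw [zsmul_eq_mul]
      push_cast
      ring
    rw [h3, map_smul, tg, smul_eq_mul]
    ring
  rw [← discr_eq_discr E b, Algebra.discr_def, Matrix.det_fin_two]
  simp only [Algebra.traceMatrix_apply, Algebra.traceForm_apply, b0, b1, one_mul, mul_one, t1, tg, tg2]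
  ring

/-- the number of ideals of norm `p` -/
theorem card_ideals (E : Type) [Field E] [NumberField E] (h2 : finrank ℚ E = 2) (p : ℕ) (hp : p.Prime) (hp2 : p ≠ 2) :
    haveI : Fact p.Prime := ⟨hp⟩
    (Nat.card {I : Ideal (𝓞 E) // Ideal.absNorm I = p} : ℤ) = 1 + legendreSym p (discr E) := by
  have : Fact p.Prime := ⟨hp⟩
  obtain ⟨pb, hd⟩ := exists_pb E h2
  obtain ⟨c0, c1, hm, hD⟩ := pb_disc E pb hd
  have h2u : (2 : ZMod p) ≠ 0 := by
    intro h
    have h1 : ((2 : ℕ) : ZMod p) = 0 := by exact_mod_cast h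
    rw [ZMod.natCast_eq_zero_iff] at h1
    exact hp2 ((Nat.prime_dvd_prime_iff_eq hp Nat.prime_two).1 h1)
  have e1 : Nat.card {I : Ideal (𝓞 E) // Ideal.absNorm I = p} = Nat.card (𝓞 E →ₐ[ℤ] ZMod p) :=
    Nat.card_congr ((idealEquiv hp).trans (RingHom.equivIntAlgHom _ _))
  have e2 : Nat.card (𝓞 E →ₐ[ℤ] ZMod p) = Nat.card {y : ZMod p // aeval y (minpoly ℤ pb.gen) = 0} :=
    Nat.card_congr pb.liftEquiv
  have e3 : Nat.card {y : ZMod p // aeval y (minpoly ℤ pb.gen) = 0} = Nat.card {x : ZMod p // x ^ 2 = ((discr E : ℤ) : ZMod p)} := by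
    have key : ∀ y : ZMod p, aeval y (minpoly ℤ pb.gen) = 0 ↔ (2 * y + c1) ^ 2 = ((discr E : ℤ) : ZMod p) := by
      intro y
      rw [hm, ← hD]
      simp only [map_add, map_mul, map_pow, aeval_X, eq_intCast, map_intCast]
      push_cast
      constructor
      · intro h
        linear_combination 4 * h
      · intro h
        have h4 : (4 : ZMod p) * (y ^ 2 + c1 * y + c0) = 0 := by linear_combination h
        have h5 : (4 : ZMod p) ≠ 0 := by
          have : (4 : ZMod p) = 2 * 2 := by norm_num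
          rw [this]
          exact mul_ne_zero h2u h2u
        exact (mul_eq_zero.1 h4).resolve_left h5
    refine Nat.card_congr
      { toFun := fun y => ⟨2 * y.1 + c1, (key y.1).1 y.2⟩
        invFun := fun x => ⟨(x.1 - c1) / 2, (key _).2 ?_⟩
        left_inv := fun y => Subtype.ext ?_
        right_inv := fun x => Subtype.ext ?_ }
    · rw [mul_div_cancel₀ _ h2u, sub_add_cancel]
      exact x.2
    · show (2 * y.1 + c1 - c1) / 2 = y.1
      rw [add_sub_cancel_right, mul_div_cancel_left₀ _ h2u]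
    · show 2 * ((x.1 - c1) / 2) + c1 = x.1
      rw [mul_div_cancel₀ _ h2u, sub_add_cancel]
  have e4 := legendreSym.card_sqrts p hp2 (discr E)
  rw [e1, e2, e3]
  have e5 : Nat.card {x : ZMod p // x ^ 2 = ((discr E : ℤ) : ZMod p)} = {x : ZMod p | x ^ 2 = ((discr E : ℤ) : ZMod p)}.toFinset.card := by
    rw [Nat.card_eq_fintype_card, Set.toFinset_card]
    rfl
  rw [e5, e4]
  ring


/-! ### the character -/

open scoped NumberTheorySymbols

open Classical in
/-- the Jacobi symbol `J(D | m)` at the `m` prime to `4 D` -/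
noncomputable def jf (D : ℤ) (m : ℕ) : ℤ := if m.Coprime (4 * D.natAbs) then J(D | m) else 0

theorem odd_of_coprime {D : ℤ} {m : ℕ} (h : m.Coprime (4 * D.natAbs)) : Odd m := by
  have h1 : m.Coprime 4 := Nat.Coprime.coprime_mul_right_right h
  exact Nat.coprime_two_right.1 (Nat.Coprime.coprime_dvd_right (by norm_num) h1)

theorem ne_zero_of_coprime {D : ℤ} {m : ℕ} (h : m.Coprime (4 * D.natAbs)) : m ≠ 0 := by
  rintro rfl
  have := odd_of_coprime h
  simp at this

theorem jf_mod (D : ℤ) (m : ℕ) : jf D (m % (4 * D.natAbs)) = jf D m := by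
  unfold jf
  have e : (m % (4 * D.natAbs)).Coprime (4 * D.natAbs) ↔ m.Coprime (4 * D.natAbs) := by
    unfold Nat.Coprime
    rw [← Nat.gcd_rec, Nat.gcd_comm]
  by_cases h : m.Coprime (4 * D.natAbs)
  · rw [if_pos h, if_pos (e.2 h)]
    exact (jacobiSym.mod_right D (odd_of_coprime h)).symm
  · rw [if_neg h, if_neg fun h' => h (e.1 h')]

theorem jf_mul (D : ℤ) (a b : ℕ) : jf D (a * b) = jf D a * jf D b := by
  unfold jf
  by_cases ha : a.Coprime (4 * D.natAbs)
  · by_cases hb : b.Coprime (4 * D.natAbs)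
    · rw [if_pos ha, if_pos hb, if_pos (Nat.Coprime.mul_left ha hb)]
      have : NeZero a := ⟨ne_zero_of_coprime ha⟩
      have : NeZero b := ⟨ne_zero_of_coprime hb⟩
      exact jacobiSym.mul_right D a b
    · rw [if_neg hb, mul_zero, if_neg fun h => hb (Nat.Coprime.coprime_mul_left h)]
  · rw [if_neg ha, zero_mul, if_neg fun h => ha (Nat.Coprime.coprime_mul_right h)]

theorem jf_one (D : ℤ) : jf D 1 = 1 := by
  unfold jf
  rw [if_pos (Nat.coprime_one_left _), jacobiSym.one_right]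

theorem jf_sq {D : ℤ} {m : ℕ} (h : m.Coprime (4 * D.natAbs)) : jf D m ^ 2 = 1 := by
  unfold jf
  rw [if_pos h]
  have h1 : m.Coprime D.natAbs := Nat.Coprime.coprime_mul_left_right h
  exact jacobiSym.sq_one (by rw [Int.gcd_comm]; exact h1)

variable (D : ℤ) [NeZero (4 * D.natAbs)]

/-- the character -/
noncomputable def chr : DirichletCharacter ℂ (4 * D.natAbs) where
  toFun a := (jf D a.val : ℂ)
  map_one' := by
    have : Fact (1 < 4 * D.natAbs) := ⟨by have := NeZero.ne (4 * D.natAbs); omega⟩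
    rw [ZMod.val_one, jf_one, Int.cast_one]
  map_mul' a b := by
    rw [ZMod.val_mul, jf_mod, jf_mul, Int.cast_mul]
  map_nonunit' a ha := by
    have h : ¬ a.val.Coprime (4 * D.natAbs) := by
      intro h
      apply ha
      have h1 := (ZMod.isUnit_iff_coprime a.val (4 * D.natAbs)).2 h
      rwa [ZMod.natCast_zmod_val] at h1
    unfold jf
    rw [if_neg h, Int.cast_zero]

theorem chr_natCast (m : ℕ) : chr D (m : ZMod (4 * D.natAbs)) = (jf D m : ℂ) := by
  show ((jf D (m : ZMod (4 * D.natAbs)).val : ℤ) : ℂ) = _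
  rw [ZMod.val_natCast, jf_mod]

theorem chr_sq : chr D ^ 2 = 1 := by
  ext a
  rw [MulChar.pow_apply_coe, MulChar.one_apply_coe]
  have h1 : a.val.val.Coprime (4 * D.natAbs) := ZMod.val_coe_unit_coprime a
  show ((jf D a.val.val : ℤ) : ℂ) ^ 2 = 1
  exact_mod_cast jf_sq h1

omit [NeZero (4 * D.natAbs)] in
theorem jf_prime {p : ℕ} [hp : Fact p.Prime] (hp2 : p ≠ 2) : jf D p = legendreSym p D := by
  unfold jf
  split_ifs with h
  · rw [jacobiSym.legendreSym.to_jacobiSym]
  · symm
    rw [legendreSym.eq_zero_iff, ZMod.intCast_zmod_eq_zero_iff_dvd]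
    by_contra h1
    apply h
    rw [Nat.Prime.coprime_iff_not_dvd hp.out]
    intro h3
    rcases (Nat.Prime.dvd_mul hp.out).1 h3 with h4 | h4
    · have h5 : p ∣ 2 := hp.out.dvd_of_dvd_pow (show p ∣ 2 ^ 2 by norm_num; exact h4)
      exact hp2 ((Nat.prime_dvd_prime_iff_eq hp.out Nat.prime_two).1 h5)
    · exact h1 (Int.natCast_dvd.2 h4)


/-! ### the character is not trivial -/

open Vale.Agent.P007 Vale.Agent.P007.Z Vale.Agent.P007.N Vale.Agent.P007.H11

/-- not almost all primes split in a quadratic field -/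
theorem not_all_split (E : Type) [Field E] [NumberField E] (N : ℕ) (hN : N ≠ 0)
    (h : ∀ p : ℕ, p.Prime → ¬ p ∣ N → aE E p = 2) : False := by
  classical
  obtain ⟨C1, hC1, h1⟩ := PS_fixed E
  obtain ⟨C2, hC2, h2⟩ := PS_fixed ℚ
  set k : ℝ := 2 * (N.primeFactors.card : ℝ) with hk
  have hk0 : 0 ≤ k := by positivity
  have key : ∀ s : ℝ, 1 < s → 2 * Z.PS ℚ chi0 s ≤ Z.PS E chi0 s + k := by
    intro s hs
    rw [PS_chi0, PS_chi0]
    have s1 := summable_aN_prime ℚ hs
    have s2 := summable_aN_prime E hs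
    set T : Finset Nat.Primes := (Finset.univ : Finset {x // x ∈ N.primeFactors}).map
      ⟨fun p => (⟨p.1, Nat.prime_of_mem_primeFactors p.2⟩ : Nat.Primes), fun a b hab => by
        apply Subtype.ext
        exact congrArg (fun q : Nat.Primes => (q : ℕ)) hab⟩ with hT
    have hTc : (T.card : ℝ) = N.primeFactors.card := by
      rw [hT, Finset.card_map, Finset.card_univ, Fintype.card_coe]
    have hTm : ∀ p : Nat.Primes, (p : ℕ) ∣ N → p ∈ T := by
      intro p hp
      rw [hT, Finset.mem_map]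
      exact ⟨⟨(p : ℕ), Nat.mem_primeFactors.2 ⟨p.2, hp, hN⟩⟩, Finset.mem_univ _, rfl⟩
    have s3 : Summable (fun p : Nat.Primes => if p ∈ T then (2 : ℝ) else 0) :=
      summable_of_ne_finset_zero (s := T) fun p hp => if_neg hp
    have e3 : ∑' p : Nat.Primes, (if p ∈ T then (2 : ℝ) else 0) = k := by
      rw [tsum_eq_sum (s := T) fun p hp => if_neg hp, Finset.sum_congr rfl fun p hp => if_pos hp,
        Finset.sum_const, nsmul_eq_mul, hTc, hk]
      ring
    rw [← tsum_mul_left, ← e3, ← s2.tsum_add s3]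
    refine (s1.mul_left 2).tsum_le_tsum (fun p => ?_) (s2.add s3)
    have e1 : (Z.aN ℚ p : ℝ) = 1 := by
      have : Z.aN ℚ p = 1 := aE_rat p.2.ne_zero
      rw [this, Nat.cast_one]
    have hp1 : (1 : ℝ) ≤ (p : ℕ) := by exact_mod_cast p.2.one_lt.le
    have e2 : ((p : ℕ) : ℝ) ^ (-s) ≤ 1 := Real.rpow_le_one_of_one_le_of_nonpos hp1 (by linarith)
    have e4 : 0 ≤ ((p : ℕ) : ℝ) ^ (-s) := by positivity
    rw [e1, one_mul]
    by_cases hp : p ∈ T
    · rw [if_pos hp]
      have : 0 ≤ (Z.aN E p : ℝ) * ((p : ℕ) : ℝ) ^ (-s) := by positivity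
      linarith
    · rw [if_neg hp, add_zero]
      have h5 : Z.aN E p = 2 := h p p.2 fun h6 => hp (hTm p h6)
      rw [h5]
      norm_num
  set M : ℝ := C1 + 2 * C2 + k with hM
  have hM0 : 0 ≤ M := by positivity
  set s : ℝ := 1 + Real.exp (-(M + 1)) with hs
  have he := Real.exp_pos (-(M + 1))
  have he1 : Real.exp (-(M + 1)) ≤ 1 := by
    rw [Real.exp_le_one_iff]
    linarith
  have hs1 : 1 < s := by rw [hs]; linarith
  have hs2 : s ≤ 2 := by rw [hs]; linarith
  have a1 := abs_le.1 (h1 s hs1 hs2)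
  have a2 := abs_le.1 (h2 s hs1 hs2)
  have a3 := key s hs1
  have e : Real.log (s - 1) = -(M + 1) := by
    rw [hs, add_sub_cancel_left, Real.log_exp]
  rw [e] at a1 a2
  linarith [a1.1, a1.2, a2.1, a2.2]

end QCh

open QCh

/-- **[S7] the character of a quadratic field** -/
theorem quad_char : QuadCharStmt := by
  intro E _ _ h2
  have hD : discr E ≠ 0 := discr_ne_zero E
  have hq : NeZero (4 * (discr E).natAbs) := ⟨by
    have := Int.natAbs_ne_zero.2 hD
    omega⟩
  have hval : ∀ p : ℕ, p.Prime → p ≠ 2 →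
      (Z.aE E p : ℝ) = 1 + (chr (discr E) (p : ZMod (4 * (discr E).natAbs))).re := by
    intro p hp hp2
    have : Fact p.Prime := ⟨hp⟩
    have h1 := card_ideals E h2 p hp hp2
    rw [chr_natCast, jf_prime _ hp2, Complex.intCast_re]
    have h3 : ((Z.aE E p : ℤ) : ℝ) = ((1 + legendreSym p (discr E) : ℤ) : ℝ) := by
      rw [← h1]
      rfl
    push_cast at h3
    exact h3
  refine ⟨4 * (discr E).natAbs, hq, chr (discr E), ?_, chr_sq _, ?_, hval⟩
  · intro h1
    refine not_all_split E (4 * (discr E).natAbs) hq.ne fun p hp hpN => ?_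
    have hp2 : p ≠ 2 := by
      rintro rfl
      exact hpN (Dvd.dvd.mul_right (by norm_num) _)
    have h3 := hval p hp hp2
    rw [h1, MulChar.one_apply ((ZMod.isUnit_iff_coprime p _).2 ((Nat.Prime.coprime_iff_not_dvd hp).2 hpN))] at h3
    have h4 : (Z.aE E p : ℝ) = 2 := by
      rw [h3]
      norm_num
    exact_mod_cast h4
  · push_cast
    rw [Nat.cast_natAbs, Int.cast_abs]

end Vale.Agent.P007.S11
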