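import Vale.Agent.P007.S11.Defs

/-! [S4c] Rankin's trick for very smooth numbers (helper124). -/

set_option autoImplicit false

open Finset

namespace Vale.Agent.P007.S11

namespace RS124

/-- Euler products for submultiplicative functions -/
theorem euler_gen {h : ℕ → ℝ} (h0 : ∀ m, 0 ≤ h m) (h1 : h 1 ≤ 1)
    (hsub : ∀ a b : ℕ, a.Coprime b → h (a * b) ≤ h a * h b) {V : ℕ → ℝ} (P : Finset ℕ) :
    (∀ p ∈ P, p.Prime) → (∀ p ∈ P, ∀ M, ∑ k ∈ range M, h (p ^ k) ≤ V p) →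
    ∀ S : Finset ℕ, (∀ b ∈ S, b ≠ 0 ∧ ∀ p : ℕ, p.Prime → p ∣ b → p ∈ P) →
    ∑ b ∈ S, h b ≤ ∏ p ∈ P, V p := by
  classical
  induction P using Finset.induction_on with
  | empty =>
    intro _ _ S hS
    rw [prod_empty]
    have hS1 : S ⊆ {1} := by
      intro b hb
      obtain ⟨hb0, hb1⟩ := hS b hb
      rw [mem_singleton]
      by_contra hne
      obtain ⟨p, hp, hpb⟩ := Nat.exists_prime_and_dvd hne
      exact absurd (hb1 p hp hpb) (notMem_empty p)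
    calc ∑ b ∈ S, h b ≤ ∑ b ∈ ({1} : Finset ℕ), h b :=
          sum_le_sum_of_subset_of_nonneg hS1 fun b _ _ => h0 b
      _ = h 1 := sum_singleton _ _
      _ ≤ 1 := h1
  | insert q P hq ih =>
    intro hP hV S hS
    have hqp : q.Prime := hP q (mem_insert_self q P)
    have hVq : 0 ≤ V q := by simpa using hV q (mem_insert_self q P) 0
    set e : ℕ → ℕ := fun b => b.factorization q with he
    set c : ℕ → ℕ := fun b => b / q ^ b.factorization q with hc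
    set K : ℕ := S.sup e + 1 with hK
    have hbc : ∀ b : ℕ, q ^ e b * c b = b := fun b => Nat.ordProj_mul_ordCompl_eq_self b q
    have hcop : ∀ b ∈ S, (q ^ e b).Coprime (c b) := fun b hb =>
      (Nat.coprime_ordCompl hqp (hS b hb).1).pow_left _
    have hS' : ∀ b' ∈ S.image c, b' ≠ 0 ∧ ∀ p : ℕ, p.Prime → p ∣ b' → p ∈ P := by
      intro b' hb'
      obtain ⟨b, hb, rfl⟩ := mem_image.1 hb'
      obtain ⟨hb0, hb1⟩ := hS b hb
      refine ⟨?_, fun p hp hpb => ?_⟩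
      · intro h00
        apply hb0
        rw [← hbc b, h00, mul_zero]
      · have hpb' : p ∣ b := by
          rw [← hbc b]
          exact Dvd.dvd.mul_left hpb _
        rcases mem_insert.1 (hb1 p hp hpb') with h2 | h2
        · exfalso
          rw [h2] at hpb
          exact Nat.not_dvd_ordCompl hqp hb0 hpb
        · exact h2
    have hih := ih (fun p hp => hP p (mem_insert_of_mem hp))
      (fun p hp => hV p (mem_insert_of_mem hp)) (S.image c) hS'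
    rw [prod_insert hq]
    calc ∑ b ∈ S, h b ≤ ∑ b ∈ S, h (q ^ e b) * h (c b) := by
          refine sum_le_sum fun b hb => ?_
          conv_lhs => rw [← hbc b]
          exact hsub _ _ (hcop b hb)
      _ = ∑ t ∈ S.image (fun b => (e b, c b)), h (q ^ t.1) * h t.2 := by
          rw [sum_image]
          intro a _ b _ hab
          have h2 : e a = e b := congrArg Prod.fst hab
          have h3 : c a = c b := congrArg Prod.snd hab
          rw [← hbc a, ← hbc b, h2, h3]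
      _ ≤ ∑ t ∈ range K ×ˢ S.image c, h (q ^ t.1) * h t.2 := by
          refine sum_le_sum_of_subset_of_nonneg ?_ fun t _ _ => mul_nonneg (h0 _) (h0 _)
          intro t ht
          obtain ⟨b, hb, rfl⟩ := mem_image.1 ht
          refine mem_product.2 ⟨?_, mem_image_of_mem c hb⟩
          rw [mem_range, hK]
          exact Nat.lt_succ_of_le (le_sup (f := e) hb)
      _ = (∑ k ∈ range K, h (q ^ k)) * ∑ b' ∈ S.image c, h b' := by
          rw [sum_product, sum_mul_sum]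
      _ ≤ V q * ∏ p ∈ P, V p := by
          refine mul_le_mul (hV q (mem_insert_self q P) K) hih (sum_nonneg fun b _ => h0 b) hVq

theorem sum_rpow_le (N : ℕ) :
    ∑ m ∈ Icc 1 N, (m : ℝ) ^ (-(9 / 10) : ℝ) ≤ 10 * (N : ℝ) ^ (1 / 10 : ℝ) := by
  induction N with
  | zero => simp
  | succ N ih =>
    rw [sum_Icc_succ_top (by omega)]
    have hN : (0 : ℝ) < (N : ℝ) + 1 := by positivity
    push_cast
    have h1 : (N : ℝ) ^ (1 / 10 : ℝ) ≤ ((N : ℝ) + 1) ^ (1 / 10 : ℝ) -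
        1 / 10 * ((N : ℝ) + 1) ^ (-(9 / 10) : ℝ) := by
      have e1 : (N : ℝ) = ((N : ℝ) + 1) * (1 + -(1 / ((N : ℝ) + 1))) := by
        field_simp
        ring
      have hs : -1 ≤ -(1 / ((N : ℝ) + 1)) := by
        rw [neg_le_neg_iff, div_le_one hN]
        linarith [Nat.cast_nonneg (α := ℝ) N]
      have h2 := rpow_one_add_le_one_add_mul_self hs (p := 1 / 10) (by norm_num) (by norm_num)
      have h3 : ((N : ℝ) + 1) ^ (-(9 / 10) : ℝ) =
          ((N : ℝ) + 1) ^ (1 / 10 : ℝ) * (1 / ((N : ℝ) + 1)) := by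
        rw [one_div ((N : ℝ) + 1), ← Real.rpow_neg_one ((N : ℝ) + 1), ← Real.rpow_add hN]
        norm_num
      conv_lhs => rw [e1]
      rw [Real.mul_rpow hN.le (by linarith), h3]
      have h4 : 0 ≤ ((N : ℝ) + 1) ^ (1 / 10 : ℝ) := by positivity
      nlinarith [mul_le_mul_of_nonneg_left h2 h4]
    linarith

/-- the local sums -/
theorem local_sum {n : ℕ} (hn : 1 ≤ n) {B : ℝ} {T : Finset ℕ} {χ g U : ℕ → ℝ}
    (hG : GF n B T χ g U) {p : ℕ} (hp : p.Prime) (M : ℕ) :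
    ∑ k ∈ range M, g (p ^ k) / ((p ^ k : ℕ) : ℝ) ^ (1 - 1 / (10 * n) : ℝ) ≤
      1 + 2 * |B| / (1 - (2 : ℝ) ^ (-(9 / (10 * n)) : ℝ)) * (p : ℝ) ^ (-(9 / 10) : ℝ) := by
  have hn0 : (0 : ℝ) < n := by exact_mod_cast hn
  have hp2 : (2 : ℝ) ≤ p := by exact_mod_cast hp.two_le
  have hp0 : (0 : ℝ) < p := by linarith
  set r : ℝ := (2 : ℝ) ^ (-(9 / (10 * n)) : ℝ) with hr
  have hr0 : 0 < r := by positivity
  have hr1 : r < 1 := Real.rpow_lt_one_of_one_lt_of_neg (by norm_num) (by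
    rw [neg_lt_zero]
    positivity)
  have hB0 : 0 ≤ |B| := abs_nonneg B
  have hterm : ∀ k : ℕ, 1 ≤ k → g (p ^ k) / ((p ^ k : ℕ) : ℝ) ^ (1 - 1 / (10 * n) : ℝ) ≤
      |B| * (2 * (p : ℝ) ^ (-(9 / 10) : ℝ) * r ^ k) := by
    intro k hk
    set j : ℕ := (k + n - 1) / n with hj
    have hkj : k ≤ n * j := by
      have h1 := Nat.div_add_mod (k + n - 1) n
      have h2 := Nat.mod_lt (k + n - 1) (show 0 < n by omega)
      rw [← hj] at h1
      omega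
    have hkj' : (k : ℝ) ≤ n * j := by exact_mod_cast hkj
    have hj1 : 1 ≤ j := by
      rw [hj, Nat.one_le_div_iff (by omega)]
      omega
    have hj1' : (1 : ℝ) ≤ j := by exact_mod_cast hj1
    have h1 := hG.pow p k hp hk
    rw [← hj] at h1
    have h2 : g (p ^ k) ≤ |B| * (p : ℝ) ^ k / (p : ℝ) ^ j := by
      rw [le_div_iff₀ (by positivity)]
      refine h1.trans ?_
      gcongr
      exact le_abs_self B
    have hkn : (k : ℝ) / n ≤ j := by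
      rw [div_le_iff₀ hn0]
      linarith
    calc g (p ^ k) / ((p ^ k : ℕ) : ℝ) ^ (1 - 1 / (10 * n) : ℝ)
        ≤ (|B| * (p : ℝ) ^ k / (p : ℝ) ^ j) / ((p ^ k : ℕ) : ℝ) ^ (1 - 1 / (10 * n) : ℝ) := by
          gcongr
      _ = |B| * (p : ℝ) ^ ((k : ℝ) - j - k * (1 - 1 / (10 * n))) := by
          push_cast
          rw [← Real.rpow_natCast (p : ℝ) k, ← Real.rpow_natCast (p : ℝ) j,
            ← Real.rpow_mul hp0.le, mul_div_assoc, ← Real.rpow_sub hp0, mul_div_assoc,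
            ← Real.rpow_sub hp0]
      _ ≤ |B| * (p : ℝ) ^ (-(9 / 10) + -(9 / 10 * ((j : ℝ) - 1))) := by
          refine mul_le_mul_of_nonneg_left ?_ hB0
          refine Real.rpow_le_rpow_of_exponent_le (by linarith) ?_
          have h3 : (k : ℝ) * (1 - 1 / (10 * n)) = k - (k / n) / 10 := by
            field_simp
          rw [h3]
          linarith
      _ ≤ |B| * (2 * (p : ℝ) ^ (-(9 / 10) : ℝ) * r ^ k) := by
          refine mul_le_mul_of_nonneg_left ?_ hB0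
          rw [Real.rpow_add hp0]
          have h3 : (p : ℝ) ^ (-(9 / 10 * ((j : ℝ) - 1))) ≤
              (2 : ℝ) ^ (-(9 / 10 * ((j : ℝ) - 1))) :=
            Real.rpow_le_rpow_of_nonpos (by norm_num) hp2 (by nlinarith)
          have h4 : (2 : ℝ) ^ (-(9 / 10 * ((j : ℝ) - 1))) ≤ 2 * r ^ k := by
            have h5 : 2 * r ^ k = (2 : ℝ) ^ (1 + -(9 / (10 * n)) * (k : ℝ)) := by
              rw [Real.rpow_add (by norm_num), Real.rpow_one, hr, Real.rpow_mul (by norm_num),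
                Real.rpow_natCast]
            rw [h5]
            refine Real.rpow_le_rpow_of_exponent_le (by norm_num) ?_
            have h6 : 9 / (10 * (n : ℝ)) * k = 9 / 10 * (k / n) := by
              field_simp
            nlinarith [h6, hkn]
          have h7 : 0 ≤ (p : ℝ) ^ (-(9 / 10) : ℝ) := by positivity
          calc (p : ℝ) ^ (-(9 / 10) : ℝ) * (p : ℝ) ^ (-(9 / 10 * ((j : ℝ) - 1)))
              ≤ (p : ℝ) ^ (-(9 / 10) : ℝ) * (2 * r ^ k) :=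
                mul_le_mul_of_nonneg_left (h3.trans h4) h7
            _ = 2 * (p : ℝ) ^ (-(9 / 10) : ℝ) * r ^ k := by ring
  have hgeo : ∑ k ∈ range M, r ^ k ≤ 1 / (1 - r) := by
    rw [le_div_iff₀ (by linarith)]
    have h1 := geom_sum_mul_neg r M
    rw [h1]
    have : 0 ≤ r ^ M := by positivity
    linarith
  rcases Nat.eq_zero_or_pos M with rfl | hM
  · simp only [range_zero, sum_empty]
    have h1 : 0 < 1 - r := by linarith
    positivity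
  obtain ⟨M', rfl⟩ : ∃ M', M = M' + 1 := ⟨M - 1, by omega⟩
  rw [sum_range_succ'] at hgeo ⊢
  have h1 : ∑ k ∈ range M', g (p ^ (k + 1)) / ((p ^ (k + 1) : ℕ) : ℝ) ^ (1 - 1 / (10 * n) : ℝ) ≤
      ∑ k ∈ range M', |B| * (2 * (p : ℝ) ^ (-(9 / 10) : ℝ) * r ^ (k + 1)) :=
    sum_le_sum fun k _ => hterm (k + 1) (by omega)
  rw [← mul_sum, ← mul_sum] at h1
  have h2 : g (p ^ 0) / ((p ^ 0 : ℕ) : ℝ) ^ (1 - 1 / (10 * n) : ℝ) = 1 := by
    simp [hG.one]
  rw [h2]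
  have h3 : ∑ k ∈ range M', r ^ (k + 1) ≤ 1 / (1 - r) := by
    have : 0 ≤ r ^ 0 := by positivity
    linarith
  have h4 : 0 ≤ (p : ℝ) ^ (-(9 / 10) : ℝ) := by positivity
  have h5 : |B| * (2 * (p : ℝ) ^ (-(9 / 10) : ℝ) * ∑ k ∈ range M', r ^ (k + 1)) ≤
      |B| * (2 * (p : ℝ) ^ (-(9 / 10) : ℝ) * (1 / (1 - r))) := by gcongr
  have h6 : |B| * (2 * (p : ℝ) ^ (-(9 / 10) : ℝ) * (1 / (1 - r))) =
      2 * |B| / (1 - r) * (p : ℝ) ^ (-(9 / 10) : ℝ) := by ring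
  linarith

end RS124

open RS124 in
/-- **[S4c]** -/
theorem rankin_small124 (n : ℕ) (hn : 1 ≤ n) (B : ℝ) : RankinSmallStmt n B := by
  classical
  intro ε hε
  set r : ℝ := (2 : ℝ) ^ (-(9 / (10 * n)) : ℝ) with hr
  have hn0 : (0 : ℝ) < n := by exact_mod_cast hn
  have hr0 : 0 < r := by positivity
  have hr1 : r < 1 := Real.rpow_lt_one_of_one_lt_of_neg (by norm_num) (by
    rw [neg_lt_zero]
    positivity)
  set C : ℝ := 2 * |B| / (1 - r) with hC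
  have hC0 : 0 ≤ C := by
    have : 0 < 1 - r := by linarith
    positivity
  refine ⟨Real.exp (max 1 ((14 * C / ε) ^ 2)), fun T χ g U hG x hx hT S hS => ?_⟩
  have hx0 : 0 < x := lt_of_lt_of_le (Real.exp_pos _) hx
  set ℓ : ℝ := Real.log x with hℓ
  have hℓ0 : max 1 ((14 * C / ε) ^ 2) ≤ ℓ := by
    rw [hℓ, Real.le_log_iff_exp_le hx0]
    exact hx
  have hℓ1 : 1 ≤ ℓ := (le_max_left _ _).trans hℓ0
  have hℓ2 : (14 * C / ε) ^ 2 ≤ ℓ := (le_max_right _ _).trans hℓ0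
  have hℓp : 0 < ℓ := by linarith
  set P : Finset ℕ := (range (⌊2 * x⌋₊ + 1)).filter fun p =>
    p.Prime ∧ ((p : ℝ) ≤ ℓ ^ 4 ∨ p ∈ T) with hP
  set h : ℕ → ℝ := fun b => g b / (b : ℝ) ^ (1 - 1 / (10 * n) : ℝ) with hh
  have h0 : ∀ m, 0 ≤ h m := fun m => div_nonneg (hG.nonneg m) (by positivity)
  have h1 : h 1 ≤ 1 := by simp [hh, hG.one]
  have hsub : ∀ a b : ℕ, a.Coprime b → h (a * b) ≤ h a * h b := by
    intro a b hab
    simp only [hh]
    rw [Nat.cast_mul, Real.mul_rpow (Nat.cast_nonneg a) (Nat.cast_nonneg b), div_mul_div_comm]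
    exact div_le_div_of_nonneg_right (hG.sub a b hab) (by positivity)
  have key := euler_gen h0 h1 hsub (V := fun p => 1 + C * (p : ℝ) ^ (-(9 / 10) : ℝ)) P
    (fun p hp => (mem_filter.1 hp).2.1)
    (fun p hp M => local_sum hn hG (mem_filter.1 hp).2.1 M) S (fun b hb => by
      obtain ⟨hb1, hb2, hb3⟩ := hS b hb
      refine ⟨by omega, fun p hp hpb => ?_⟩
      rw [hP, mem_filter, mem_range]
      refine ⟨?_, hp, hb3 p hp hpb⟩
      have h2 : p ≤ b := Nat.le_of_dvd (by omega) hpb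
      have h3 : (p : ℝ) ≤ 2 * x := le_trans (by exact_mod_cast h2) hb2
      exact Nat.lt_succ_of_le (Nat.le_floor h3))
  refine key.trans ?_
  -- the product
  have hsum : ∑ p ∈ P, (p : ℝ) ^ (-(9 / 10) : ℝ) ≤ 14 * ℓ ^ (1 / 2 : ℝ) := by
    have hP1 : P ⊆ Icc 1 ⌊ℓ ^ 4⌋₊ ∪ T.filter fun p : ℕ => ℓ ^ 4 < (p : ℝ) := by
      intro p hp
      obtain ⟨-, hp1, hp2⟩ := mem_filter.1 hp
      rw [mem_union]
      by_cases h2 : (p : ℝ) ≤ ℓ ^ 4
      · exact Or.inl (mem_Icc.2 ⟨hp1.one_lt.le, Nat.le_floor h2⟩)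
      · exact Or.inr (mem_filter.2 ⟨hp2.resolve_left h2, not_le.1 h2⟩)
    have h2 : ∑ p ∈ P, (p : ℝ) ^ (-(9 / 10) : ℝ) ≤
        ∑ p ∈ Icc 1 ⌊ℓ ^ 4⌋₊, (p : ℝ) ^ (-(9 / 10) : ℝ) +
        ∑ p ∈ T.filter (fun p : ℕ => ℓ ^ 4 < (p : ℝ)), (p : ℝ) ^ (-(9 / 10) : ℝ) := by
      refine (sum_le_sum_of_subset_of_nonneg hP1 fun p _ _ => by positivity).trans ?_
      have h8 := sum_union_inter (s₁ := Icc 1 ⌊ℓ ^ 4⌋₊)
        (s₂ := T.filter fun p : ℕ => ℓ ^ 4 < (p : ℝ)) (f := fun p : ℕ => (p : ℝ) ^ (-(9 / 10) : ℝ))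
      have h9 : 0 ≤ ∑ p ∈ Icc 1 ⌊ℓ ^ 4⌋₊ ∩ T.filter (fun p : ℕ => ℓ ^ 4 < (p : ℝ)),
          (p : ℝ) ^ (-(9 / 10) : ℝ) := sum_nonneg fun p _ => by positivity
      linarith
    have h3 := sum_rpow_le ⌊ℓ ^ 4⌋₊
    have h4 : ((⌊ℓ ^ 4⌋₊ : ℕ) : ℝ) ^ (1 / 10 : ℝ) ≤ ℓ ^ (1 / 2 : ℝ) := by
      calc ((⌊ℓ ^ 4⌋₊ : ℕ) : ℝ) ^ (1 / 10 : ℝ) ≤ (ℓ ^ 4) ^ (1 / 10 : ℝ) :=
            Real.rpow_le_rpow (by positivity) (Nat.floor_le (by positivity)) (by norm_num)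
        _ = ℓ ^ (4 * (1 / 10) : ℝ) := by
            rw [← Real.rpow_natCast ℓ 4, ← Real.rpow_mul hℓp.le]
            norm_num
        _ ≤ ℓ ^ (1 / 2 : ℝ) := Real.rpow_le_rpow_of_exponent_le hℓ1 (by norm_num)
    have h5 : ∑ p ∈ T.filter (fun p : ℕ => ℓ ^ 4 < (p : ℝ)), (p : ℝ) ^ (-(9 / 10) : ℝ) ≤
        4 * ℓ * (ℓ ^ 4) ^ (-(9 / 10) : ℝ) := by
      calc ∑ p ∈ T.filter (fun p : ℕ => ℓ ^ 4 < (p : ℝ)), (p : ℝ) ^ (-(9 / 10) : ℝ)
          ≤ ∑ p ∈ T.filter (fun p : ℕ => ℓ ^ 4 < (p : ℝ)), (ℓ ^ 4) ^ (-(9 / 10) : ℝ) := by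
            refine sum_le_sum fun p hp => ?_
            exact Real.rpow_le_rpow_of_nonpos (by positivity) (mem_filter.1 hp).2.le
              (by norm_num)
        _ = ((T.filter fun p : ℕ => ℓ ^ 4 < (p : ℝ)).card : ℝ) * (ℓ ^ 4) ^ (-(9 / 10) : ℝ) := by
            rw [sum_const, nsmul_eq_mul]
        _ ≤ 4 * ℓ * (ℓ ^ 4) ^ (-(9 / 10) : ℝ) := by
            refine mul_le_mul_of_nonneg_right ?_ (by positivity)
            refine le_trans ?_ hT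
            exact_mod_cast card_filter_le _ _
    have h6 : ℓ * (ℓ ^ 4) ^ (-(9 / 10) : ℝ) ≤ 1 := by
      have : ℓ * (ℓ ^ 4) ^ (-(9 / 10) : ℝ) = ℓ ^ (1 + 4 * (-(9 / 10)) : ℝ) := by
        rw [Real.rpow_add hℓp, Real.rpow_one, Real.rpow_mul hℓp.le]
        norm_num
      rw [this]
      exact Real.rpow_le_one_of_one_le_of_nonpos hℓ1 (by norm_num)
    have h7 : 1 ≤ ℓ ^ (1 / 2 : ℝ) := Real.one_le_rpow hℓ1 (by norm_num)
    nlinarith
  have hprod : ∏ p ∈ P, (1 + C * (p : ℝ) ^ (-(9 / 10) : ℝ)) ≤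
      Real.exp (C * (14 * ℓ ^ (1 / 2 : ℝ))) := by
    calc ∏ p ∈ P, (1 + C * (p : ℝ) ^ (-(9 / 10) : ℝ))
        ≤ ∏ p ∈ P, Real.exp (C * (p : ℝ) ^ (-(9 / 10) : ℝ)) := by
          refine prod_le_prod (fun p _ => by positivity) fun p _ => ?_
          rw [add_comm]
          exact Real.add_one_le_exp _
      _ = Real.exp (C * ∑ p ∈ P, (p : ℝ) ^ (-(9 / 10) : ℝ)) := by
          rw [← Real.exp_sum, mul_sum]
      _ ≤ Real.exp (C * (14 * ℓ ^ (1 / 2 : ℝ))) := by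
          rw [Real.exp_le_exp]
          exact mul_le_mul_of_nonneg_left hsum hC0
  refine hprod.trans ?_
  rw [Real.rpow_def_of_pos hx0, Real.exp_le_exp, ← hℓ]
  -- `14 C √ℓ ≤ ε ℓ`
  have h2 : 14 * C / ε ≤ ℓ ^ (1 / 2 : ℝ) := by
    rw [← Real.sqrt_eq_rpow]
    exact Real.le_sqrt_of_sq_le hℓ2
  have h3 : ℓ ^ (1 / 2 : ℝ) * ℓ ^ (1 / 2 : ℝ) = ℓ := by
    rw [← Real.sqrt_eq_rpow]
    exact Real.mul_self_sqrt hℓp.le
  have h4 : 0 ≤ ℓ ^ (1 / 2 : ℝ) := by positivity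
  have h5 : 14 * C ≤ ℓ ^ (1 / 2 : ℝ) * ε := by
    rwa [div_le_iff₀ hε] at h2
  calc C * (14 * ℓ ^ (1 / 2 : ℝ)) = (14 * C) * ℓ ^ (1 / 2 : ℝ) := by ring
    _ ≤ (ℓ ^ (1 / 2 : ℝ) * ε) * ℓ ^ (1 / 2 : ℝ) := mul_le_mul_of_nonneg_right h5 h4
    _ = ℓ * ε := by
        calc (ℓ ^ (1 / 2 : ℝ) * ε) * ℓ ^ (1 / 2 : ℝ) =
            (ℓ ^ (1 / 2 : ℝ) * ℓ ^ (1 / 2 : ℝ)) * ε := by ring
          _ = ℓ * ε := by rw [h3]

end Vale.Agent.P007.S11
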