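import Vale.Agent.P007.S11.Defs2
import Vale.Agent.P007.S11.EulerL

/-! The residue of the zeta function of a quadratic field is at least `c L(1, χ)`. -/

set_option autoImplicit false

open NumberField Filter Topology

namespace Vale.Agent.P007.S11

open Vale.Agent.P007 Vale.Agent.P007.H11

namespace ResH

theorem QC.abs_le {Q : ℝ} {χ : ℕ → ℝ} (hQ : QC Q χ) (n : ℕ) : |χ n| ≤ 1 := by
  rcases hQ.val n with h | h | h <;> rw [h] <;> norm_num

theorem summable_primes {s : ℝ} (hs : 1 < s) :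
    Summable fun p : Nat.Primes => ((p : ℕ) : ℝ) ^ (-s) := by
  have h : Summable fun n : ℕ => (n : ℝ) ^ (-s) := by
    rw [Real.summable_nat_rpow]
    linarith
  exact h.comp_injective (i := fun p : Nat.Primes => (p : ℕ)) Subtype.val_injective

theorem summable_chi {Q : ℝ} {χ : ℕ → ℝ} (hQ : QC Q χ) {s : ℝ} (hs : 1 < s) :
    Summable fun p : Nat.Primes => χ p * ((p : ℕ) : ℝ) ^ (-s) := by
  refine Summable.of_norm_bounded (summable_primes hs) fun p => ?_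
  have h : 0 ≤ ((p : ℕ) : ℝ) ^ (-s) := by positivity
  rw [norm_mul, Real.norm_eq_abs, Real.norm_eq_abs, abs_of_nonneg h]
  exact mul_le_of_le_one_left h (QC.abs_le hQ p)

/-- the prime sum of the zeta function against the prime sums of `ζ` and `L(s, χ)` -/
theorem abs_PS_sub {E : Type} [Field E] [NumberField E] (h2 : Module.finrank ℚ E = 2)
    {C : ℝ} {χ : ℕ → ℝ} {Q L : ℝ} (hD : QD C E χ Q L) {s : ℝ} (hs : 1 < s) :
    |Z.PS E N.chi0 s - (∑' p : Nat.Primes, ((p : ℕ) : ℝ) ^ (-s) +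
      ∑' p : Nat.Primes, χ p * ((p : ℕ) : ℝ) ^ (-s))| ≤ 1 := by
  have ha := N.summable_aN_prime E hs
  have hb := summable_primes hs
  have hc := summable_chi hD.qc hs
  have e : Z.PS E N.chi0 s - (∑' p : Nat.Primes, ((p : ℕ) : ℝ) ^ (-s) +
      ∑' p : Nat.Primes, χ p * ((p : ℕ) : ℝ) ^ (-s)) =
      ∑' p : Nat.Primes, ((Z.aN E p : ℝ) * ((p : ℕ) : ℝ) ^ (-s) -
        (((p : ℕ) : ℝ) ^ (-s) + χ p * ((p : ℕ) : ℝ) ^ (-s))) := by
    rw [ha.tsum_sub (hb.add hc), hb.tsum_add hc, N.PS_chi0]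
  let p2 : Nat.Primes := ⟨2, Nat.prime_two⟩
  let g : Nat.Primes → ℝ := fun p => (Z.aN E p : ℝ) * ((p : ℕ) : ℝ) ^ (-s) -
        (((p : ℕ) : ℝ) ^ (-s) + χ p * ((p : ℕ) : ℝ) ^ (-s))
  have hg : ∑' p : Nat.Primes, g p = g p2 := by
    refine tsum_eq_single p2 fun p hp => ?_
    have hp2 : (p : ℕ) ≠ 2 := fun h => hp (Subtype.ext h)
    have h3 : (Z.aN E p : ℝ) = 1 + χ p := hD.aE p p.2 hp2
    change (Z.aN E p : ℝ) * ((p : ℕ) : ℝ) ^ (-s) -
        (((p : ℕ) : ℝ) ^ (-s) + χ p * ((p : ℕ) : ℝ) ^ (-s)) = 0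
    rw [h3]
    ring
  have e0 := e.trans hg
  rw [e0]
  · have h3 : (Z.aN E 2 : ℝ) ≤ 2 := by
      have := Z.aN_prime_le (E := E) ⟨2, Nat.prime_two⟩
      rw [h2] at this
      exact_mod_cast this
    have h4 : (0 : ℝ) ≤ Z.aN E 2 := Nat.cast_nonneg _
    have h5 := abs_le.1 (QC.abs_le hD.qc 2)
    have h6 : ((2 : ℕ) : ℝ) ^ (-s) ≤ 1 / 2 := by
      calc ((2 : ℕ) : ℝ) ^ (-s) ≤ ((2 : ℕ) : ℝ) ^ (-1 : ℝ) :=
            Real.rpow_le_rpow_of_exponent_le (by norm_num) (by linarith)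
        _ = 1 / 2 := by rw [Real.rpow_neg_one]; norm_num
    have h7 : 0 ≤ ((2 : ℕ) : ℝ) ^ (-s) := by positivity
    have e2 : (Z.aN E 2 : ℝ) * ((2 : ℕ) : ℝ) ^ (-s) -
        (((2 : ℕ) : ℝ) ^ (-s) + χ 2 * ((2 : ℕ) : ℝ) ^ (-s)) =
        ((Z.aN E 2 : ℝ) - 1 - χ 2) * ((2 : ℕ) : ℝ) ^ (-s) := by ring
    change |(Z.aN E 2 : ℝ) * ((2 : ℕ) : ℝ) ^ (-s) -
        (((2 : ℕ) : ℝ) ^ (-s) + χ 2 * ((2 : ℕ) : ℝ) ^ (-s))| ≤ 1
    rw [e2, abs_mul, abs_of_nonneg h7]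
    have h8 : |(Z.aN E 2 : ℝ) - 1 - χ 2| ≤ 2 := by
      rw [abs_le]
      constructor <;> linarith
    calc |(Z.aN E 2 : ℝ) - 1 - χ 2| * ((2 : ℕ) : ℝ) ^ (-s) ≤ 2 * (1 / 2) :=
          mul_le_mul h8 h6 h7 (by norm_num)
      _ = 1 := by norm_num

end ResH

open ResH

/-- **[S8a]** the residue -/
theorem res : ResStmt := by
  refine ⟨Real.exp (-17), Real.exp_pos _, fun E _ _ h2 C χ Q L hD => ?_⟩
  have h1 := (tendsto_sub_one_mul_dedekindZeta_nhdsGT E).norm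
  have h1' : ‖((dedekindZeta_residue E : ℝ) : ℂ)‖ = dedekindZeta_residue E := by
    rw [Complex.norm_real, Real.norm_eq_abs, abs_of_pos (dedekindZeta_residue_pos E)]
  rw [h1'] at h1
  have h3 := tendsto_sub_mul_tsum_nat_rpow
  have h4 : Tendsto (fun s : ℝ => Real.exp (-17) * (L - 4 * Q * (s - 1))) (𝓝[>] (1 : ℝ))
      (𝓝 (Real.exp (-17) * (L - 4 * Q * (1 - 1)))) := by
    refine Tendsto.mono_left ?_ nhdsWithin_le_nhds
    exact (Continuous.tendsto (by fun_prop) 1)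
  have h5 := h4.mul h3
  rw [sub_self, mul_zero, sub_zero, mul_one] at h5
  refine le_of_tendsto_of_tendsto h5 h1 ?_
  filter_upwards [self_mem_nhdsWithin] with s hs
  have hs1 : (1 : ℝ) < s := hs
  have hs0 : 0 < s - 1 := by linarith
  -- the two Euler products
  set one' : ℕ → ℝ := fun n => if n = 0 then 0 else 1 with hone
  have hf1 := EL.tsum_le_exp (EL.hom one' (by simp [hone]) (by simp [hone])
    (fun a b => by by_cases ha : a = 0 <;> by_cases hb : b = 0 <;> simp [hone, ha, hb]) s) hs1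
    (fun n hn => by
      change |one' n * (n : ℝ) ^ (-s)| ≤ (n : ℝ) ^ (-s)
      have : one' n = 1 := by simp [hone]; omega
      rw [this, one_mul, abs_of_nonneg (by positivity)])
  have hf2 := EL.tsum_le_exp (EL.hom χ hD.qc.zero hD.qc.one hD.qc.mul s) hs1
    (fun n hn => by
      change |χ n * (n : ℝ) ^ (-s)| ≤ (n : ℝ) ^ (-s)
      rw [abs_mul, abs_of_nonneg (by positivity : 0 ≤ (n : ℝ) ^ (-s))]
      exact mul_le_of_le_one_left (by positivity) (QC.abs_le hD.qc n))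
  have e1 : ∑' n : ℕ, (EL.hom one' (by simp [hone]) (by simp [hone])
      (fun a b => by by_cases ha : a = 0 <;> by_cases hb : b = 0 <;> simp [hone, ha, hb]) s) n =
      ∑' n : ℕ, 1 / (n : ℝ) ^ s := by
    refine tsum_congr fun n => ?_
    change one' n * (n : ℝ) ^ (-s) = 1 / (n : ℝ) ^ s
    rcases Nat.eq_zero_or_pos n with rfl | hn
    · have : (0 : ℝ) ^ s = 0 := Real.zero_rpow (by linarith)
      simp [hone, this]
    · have : one' n = 1 := by simp [hone]; omega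
      rw [this, one_mul, Real.rpow_neg (Nat.cast_nonneg n), one_div]
  have e2 : ∑' p : Nat.Primes, (EL.hom one' (by simp [hone]) (by simp [hone])
      (fun a b => by by_cases ha : a = 0 <;> by_cases hb : b = 0 <;> simp [hone, ha, hb]) s) p =
      ∑' p : Nat.Primes, ((p : ℕ) : ℝ) ^ (-s) := by
    refine tsum_congr fun p => ?_
    change one' p * ((p : ℕ) : ℝ) ^ (-s) = ((p : ℕ) : ℝ) ^ (-s)
    have : one' p = 1 := by simp [hone, p.2.ne_zero]
    rw [this, one_mul]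
  rw [e1, e2] at hf1
  have e3 : ∑' n : ℕ, (EL.hom χ hD.qc.zero hD.qc.one hD.qc.mul s) n =
      ∑' n : ℕ, χ n * (n : ℝ) ^ (-s) := rfl
  have e4 : ∑' p : Nat.Primes, (EL.hom χ hD.qc.zero hD.qc.one hD.qc.mul s) p =
      ∑' p : Nat.Primes, χ p * ((p : ℕ) : ℝ) ^ (-s) := rfl
  rw [e3, e4] at hf2
  have hL := EL.L_ge hD.qc hD.isL hs0
  rw [add_sub_cancel] at hL
  have hPS := (abs_le.1 (abs_PS_sub h2 hD hs1)).1
  have hz := exp_PS_le_zeta E h2 hs1
  set P1 := ∑' p : Nat.Primes, ((p : ℕ) : ℝ) ^ (-s) with hP1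
  set P2 := ∑' p : Nat.Primes, χ p * ((p : ℕ) : ℝ) ^ (-s) with hP2
  have h6 : Real.exp (-17) * (Real.exp (P1 + 4) * Real.exp (P2 + 4)) ≤
      Real.exp (Z.PS E N.chi0 s - 8) := by
    rw [← Real.exp_add, ← Real.exp_add, Real.exp_le_exp]
    linarith
  have hZ0 : 0 ≤ ∑' n : ℕ, 1 / (n : ℝ) ^ s := tsum_nonneg fun n => by positivity
  have h7 : (∑' n : ℕ, 1 / (n : ℝ) ^ s) * (L - 4 * Q * (s - 1)) ≤
      Real.exp (P1 + 4) * Real.exp (P2 + 4) := by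
    calc (∑' n : ℕ, 1 / (n : ℝ) ^ s) * (L - 4 * Q * (s - 1))
        ≤ (∑' n : ℕ, 1 / (n : ℝ) ^ s) * Real.exp (P2 + 4) :=
          mul_le_mul_of_nonneg_left (hL.trans hf2) hZ0
      _ ≤ Real.exp (P1 + 4) * Real.exp (P2 + 4) :=
          mul_le_mul_of_nonneg_right hf1 (Real.exp_pos _).le
  have h8 : Real.exp (-17) * ((∑' n : ℕ, 1 / (n : ℝ) ^ s) * (L - 4 * Q * (s - 1))) ≤
      ‖dedekindZeta E (s : ℂ)‖ :=
    (mul_le_mul_of_nonneg_left h7 (Real.exp_pos _).le).trans (h6.trans hz)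
  have h10 : ‖((s : ℂ) - 1) * dedekindZeta E (s : ℂ)‖ = (s - 1) * ‖dedekindZeta E (s : ℂ)‖ := by
    rw [norm_mul]
    congr 1
    rw [← Complex.ofReal_one, ← Complex.ofReal_sub, Complex.norm_real, Real.norm_eq_abs,
      abs_of_pos hs0]
  rw [h10]
  calc Real.exp (-17) * (L - 4 * Q * (s - 1)) * ((s - 1) * ∑' n : ℕ, 1 / (n : ℝ) ^ s)
      = (s - 1) * (Real.exp (-17) * ((∑' n : ℕ, 1 / (n : ℝ) ^ s) * (L - 4 * Q * (s - 1)))) := by
        ring
    _ ≤ (s - 1) * ‖dedekindZeta E (s : ℂ)‖ := mul_le_mul_of_nonneg_left h8 hs0.le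

end Vale.Agent.P007.S11
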