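import Vale.Agent.P007.S11.Defs2

/-! [S10b] No invertible ideals of index an odd power of a prime inert in a quadratic subfield. -/

set_option autoImplicit false

open NumberField

namespace Vale.Agent.P007.S11

open Vale.Agent.P007 Vale.Agent.P007.Z Vale.Agent.P007.N Vale.Agent.P007.R

theorem exists_ideal_mx {n : ℕ} (D : Datum n) {p k : ℕ} (hp : p.Prime) (h : ¬ p ∣ D.ind)
    (J : Ideal D.O) (hJ : Nat.card (D.O ⧸ J) = p ^ k) :
    ∃ I : Ideal (𝓞 D.K), Ideal.absNorm I = p ^ k := by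
  have hcop : IsCoprime (D.ind : ℤ) ((p ^ k : ℕ) : ℤ) :=
    Nat.isCoprime_iff_coprime.2 ((((Nat.Prime.coprime_iff_not_dvd hp).2 h).pow_left k).symm)
  obtain ⟨a, b, hab⟩ := hcop
  have hq : ((p ^ k : ℕ) : D.O) ∈ J := Loc.mem_of_card hJ
  set f : D.O →+* 𝓞 D.K := D.O.subtype with hf
  set I : Ideal (𝓞 D.K) := J.map f with hI
  have key : ∀ x ∈ I, ∀ r : 𝓞 D.K, ∃ j ∈ J, (f j : 𝓞 D.K) = (D.ind : 𝓞 D.K) * (r * x) := by
    intro x hx
    refine Submodule.span_induction (p := fun x _ => ∀ r : 𝓞 D.K, ∃ j ∈ J,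
      (f j : 𝓞 D.K) = (D.ind : 𝓞 D.K) * (r * x)) ?_ ?_ ?_ ?_ hx
    · rintro _ ⟨j, hj, rfl⟩ r
      refine ⟨⟨(D.ind : 𝓞 D.K) * r, D.ind_mul_mem r⟩ * j, J.mul_mem_left _ hj, ?_⟩
      rw [map_mul, ← mul_assoc]
      rfl
    · intro r
      exact ⟨0, J.zero_mem, by simp⟩
    · intro x y _ _ hx hy r
      obtain ⟨j, hj, h1⟩ := hx r
      obtain ⟨j', hj', h2⟩ := hy r
      exact ⟨j + j', J.add_mem hj hj', by rw [map_add, h1, h2]; ring⟩
    · intro s x _ hx r
      obtain ⟨j, hj, h1⟩ := hx (r * s)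
      exact ⟨j, hj, by rw [h1, smul_eq_mul]; ring⟩
  refine ⟨I, ?_⟩
  rw [Ideal.absNorm_apply, Submodule.cardQuot_apply, ← hJ]
  symm
  refine Nat.card_congr (Equiv.ofBijective (Ideal.quotientMap I f Ideal.le_comap_map) ⟨?_, ?_⟩)
  · refine Ideal.quotientMap_injective' ?_
    intro y hy
    obtain ⟨j, hj, h1⟩ := key (f y) hy 1
    rw [one_mul] at h1
    have h2 : j = (D.ind : D.O) * y := by
      apply Subtype.ext
      simpa [hf] using h1
    have h3 : y = (a : D.O) * j + (b : D.O) * y * ((p ^ k : ℕ) : D.O) := by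
      have h4 : (a : D.O) * (D.ind : D.O) + (b : D.O) * ((p ^ k : ℕ) : D.O) = 1 := by
        exact_mod_cast congrArg (fun t : ℤ => (t : D.O)) hab
      rw [h2]
      linear_combination (-y) * h4
    rw [h3]
    exact J.add_mem (J.mul_mem_left _ hj) (J.mul_mem_left _ hq)
  · intro x
    obtain ⟨x, rfl⟩ := Ideal.Quotient.mk_surjective x
    refine ⟨Ideal.Quotient.mk J ((a : D.O) * ⟨(D.ind : 𝓞 D.K) * x, D.ind_mul_mem x⟩), ?_⟩
    rw [Ideal.quotientMap_mk, Ideal.Quotient.eq]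
    have h4 : (a : 𝓞 D.K) * (D.ind : 𝓞 D.K) + (b : 𝓞 D.K) * ((p ^ k : ℕ) : 𝓞 D.K) = 1 := by
      exact_mod_cast congrArg (fun t : ℤ => (t : 𝓞 D.K)) hab
    have h5 : f ((a : D.O) * ⟨(D.ind : 𝓞 D.K) * x, D.ind_mul_mem x⟩) - x =
        (-((b : 𝓞 D.K) * x)) * f ((p ^ k : ℕ) : D.O) := by
      rw [map_mul, map_natCast, map_intCast]
      have h6 : f ⟨(D.ind : 𝓞 D.K) * x, D.ind_mul_mem x⟩ = (D.ind : 𝓞 D.K) * x := rfl
      rw [h6]
      linear_combination x * h4
    rw [h5]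
    exact I.mul_mem_left _ (Ideal.mem_map_of_mem f hq)

theorem no_odd (E : Type) [Field E] [NumberField E] (hE : Module.finrank ℚ E = 2) {p : ℕ}
    (hp : p.Prime) (h : aE E p = 0) : ∀ (j : ℕ) (N : Ideal (𝓞 E)),
      Ideal.absNorm N ≠ p ^ (2 * j + 1) := by
  have h0 : ∀ N : Ideal (𝓞 E), Ideal.absNorm N ≠ p := by
    have hfin : Finite {I : Ideal (𝓞 E) // Ideal.absNorm I = p} :=
      (Ideal.finite_setOfPred_absNorm_eq p).to_subtype
    unfold aE at h
    rw [Nat.card_eq_zero] at h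
    rcases h with h | h
    · intro N hN
      exact h.false ⟨N, hN⟩
    · exact absurd hfin (not_finite_iff_infinite.2 h)
  intro j
  induction j with
  | zero =>
    intro N
    simpa using h0 N
  | succ j ih =>
    intro N hN
    have hpp : 0 < p := hp.pos
    have hNtop : N ≠ ⊤ := by
      rintro rfl
      rw [Ideal.absNorm_top] at hN
      have := Nat.one_lt_pow (n := 2 * (j + 1) + 1) (by omega) hp.one_lt
      omega
    have hNbot : N ≠ ⊥ := by
      rintro rfl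
      rw [Ideal.absNorm_bot] at hN
      have : 0 < p ^ (2 * (j + 1) + 1) := by positivity
      omega
    obtain ⟨P, hPm, hNP⟩ := Ideal.exists_le_maximal N hNtop
    have hPp : P.IsPrime := hPm.isPrime
    have hmem : (p : 𝓞 E) ∈ P := by
      have h1 := hNP (Ideal.absNorm_mem N)
      rw [hN] at h1
      push_cast at h1
      exact hPp.mem_of_pow_mem _ h1
    have hle : Ideal.span {(p : 𝓞 E)} ≤ P := (Ideal.span_singleton_le_iff_mem _).2 hmem
    have hdvd : Ideal.absNorm P ∣ p ^ 2 := by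
      have h1 := Ideal.absNorm_dvd_absNorm_of_le hle
      rwa [Ideal.absNorm_span_natCast, RingOfIntegers.rank, hE] at h1
    obtain ⟨i, hi, hPi⟩ := (Nat.dvd_prime_pow hp).1 hdvd
    have hi2 : i = 2 := by
      have h1 : i ≠ 0 := by
        rintro rfl
        rw [pow_zero, Ideal.absNorm_eq_one_iff] at hPi
        exact hPm.ne_top hPi
      have h2 : i ≠ 1 := by
        rintro rfl
        rw [pow_one] at hPi
        exact h0 P hPi
      omega
    subst hi2
    obtain ⟨N', rfl⟩ := Ideal.dvd_iff_le.2 hNP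
    rw [map_mul, hPi] at hN
    refine ih N' ?_
    have h3 : p ^ (2 * (j + 1) + 1) = p ^ 2 * p ^ (2 * j + 1) := by
      rw [← pow_add]; congr 1; omega
    rw [h3] at hN
    exact Nat.eq_of_mul_eq_mul_left (by positivity) hN

/-- **[S10b]** -/
theorem ro_odd : RoOddStmt := by
  intro n D E hE p k hp hind haE hk
  obtain ⟨j, rfl⟩ := hk
  rw [Loc.rO_def, Nat.card_eq_zero]
  left
  constructor
  rintro ⟨J, -, hJ⟩
  obtain ⟨I, hI⟩ := exists_ideal_mx D hp hind J hJ
  refine no_odd E hE hp haE j (Ideal.relNorm (𝓞 E) I) ?_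
  rw [Ideal.absNorm_relNorm, hI]

end Vale.Agent.P007.S11
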