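import Vale.Agent.P007.S11.Defs2

/-! Local ideal counts at primes not dividing the index. -/

set_option autoImplicit false

open NumberField Module
open scoped nonZeroDivisors

namespace Vale.Agent.P007.S11

open Vale.Agent.P007 Vale.Agent.P007.Z Vale.Agent.P007.N Vale.Agent.P007.R

section ideals

open UniqueFactorizationMonoid

/-- the number of ideals of norm `p^k` is at most `(k+1)^n` -/
theorem aE_pow_le (E : Type) [Field E] [NumberField E] (p k : ℕ) (hp : p.Prime) :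
    aE E (p ^ k) ≤ (k + 1) ^ (finrank ℚ E) := by
  classical
  have hfin := finite_aE E (p ^ k)
  set P₀ : Ideal (𝓞 E) := Ideal.span {(p : 𝓞 E)} with hP₀
  have hN0 : Ideal.absNorm P₀ = p ^ finrank ℚ E := by
    rw [hP₀, Ideal.absNorm_span_natCast, RingOfIntegers.rank]
  have hP0 : P₀ ≠ ⊥ := by
    intro h
    rw [h, Ideal.absNorm_bot] at hN0
    exact pow_ne_zero _ hp.ne_zero hN0.symm
  set s : Finset (Ideal (𝓞 E)) := (normalizedFactors P₀).toFinset with hs
  have hsm : ∀ P : Ideal (𝓞 E), P ∈ s ↔ P.IsPrime ∧ P₀ ≤ P := by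
    intro P
    rw [hs, Multiset.mem_toFinset, Ideal.mem_normalizedFactors_iff hP0]
  have hnorm : ∀ P ∈ s, p ∣ Ideal.absNorm P := by
    intro P hP
    obtain ⟨hP1, hP2⟩ := (hsm P).1 hP
    have h1 : Ideal.absNorm P ∣ p ^ finrank ℚ E := by
      rw [← hN0]
      exact Ideal.absNorm_dvd_absNorm_of_le hP2
    have h2 : Ideal.absNorm P ≠ 1 := by
      rw [Ne, Ideal.absNorm_eq_one_iff]
      exact hP1.ne_top
    obtain ⟨j, hj, hj2⟩ := (Nat.dvd_prime_pow hp).1 h1
    rw [hj2]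
    refine dvd_pow_self p ?_
    rintro rfl
    rw [pow_zero] at hj2
    exact h2 hj2
  have hcard : s.card ≤ finrank ℚ E := by
    have h1 : ∏ P ∈ s, P ∣ P₀ := by
      apply Finset.prod_primes_dvd
      · intro P hP
        obtain ⟨hP1, hP2⟩ := (hsm P).1 hP
        exact Ideal.prime_of_isPrime (ne_bot_of_le_ne_bot hP0 hP2) hP1
      · intro P hP
        exact Ideal.dvd_iff_le.2 ((hsm P).1 hP).2
    have h2 := map_dvd (Ideal.absNorm (S := 𝓞 E)) h1
    rw [hN0, map_prod] at h2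
    have h3 : p ^ s.card ∣ ∏ P ∈ s, Ideal.absNorm P := by
      rw [← Finset.prod_const]
      exact Finset.prod_dvd_prod_of_dvd _ _ hnorm
    exact (Nat.pow_dvd_pow_iff_le_right hp.one_lt).mp (h3.trans h2)
  have hne : ∀ I : Ideal (𝓞 E), Ideal.absNorm I = p ^ k → I ≠ ⊥ := by
    intro I hI h
    rw [h, Ideal.absNorm_bot] at hI
    exact pow_ne_zero _ hp.ne_zero hI.symm
  have hmem : ∀ I : Ideal (𝓞 E), Ideal.absNorm I = p ^ k → ∀ P ∈ normalizedFactors I, P ∈ s := by
    intro I hI P hP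
    rw [Ideal.mem_normalizedFactors_iff (hne I hI)] at hP
    obtain ⟨hP1, hP2⟩ := hP
    rw [hsm]
    refine ⟨hP1, ?_⟩
    rw [hP₀, Ideal.span_singleton_le_iff_mem]
    have h1 : ((p ^ k : ℕ) : 𝓞 E) ∈ I := by
      rw [← hI]
      exact Ideal.absNorm_mem I
    have h2 := hP2 h1
    push_cast at h2
    exact hP1.mem_of_pow_mem _ h2
  have hcount : ∀ I : Ideal (𝓞 E), Ideal.absNorm I = p ^ k → ∀ P ∈ s,
      (normalizedFactors I).count P < k + 1 := by
    intro I hI P hP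
    have h1 : P ^ (normalizedFactors I).count P ∣ I := by
      have h2 : Multiset.replicate ((normalizedFactors I).count P) P ≤ normalizedFactors I :=
        Multiset.le_count_iff_replicate_le.1 le_rfl
      have h3 := Multiset.prod_dvd_prod_of_le h2
      rw [Multiset.prod_replicate, Ideal.prod_normalizedFactors_eq_self (hne I hI)] at h3
      exact h3
    have h2 := map_dvd (Ideal.absNorm (S := 𝓞 E)) h1
    rw [map_pow, hI] at h2
    have h3 := (pow_dvd_pow_of_dvd (hnorm P hP) _).trans h2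
    have h4 := (Nat.pow_dvd_pow_iff_le_right hp.one_lt).mp h3
    omega
  have hinj : Function.Injective (fun (I : {I : Ideal (𝓞 E) // Ideal.absNorm I = p ^ k})
      (P : s) => (⟨(normalizedFactors I.1).count P.1, hcount I.1 I.2 P.1 P.2⟩ : Fin (k + 1))) := by
    intro I I' h
    have h1 : normalizedFactors I.1 = normalizedFactors I'.1 := by
      refine Multiset.ext.2 fun P => ?_
      by_cases hP : P ∈ s
      · have h2 := congrFun h ⟨P, hP⟩
        exact congrArg Fin.val h2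
      · rw [Multiset.count_eq_zero_of_notMem fun h => hP (hmem I.1 I.2 P h),
          Multiset.count_eq_zero_of_notMem fun h => hP (hmem I'.1 I'.2 P h)]
    apply Subtype.ext
    rw [← Ideal.prod_normalizedFactors_eq_self (hne I.1 I.2), h1,
      Ideal.prod_normalizedFactors_eq_self (hne I'.1 I'.2)]
  unfold aE
  refine (Nat.card_le_card_of_injective _ hinj).trans ?_
  rw [Nat.card_fun, Nat.card_eq_fintype_card, Fintype.card_fin, Nat.card_eq_fintype_card,
    Fintype.card_coe]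
  exact Nat.pow_le_pow_right (Nat.succ_pos k) hcard

end ideals

variable {n : ℕ}

/-- `J 𝓞_K` contains no new elements of `O` if `p^k ∈ J`, `p ∤ [𝓞_K : O]` -/
theorem comap_map_eq (D : Datum n) (p k : ℕ) (hp : p.Prime) (h : ¬ p ∣ D.ind) (J : Ideal D.O)
    (hJ : ((p ^ k : ℕ) : D.O) ∈ J) : (J.map D.O.subtype).comap D.O.subtype = J := by
  refine le_antisymm ?_ Ideal.le_comap_map
  have key : ∀ x ∈ J.map D.O.subtype, ∀ r : 𝓞 D.K, ∃ y ∈ J, (y : 𝓞 D.K) = (D.ind : 𝓞 D.K) * (r * x) := by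
    intro x hx
    refine Submodule.span_induction (p := fun x _ => ∀ r : 𝓞 D.K, ∃ y ∈ J,
      (y : 𝓞 D.K) = (D.ind : 𝓞 D.K) * (r * x)) ?_ ?_ ?_ ?_ hx
    · rintro _ ⟨y, hy, rfl⟩ r
      refine ⟨⟨(D.ind : 𝓞 D.K) * r, D.ind_mul_mem r⟩ * y, J.mul_mem_left _ hy, ?_⟩
      change (D.ind : 𝓞 D.K) * r * (y : 𝓞 D.K) = (D.ind : 𝓞 D.K) * (r * (y : 𝓞 D.K))
      ring
    · intro r
      exact ⟨0, J.zero_mem, by simp⟩
    · intro x y _ _ hx hy r
      obtain ⟨a, ha, ha'⟩ := hx r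
      obtain ⟨b, hb, hb'⟩ := hy r
      refine ⟨a + b, J.add_mem ha hb, ?_⟩
      push_cast
      rw [ha', hb']
      ring
    · intro a x _ hx r
      obtain ⟨b, hb, hb'⟩ := hx (r * a)
      refine ⟨b, hb, ?_⟩
      rw [hb', smul_eq_mul]
      ring
  intro x hx
  rw [Ideal.mem_comap] at hx
  obtain ⟨y, hy, hy'⟩ := key _ hx 1
  have h1 : y = (D.ind : D.O) * x := by
    apply Subtype.ext
    rw [hy']
    push_cast
    change _ = (D.ind : 𝓞 D.K) * (x : 𝓞 D.K)
    rw [one_mul]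
    rfl
  have hcop : IsCoprime ((D.ind : ℕ) : ℤ) ((p ^ k : ℕ) : ℤ) :=
    Nat.isCoprime_iff_coprime.mpr (Nat.Coprime.pow_right k ((Nat.Prime.coprime_iff_not_dvd hp).2 h).symm)
  obtain ⟨u, v, huv⟩ := hcop
  have h2 := congrArg (Int.cast : ℤ → D.O) huv
  push_cast at h2
  have h3 : x = (u : D.O) * ((D.ind : D.O) * x) + (v : D.O) * ((p : D.O) ^ k * x) := by
    calc x = 1 * x := (one_mul x).symm
      _ = _ := by rw [← h2]; ring
  rw [h3]
  refine J.add_mem (J.mul_mem_left _ (by rw [← h1]; exact hy)) (J.mul_mem_left _ ?_)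
  push_cast at hJ
  exact J.mul_mem_right _ hJ

/-- `O / J ≃ 𝓞_K / J 𝓞_K` -/
theorem absNorm_map (D : Datum n) (p k : ℕ) (hp : p.Prime) (h : ¬ p ∣ D.ind) (J : Ideal D.O)
    (hJ : ((p ^ k : ℕ) : D.O) ∈ J) :
    Ideal.absNorm (J.map D.O.subtype) = Nat.card (D.O ⧸ J) := by
  rw [Ideal.absNorm_apply, Submodule.cardQuot_apply]
  refine (Nat.card_congr (Equiv.ofBijective (Ideal.quotientMap (J.map D.O.subtype) D.O.subtype
    Ideal.le_comap_map) ⟨?_, ?_⟩)).symm
  · exact Ideal.quotientMap_injective' (comap_map_eq D p k hp h J hJ).le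
  · intro z
    obtain ⟨r, rfl⟩ := Ideal.Quotient.mk_surjective z
    have hcop : IsCoprime ((D.ind : ℕ) : ℤ) ((p ^ k : ℕ) : ℤ) :=
      Nat.isCoprime_iff_coprime.mpr
        (Nat.Coprime.pow_right k ((Nat.Prime.coprime_iff_not_dvd hp).2 h).symm)
    obtain ⟨u, v, huv⟩ := hcop
    have h2 := congrArg (Int.cast : ℤ → 𝓞 D.K) huv
    push_cast at h2
    refine ⟨Ideal.Quotient.mk J ((u : D.O) * ⟨(D.ind : 𝓞 D.K) * r, D.ind_mul_mem r⟩), ?_⟩
    rw [Ideal.quotientMap_mk, Ideal.Quotient.eq]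
    have h3 : D.O.subtype ((u : D.O) * ⟨(D.ind : 𝓞 D.K) * r, D.ind_mul_mem r⟩) - r =
        -((v : 𝓞 D.K) * r) * D.O.subtype ((p ^ k : ℕ) : D.O) := by
      rw [map_mul, map_intCast, map_natCast]
      change (u : 𝓞 D.K) * ((D.ind : 𝓞 D.K) * r) - r = _
      push_cast
      calc (u : 𝓞 D.K) * ((D.ind : 𝓞 D.K) * r) - r =
            (u : 𝓞 D.K) * ((D.ind : 𝓞 D.K) * r) - 1 * r := by rw [one_mul]
        _ = _ := by rw [← h2]; ring
    rw [h3]
    exact Ideal.mul_mem_left _ _ (Ideal.mem_map_of_mem _ hJ)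

/-- **[S10a]** -/
theorem ro_pow : RoPowStmt := by
  intro n D p k hp h
  have h1 : rO D (p ^ k) ≤ aE D.K (p ^ k) := by
    rw [Loc.rO_def]
    unfold aE
    have hfin := finite_aE D.K (p ^ k)
    refine Nat.card_le_card_of_injective (fun J : Loc.JT D (p ^ k) =>
      (⟨J.1.map D.O.subtype, by
        rw [absNorm_map D p k hp h J.1 (Loc.mem_of_card J.2.2)]
        exact J.2.2⟩ : {I : Ideal (𝓞 D.K) // Ideal.absNorm I = p ^ k})) ?_
    intro J J' hJJ
    have h2 : J.1.map D.O.subtype = J'.1.map D.O.subtype := congrArg Subtype.val hJJ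
    apply Subtype.ext
    rw [← comap_map_eq D p k hp h J.1 (Loc.mem_of_card J.2.2), h2,
      comap_map_eq D p k hp h J'.1 (Loc.mem_of_card J'.2.2)]
  refine h1.trans ?_
  have h2 := aE_pow_le D.K p k hp
  rwa [D.deg] at h2

end Vale.Agent.P007.S11
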