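import Vale.Agent.P007.S11.Rough
import Vale.Agent.P007.S11.RoPow
import Vale.Agent.P007.S11.RoOdd

/-! The ideal counts of an order satisfy `GF` for the character of a quadratic subfield. -/

set_option autoImplicit false

open NumberField Module
open scoped nonZeroDivisors

namespace Vale.Agent.P007.S11

open Vale.Agent.P007 Vale.Agent.P007.Z Vale.Agent.P007.N Vale.Agent.P007.R

theorem two_pow_card_primeFactors_le {m : ℕ} (hm : m ≠ 0) : 2 ^ m.primeFactors.card ≤ m := by
  calc 2 ^ m.primeFactors.card = ∏ _p ∈ m.primeFactors, 2 := by rw [Finset.prod_const]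
    _ ≤ ∏ p ∈ m.primeFactors, p := Finset.prod_le_prod' fun p hp =>
        (Nat.prime_of_mem_primeFactors hp).two_le
    _ ≤ m := Nat.le_of_dvd (Nat.pos_of_ne_zero hm) (Nat.prod_primeFactors_dvd m)

theorem card_T_le {n : ℕ} (D : Datum n) :
    (((insert 2 D.ind.primeFactors : Finset ℕ).card : ℕ) : ℝ) ≤
      2 * Real.log (2 * √(D.disc : ℝ)) := by
  have hf := D.ind_ne_zero
  have hf0 : (0 : ℝ) < D.ind := by exact_mod_cast Nat.pos_of_ne_zero hf
  have h1 : (D.ind : ℝ) ≤ √(D.disc : ℝ) := ind_le_of_sqrt_le D le_rfl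
  have h2 : (((insert 2 D.ind.primeFactors : Finset ℕ).card : ℕ) : ℝ) ≤
      D.ind.primeFactors.card + 1 := by
    exact_mod_cast Finset.card_insert_le _ _
  have h3 : (D.ind.primeFactors.card : ℝ) * Real.log 2 ≤ Real.log D.ind := by
    rw [← Real.log_pow]
    refine Real.log_le_log (by positivity) ?_
    exact_mod_cast two_pow_card_primeFactors_le hf
  have h4 : Real.log D.ind ≤ Real.log √(D.disc : ℝ) := Real.log_le_log hf0 h1
  have h5 : Real.log (2 * √(D.disc : ℝ)) = Real.log 2 + Real.log √(D.disc : ℝ) :=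
    Real.log_mul (by norm_num) (ne_of_gt (lt_of_lt_of_le hf0 h1))
  have h6 := Real.log_two_gt_d9
  have h7 : (0 : ℝ) ≤ D.ind.primeFactors.card := by positivity
  rw [h5]
  nlinarith

/-- **[S10]** with the hypothesis [S10b] -/
theorem ro_gf_of (n : ℕ) (hn : 0 < n) (hb : RoOddStmt) : RoGFStmt n := by
  classical
  obtain ⟨B, hB⟩ := rO_HT n hn
  refine ⟨B, fun D E hE C χ Q L hD => ?_⟩
  refine ⟨insert 2 D.ind.primeFactors, card_T_le D, ?_⟩
  obtain ⟨h1, h2, h3, h4, h5, h6⟩ := hB D
  refine ⟨h1, h2, h3, h4, h5, h6, ?_⟩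
  intro p k hp hT
  rw [Finset.mem_insert, not_or] at hT
  obtain ⟨hp2, hT⟩ := hT
  have hpi : ¬ p ∣ D.ind := fun h => hT (Nat.mem_primeFactors.2 ⟨hp, h, D.ind_ne_zero⟩)
  have hpow : (rO D (p ^ k) : ℝ) ≤ ((k : ℝ) + 1) ^ n := by
    exact_mod_cast ro_pow n D p k hp hpi
  have h0 : (0 : ℝ) ≤ ((k : ℝ) + 1) ^ n := by positivity
  have haE := hD.aE p hp hp2
  change (rO D (p ^ k) : ℝ) ≤ _
  rw [ac_prime_pow hD.qc hp]
  rcases hD.qc.val p with h | h | h
  · rw [h]
    simp only [one_pow, Finset.sum_const, Finset.card_range, nsmul_eq_mul, mul_one]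
    push_cast
    have : (0 : ℝ) ≤ k := by positivity
    nlinarith
  · have : ∑ i ∈ Finset.range (k + 1), χ p ^ i = 1 := by
      rw [h, Finset.sum_range_succ']
      simp
    rw [this, mul_one]
    exact hpow
  · rw [h, neg_one_geom_sum]
    have h7 : aE E p = 0 := by
      rw [h] at haE
      have : (aE E p : ℝ) = 0 := by rw [haE]; norm_num
      exact_mod_cast this
    split_ifs with hk
    · have hodd : Odd k := by
        rcases Nat.even_or_odd k with hk' | hk'
        · exact absurd hk (by rw [Nat.even_add_one]; exact not_not.2 hk')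
        · exact hk'
      rw [hb n D E hE p k hp hpi h7 hodd]
      simp
    · rw [mul_one]
      exact hpow

/-- **[S10]** -/
theorem ro_gf (n : ℕ) (hn : 0 < n) : RoGFStmt n := ro_gf_of n hn ro_odd

end Vale.Agent.P007.S11
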