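import Vale.Agent.P007.S11.Defs

/-! Sums of `g` over rough numbers. -/

set_option autoImplicit false

namespace Vale.Agent.P007.S11

theorem QC.pow {Q : ℝ} {χ : ℕ → ℝ} (h : QC Q χ) (p k : ℕ) : χ (p ^ k) = χ p ^ k := by
  induction k with
  | zero => rw [pow_zero, pow_zero, h.one]
  | succ k ih => rw [pow_succ, h.mul, ih, pow_succ]

theorem ac_prime_pow {Q : ℝ} {χ : ℕ → ℝ} (h : QC Q χ) {p : ℕ} (hp : p.Prime) (k : ℕ) :
    ac χ (p ^ k) = ∑ i ∈ Finset.range (k + 1), χ p ^ i := by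
  unfold ac
  rw [Nat.sum_divisors_prime_pow hp]
  exact Finset.sum_congr rfl fun i _ => h.pow p i

theorem ac_prime_pow_nonneg {Q : ℝ} {χ : ℕ → ℝ} (h : QC Q χ) {p : ℕ} (hp : p.Prime) (k : ℕ) :
    0 ≤ ac χ (p ^ k) := by
  rw [ac_prime_pow h hp]
  rcases h.val p with h1 | h1 | h1
  · rw [h1]; positivity
  · rw [h1]; positivity
  · rw [h1, neg_one_geom_sum]
    split_ifs <;> norm_num

theorem ac_mul {Q : ℝ} {χ : ℕ → ℝ} (h : QC Q χ) {a b : ℕ} (hab : a.Coprime b) :
    ac χ (a * b) = ac χ a * ac χ b := by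
  let f : ArithmeticFunction ℝ := ⟨χ, h.zero⟩
  have hf : ArithmeticFunction.IsMultiplicative f := ⟨h.one, fun _ => h.mul _ _⟩
  have h1 : ∀ m, ac χ m = (f * (ArithmeticFunction.zeta : ArithmeticFunction ℝ)) m := by
    intro m
    rw [ArithmeticFunction.coe_mul_zeta_apply]
    rfl
  rw [h1, h1, h1]
  exact (hf.mul ArithmeticFunction.isMultiplicative_zeta.natCast).map_mul_of_coprime hab

theorem ac_zero (χ : ℕ → ℝ) : ac χ 0 = 0 := by
  unfold ac
  rw [Nat.divisors_zero, Finset.sum_empty]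

theorem ac_one {Q : ℝ} {χ : ℕ → ℝ} (h : QC Q χ) : ac χ 1 = 1 := by
  unfold ac
  rw [Nat.divisors_one, Finset.sum_singleton, h.one]

theorem ac_nonneg {Q : ℝ} {χ : ℕ → ℝ} (h : QC Q χ) (m : ℕ) : 0 ≤ ac χ m := by
  induction m using Nat.recOnPosPrimePosCoprime with
  | prime_pow p k hp hk => exact ac_prime_pow_nonneg h hp k
  | zero => rw [ac_zero]
  | one => rw [ac_one h]; exact zero_le_one
  | coprime a b ha hb hab iha ihb => rw [ac_mul h hab]; exact mul_nonneg iha ihb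

/-- `g(c) ≤ τ(c)^n ac χ c` for `c` without prime factors in `T` -/
theorem g_le_tau {n : ℕ} {Q B : ℝ} {T : Finset ℕ} {χ g U : ℕ → ℝ} (h : QC Q χ)
    (hg : GF n B T χ g U) (c : ℕ) (hc : c ≠ 0) (hT : ∀ p : ℕ, p.Prime → p ∣ c → p ∉ T) :
    g c ≤ (c.divisors.card : ℝ) ^ n * ac χ c := by
  induction c using Nat.recOnPosPrimePosCoprime with
  | prime_pow p k hp hk =>
    have h1 := hg.good p k hp (hT p hp (dvd_pow_self p hk.ne'))
    rw [Nat.divisors_prime_pow hp, Finset.card_map, Finset.card_range]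
    push_cast
    exact h1
  | zero => exact absurd rfl hc
  | one =>
    rw [Nat.divisors_one, Finset.card_singleton, ac_one h, hg.one]
    norm_num
  | coprime a b ha hb hab iha ihb =>
    have ha' := iha (by omega) fun p hp hpa => hT p hp (hpa.mul_right b)
    have hb' := ihb (by omega) fun p hp hpb => hT p hp (hpb.mul_left a)
    rw [Nat.Coprime.card_divisors_mul hab, ac_mul h hab]
    refine (hg.sub a b hab).trans ?_
    push_cast
    calc g a * g b ≤ ((a.divisors.card : ℝ) ^ n * ac χ a) * ((b.divisors.card : ℝ) ^ n * ac χ b) :=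
          mul_le_mul ha' hb' (hg.nonneg b) (mul_nonneg (by positivity) (ac_nonneg h a))
      _ = ((a.divisors.card : ℝ) * (b.divisors.card : ℝ)) ^ n * (ac χ a * ac χ b) := by ring

/-- `τ(c) ≤ 2^s` and `y^s ≤ c` for some `s` if all prime factors of `c` are larger than `y` -/
theorem exists_omega {y : ℝ} (hy : 0 ≤ y) (c : ℕ) (hc : c ≠ 0)
    (hT : ∀ p : ℕ, p.Prime → p ∣ c → y < (p : ℝ)) :
    ∃ s : ℕ, c.divisors.card ≤ 2 ^ s ∧ y ^ s ≤ (c : ℝ) := by
  induction c using Nat.recOnPosPrimePosCoprime with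
  | prime_pow p k hp hk =>
    refine ⟨k, ?_, ?_⟩
    · rw [Nat.divisors_prime_pow hp, Finset.card_map, Finset.card_range]
      exact Nat.lt_two_pow_self
    · push_cast
      exact pow_le_pow_left₀ hy (hT p hp (dvd_pow_self p hk.ne')).le k
  | zero => exact absurd rfl hc
  | one => exact ⟨0, by simp, by simp⟩
  | coprime a b ha hb hab iha ihb =>
    obtain ⟨s, hs1, hs2⟩ := iha (by omega) fun p hp hpa => hT p hp (hpa.mul_right b)
    obtain ⟨t, ht1, ht2⟩ := ihb (by omega) fun p hp hpb => hT p hp (hpb.mul_left a)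
    refine ⟨s + t, ?_, ?_⟩
    · rw [Nat.Coprime.card_divisors_mul hab, pow_add]
      exact Nat.mul_le_mul hs1 ht1
    · rw [pow_add]
      push_cast
      exact mul_le_mul hs2 ht2 (by positivity) (by positivity)

/-- **[S4a]** -/
theorem rough (n : ℕ) (h : SieveStmt) : ∃ C C₁ : ℝ, 0 < C ∧ 1 ≤ C₁ ∧ RoughB n C C₁ := by
  classical
  obtain ⟨C, C₁, hC, hC₁, hS⟩ := h
  refine ⟨C, C₁, hC, hC₁, ?_⟩
  intro Q L B T χ g U hQ hL hL0 hg y u v W hy hu hv huv hW
  have hly : 0 < Real.log y := Real.log_pos (by linarith)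
  have hmain : ∀ c ∈ (Finset.Ioc ⌊u⌋₊ ⌊u + v⌋₊).filter (fun c => RoS T y c),
      g c ≤ 2 ^ ((n : ℝ) * (Real.log W / Real.log y)) * ac χ c := by
    intro c hc
    rw [Finset.mem_filter, Finset.mem_Ioc] at hc
    obtain ⟨⟨hc1, hc2⟩, hc3⟩ := hc
    have hc0 : c ≠ 0 := by omega
    have hcW : (c : ℝ) ≤ W := ((Nat.le_floor_iff (by positivity)).1 hc2).trans huv
    have h1 := g_le_tau hQ hg c hc0 fun p hp hpc => (hc3 p hp hpc).2
    obtain ⟨s, hs1, hs2⟩ := exists_omega (y := y) (by linarith) c hc0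
      fun p hp hpc => (hc3 p hp hpc).1
    refine h1.trans (mul_le_mul_of_nonneg_right ?_ (ac_nonneg hQ c))
    have h2 : (s : ℝ) ≤ Real.log W / Real.log y := by
      rw [le_div_iff₀ hly, ← Real.log_pow]
      exact Real.log_le_log (by positivity) (hs2.trans hcW)
    calc (c.divisors.card : ℝ) ^ n ≤ ((2 : ℝ) ^ s) ^ n := by
          have : (c.divisors.card : ℝ) ≤ (2 : ℝ) ^ s := by exact_mod_cast hs1
          gcongr
      _ = (2 : ℝ) ^ ((n : ℝ) * (s : ℝ)) := by
          rw [← pow_mul, ← Real.rpow_natCast]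
          congr 1
          push_cast
          ring
      _ ≤ 2 ^ ((n : ℝ) * (Real.log W / Real.log y)) := by
          refine Real.rpow_le_rpow_of_exponent_le (by norm_num) ?_
          gcongr
  have h0 : (0 : ℝ) ≤ 2 ^ ((n : ℝ) * (Real.log W / Real.log y)) := by positivity
  calc ∑ c ∈ (Finset.Ioc ⌊u⌋₊ ⌊u + v⌋₊).filter (fun c => RoS T y c), g c
      ≤ ∑ c ∈ (Finset.Ioc ⌊u⌋₊ ⌊u + v⌋₊).filter (fun c => RoS T y c),
        2 ^ ((n : ℝ) * (Real.log W / Real.log y)) * ac χ c := Finset.sum_le_sum hmain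
    _ = 2 ^ ((n : ℝ) * (Real.log W / Real.log y)) *
        ∑ c ∈ (Finset.Ioc ⌊u⌋₊ ⌊u + v⌋₊).filter (fun c => RoS T y c), ac χ c := by
          rw [Finset.mul_sum]
    _ ≤ 2 ^ ((n : ℝ) * (Real.log W / Real.log y)) *
        ∑ c ∈ (Finset.Ioc ⌊u⌋₊ ⌊u + v⌋₊).filter
          (fun m => ∀ p : ℕ, p.Prime → p ∣ m → y < (p : ℝ)), ac χ c := by
          refine mul_le_mul_of_nonneg_left ?_ h0
          refine Finset.sum_le_sum_of_subset_of_nonneg ?_ fun m _ _ => ac_nonneg hQ m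
          intro c hc
          rw [Finset.mem_filter] at hc ⊢
          exact ⟨hc.1, fun p hp hpc => (hc.2 p hp hpc).1⟩
    _ ≤ _ := by
          refine mul_le_mul_of_nonneg_left ?_ h0
          exact hS Q L χ hQ hL hL0 y u v hy hu hv

end Vale.Agent.P007.S11
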