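import Vale.Agent.P007.S11.Defs

/-! # P007 / S11 : Shiu's theorem from the four classes -/

set_option autoImplicit false

namespace Vale.Agent.P007.S11

open Classical in
/-- the assembly of Shiu's theorem -/
theorem shiu_of (n : ℕ) (hn : 1 ≤ n) (B : ℝ)
    (hR : ∃ C C₁ : ℝ, 0 < C ∧ 1 ≤ C₁ ∧ RoughB n C C₁) (hRk : RankinStmt n B)
    (hRs : RankinSmallStmt n B) (hD : DivBdStmt n) (hdec : DecompStmt) (cA : ClassAStmt)
    (cB : ClassBStmt) (cC : ClassCStmt) (cD : ClassDStmt) : ShiuStmt n B := by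
  obtain ⟨C, C₁, hC, hC₁, hRo⟩ := hR
  set κ₁ : ℝ := min (1 / 400) (1 / (80 * C₁)) with hκ
  have hC0 : 0 < C₁ := by linarith
  have k0 : 0 < κ₁ := lt_min (by norm_num) (by positivity)
  have k1 : κ₁ ≤ 1 / 400 := min_le_left _ _
  have k2 : C₁ * κ₁ ≤ 1 / 80 := by
    have h1 : κ₁ ≤ 1 / (80 * C₁) := min_le_right _ _
    calc C₁ * κ₁ ≤ C₁ * (1 / (80 * C₁)) := mul_le_mul_of_nonneg_left h1 hC0.le
      _ = 1 / 80 := by field_simp
  obtain ⟨Ca, Xa, ha, HA⟩ := cA n B C C₁ κ₁ hn hC hC₁ hRo k0 k1 k2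
  obtain ⟨Cb, Xb, hb, HB⟩ := cB n B hn hRs hD
  obtain ⟨Cc, Xc, hc, HC⟩ := cC n B κ₁ hn hRs hD k0 k1
  obtain ⟨Cd, Xd, hd, HD⟩ := cD n B C C₁ κ₁ hn hC hC₁ hRo hRk k0 k1 k2
  obtain ⟨Xe, HE⟩ := hdec κ₁ k0 k1
  refine ⟨Ca + Cb + Cc + Cd, max (max Xa Xb) (max (max Xc Xd) Xe), by positivity, ?_⟩
  intro x h Q L T χ g U H hx
  have xa : Xa ≤ x := (le_max_left _ _).trans ((le_max_left _ _).trans hx)
  have xb : Xb ≤ x := (le_max_right _ _).trans ((le_max_left _ _).trans hx)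
  have xc : Xc ≤ x := (le_max_left _ _).trans ((le_max_left _ _).trans ((le_max_right _ _).trans hx))
  have xd : Xd ≤ x := (le_max_right _ _).trans ((le_max_left _ _).trans ((le_max_right _ _).trans hx))
  have xe : Xe ≤ x := (le_max_right _ _).trans ((le_max_right _ _).trans hx)
  set I := Finset.Ioc ⌊x⌋₊ ⌊x + h⌋₊ with hI
  have h1 := HA x h Q L T χ g U H xa (I.filter fun m => ClA T x κ₁ m) (Finset.filter_subset _ _)
    (fun m hm => (Finset.mem_filter.1 hm).2)
  have h2 := HB x h Q L T χ g U H xb (I.filter fun m => ClB T x m) (Finset.filter_subset _ _)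
    (fun m hm => (Finset.mem_filter.1 hm).2)
  have h3 := HC x h Q L T χ g U H xc (I.filter fun m => ClC T x κ₁ m) (Finset.filter_subset _ _)
    (fun m hm => (Finset.mem_filter.1 hm).2)
  have h4 := HD x h Q L T χ g U H xd (I.filter fun m => ClD T x κ₁ m) (Finset.filter_subset _ _)
    (fun m hm => (Finset.mem_filter.1 hm).2)
  rw [Finset.sum_filter] at h1 h2 h3 h4
  have key : ∑ m ∈ I, g m ≤ ∑ m ∈ I, ((if ClA T x κ₁ m then g m else 0) +
      (if ClB T x m then g m else 0) + (if ClC T x κ₁ m then g m else 0) +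
      (if ClD T x κ₁ m then g m else 0)) := by
    refine Finset.sum_le_sum fun m hm => ?_
    have hg := H.gf.nonneg m
    have hm1 : 1 ≤ m := by
      have := (Finset.mem_Ioc.1 hm).1
      omega
    have e1 : 0 ≤ (if ClA T x κ₁ m then g m else 0) := by split_ifs <;> simp [hg]
    have e2 : 0 ≤ (if ClB T x m then g m else 0) := by split_ifs <;> simp [hg]
    have e3 : 0 ≤ (if ClC T x κ₁ m then g m else 0) := by split_ifs <;> simp [hg]
    have e4 : 0 ≤ (if ClD T x κ₁ m then g m else 0) := by split_ifs <;> simp [hg]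
    rcases HE T x xe m hm1 with e | e | e | e
    · rw [if_pos e] at e1 ⊢
      linarith
    · rw [if_pos e] at e2 ⊢
      linarith
    · rw [if_pos e] at e3 ⊢
      linarith
    · rw [if_pos e] at e4 ⊢
      linarith
  refine key.trans ?_
  rw [Finset.sum_add_distrib, Finset.sum_add_distrib, Finset.sum_add_distrib]
  nlinarith [h1, h2, h3, h4]

end Vale.Agent.P007.S11
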