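import Vale.Agent.P007.S11.Defs2
import Vale.Agent.P007.S11.Wp
import Vale.Agent.P007.Bdl.B17

/-! The upper bound for the ideal counts from Shiu's theorem (small `L(1, χ)`). -/

set_option autoImplicit false

namespace Vale.Agent.P007.S11.Up

open Finset

/-- the comparison of the sieve products at two points -/
def WpRatioStmt : Prop := ∃ C : ℝ, 0 < C ∧ ∀ χ : ℕ → ℝ, (∀ m, |χ m| ≤ 1) → ∀ y x : ℝ, 2 ≤ y →
  y ≤ x → Wp χ y ≤ C * (Real.log x / Real.log y) ^ 2 * Wp χ x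

theorem up_dyadic (g : ℕ → ℝ) (K K2 X y : ℝ) (hK2 : 0 ≤ K2) (hy : 1 ≤ y)
    (hP : ∀ x, y ≤ x → x ≤ X → ∑ m ∈ Ioc ⌊x⌋₊ ⌊x + x⌋₊, g m ≤ K * x)
    (hc : ∀ Z, 1 ≤ Z → Z ≤ X → ∑ m ∈ Icc 1 ⌊Z⌋₊, g m ≤ K2 * Z) (hK : 0 ≤ K) :
    ∀ Z, 1 ≤ Z → Z ≤ X → ∑ m ∈ Icc 1 ⌊Z⌋₊, g m ≤ K * Z + K2 * min Z (2 * y) := by
  have key : ∀ k : ℕ, ∀ Z, 1 ≤ Z → Z ≤ X → Z ≤ 2 ^ k * (2 * y) →
      ∑ m ∈ Icc 1 ⌊Z⌋₊, g m ≤ K * Z + K2 * min Z (2 * y) := by
    intro k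
    induction k with
    | zero =>
      intro Z h1 h2 h3
      rw [pow_zero, one_mul] at h3
      rw [min_eq_left h3]
      have := hc Z h1 h2
      nlinarith [mul_nonneg hK (by linarith : (0 : ℝ) ≤ Z)]
    | succ k ih =>
      intro Z h1 h2 h3
      by_cases h4 : Z ≤ 2 * y
      · rw [min_eq_left h4]
        have := hc Z h1 h2
        nlinarith [mul_nonneg hK (by linarith : (0 : ℝ) ≤ Z)]
      · rw [not_le] at h4
        have h5 := ih (Z / 2) (by linarith) (by linarith) (by rw [pow_succ] at h3; linarith)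
        have h6 := hP (Z / 2) (by linarith) (by linarith)
        rw [add_halves] at h6
        have h7 : ∑ m ∈ Icc 1 ⌊Z⌋₊, g m =
            ∑ m ∈ Icc 1 ⌊Z / 2⌋₊, g m + ∑ m ∈ Ioc ⌊Z / 2⌋₊ ⌊Z⌋₊, g m := by
          have h8 : ⌊Z / 2⌋₊ ≤ ⌊Z⌋₊ := Nat.floor_mono (by linarith)
          rw [← Finset.sum_union]
          · congr 1
            ext m
            simp only [mem_union, mem_Icc, mem_Ioc]
            omega
          · rw [Finset.disjoint_left]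
            intro m hm hm'
            simp only [mem_Icc, mem_Ioc] at hm hm'
            omega
        rw [h7]
        have h9 : K2 * min (Z / 2) (2 * y) ≤ K2 * min Z (2 * y) :=
          mul_le_mul_of_nonneg_left (min_le_min_right _ (by linarith)) hK2
        linarith
  intro Z h1 h2
  obtain ⟨k, hk⟩ := pow_unbounded_of_one_lt Z (one_lt_two : (1 : ℝ) < 2)
  refine key k Z h1 h2 ?_
  have : (0 : ℝ) < 2 ^ k := by positivity
  nlinarith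

theorem up_short (g : ℕ → ℝ) (hg : ∀ m, 0 ≤ g m) (K δ Y : ℝ) (hK : 0 ≤ K) (hδ : 0 < δ)
    (hY : 1 ≤ Y) (h1 : 1 ≤ δ * (Y - 1))
    (ha : ∑ m ∈ Ioc ⌊Y⌋₊ ⌊Y + δ * Y⌋₊, g m ≤ K * (δ * Y))
    (hb : ∑ m ∈ Ioc ⌊Y - 1⌋₊ ⌊(Y - 1) + δ * (Y - 1)⌋₊, g m ≤ K * (δ * (Y - 1))) :
    ∑ m ∈ Icc ⌈Y⌉₊ ⌊(1 + δ) * Y⌋₊, g m ≤ 2 * K * (δ * Y) := by
  have h2 : Icc ⌈Y⌉₊ ⌊(1 + δ) * Y⌋₊ ⊆
      Ioc ⌊Y⌋₊ ⌊Y + δ * Y⌋₊ ∪ Ioc ⌊Y - 1⌋₊ ⌊(Y - 1) + δ * (Y - 1)⌋₊ := by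
    intro m hm
    rw [mem_Icc] at hm
    rw [mem_union, mem_Ioc, mem_Ioc]
    have h3 : Y ≤ m := (Nat.le_ceil Y).trans (by exact_mod_cast hm.1)
    rcases h3.lt_or_eq with h4 | h4
    · left
      refine ⟨?_, ?_⟩
      · have h5 : (⌊Y⌋₊ : ℝ) < m := lt_of_le_of_lt (Nat.floor_le (by linarith)) h4
        exact_mod_cast h5
      · have h6 : Y + δ * Y = (1 + δ) * Y := by ring
        rw [h6]
        exact hm.2
    · right
      refine ⟨?_, ?_⟩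
      · have h5 : (⌊Y - 1⌋₊ : ℝ) < m := lt_of_le_of_lt (Nat.floor_le (by linarith)) (by linarith)
        exact_mod_cast h5
      · apply Nat.le_floor
        rw [← h4]
        linarith
  calc ∑ m ∈ Icc ⌈Y⌉₊ ⌊(1 + δ) * Y⌋₊, g m
      ≤ ∑ m ∈ Ioc ⌊Y⌋₊ ⌊Y + δ * Y⌋₊ ∪ Ioc ⌊Y - 1⌋₊ ⌊(Y - 1) + δ * (Y - 1)⌋₊, g m :=
        Finset.sum_le_sum_of_subset_of_nonneg h2 fun m _ _ => hg m
    _ ≤ ∑ m ∈ Ioc ⌊Y⌋₊ ⌊Y + δ * Y⌋₊, g m +
        ∑ m ∈ Ioc ⌊Y - 1⌋₊ ⌊(Y - 1) + δ * (Y - 1)⌋₊, g m := by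
        rw [← Finset.sum_union_inter]
        have : 0 ≤ ∑ m ∈ Ioc ⌊Y⌋₊ ⌊Y + δ * Y⌋₊ ∩ Ioc ⌊Y - 1⌋₊ ⌊(Y - 1) + δ * (Y - 1)⌋₊, g m :=
          Finset.sum_nonneg fun m _ => hg m
        linarith
    _ ≤ K * (δ * Y) + K * (δ * (Y - 1)) := add_le_add ha hb
    _ ≤ 2 * K * (δ * Y) := by nlinarith [mul_nonneg hK hδ.le]

theorem qc_abs_le {Q : ℝ} {χ : ℕ → ℝ} (h : QC Q χ) (m : ℕ) : |χ m| ≤ 1 := by
  rcases h.val m with h | h | h <;> rw [h] <;> simp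

theorem upper_Wp_pos {χ : ℕ → ℝ} (h : ∀ m, |χ m| ≤ 1) (x : ℝ) : 0 < Wp χ x := by
  apply Finset.prod_pos
  intro p hp
  have hp' : p.Prime := (Finset.mem_filter.1 hp).2
  have h1 : (1 : ℝ) < p := by exact_mod_cast hp'.one_lt
  have h2 : 0 < (p : ℝ) := by linarith
  have h3 : 1 / (p : ℝ) < 1 := by rw [div_lt_one h2]; exact h1
  have h4 : χ p / p ≤ 1 / p := div_le_div_of_nonneg_right ((le_abs_self _).trans (h p)) h2.le
  exact mul_pos (by linarith) (by linarith)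

theorem pr_mono {x y : ℝ} (h : x ≤ y) : pr x ⊆ pr y := by
  intro p hp
  simp only [pr, mem_filter, mem_range] at hp ⊢
  have := Nat.floor_mono h
  exact ⟨by omega, hp.2⟩

theorem prodpr_mono {n : ℕ} {B : ℝ} {T : Finset ℕ} {χ g U : ℕ → ℝ} (h : GF n B T χ g U)
    {x y : ℝ} (hxy : x ≤ y) : ∏ p ∈ pr x, U p ≤ ∏ p ∈ pr y, U p := by
  apply Finset.prod_le_prod_of_subset_of_one_le (pr_mono hxy)
  · intro p hp
    exact zero_le_one.trans (h.U1 p (Finset.mem_filter.1 hp).2)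
  · intro p hp _
    exact h.U1 p (Finset.mem_filter.1 hp).2

theorem one_le_prodpr {n : ℕ} {B : ℝ} {T : Finset ℕ} {χ g U : ℕ → ℝ} (h : GF n B T χ g U)
    (x : ℝ) : 1 ≤ ∏ p ∈ pr x, U p := by
  have h1 := prodpr_mono h (x := 0) (y := max x 0) (le_max_right _ _)
  rcases le_total x 0 with hx | hx
  · have : pr x = ∅ := by
      apply Finset.eq_empty_of_forall_notMem
      intro p hp
      simp only [pr, mem_filter, mem_range] at hp
      have h2 : ⌊x⌋₊ = 0 := Nat.floor_of_nonpos hx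
      have h3 := hp.2.two_le
      omega
    rw [this]; simp
  · rw [max_eq_left hx] at h1
    refine le_trans (le_of_eq ?_) h1
    have : pr 0 = ∅ := by
      apply Finset.eq_empty_of_forall_notMem
      intro p hp
      simp only [pr, mem_filter, mem_range] at hp
      have h2 : ⌊(0 : ℝ)⌋₊ = 0 := Nat.floor_of_nonpos le_rfl
      have h3 := hp.2.two_le
      omega
    rw [this]; simp

theorem up_piece (n : ℕ) (hn : 1 ≤ n) (B : ℝ) (hS : ShiuStmt n B) (hW : WpRatioStmt) :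
    ∃ Cs : ℝ, 0 < Cs ∧ ∀ C₀ c₀ : ℝ, 0 < c₀ → ∀ e : ℝ, 0 < e → ∃ X₁ : ℝ, ∀ X : ℝ, X₁ ≤ X →
    ∀ (Q L : ℝ) (T : Finset ℕ) (χ g U : ℕ → ℝ), QC Q χ → IsL χ Q L → GF n B T χ g U →
    (T.card : ℝ) ≤ 2 * Real.log X → Q ≤ C₀ * X ^ (3 / 4 : ℝ) →
    c₀ * X ^ (-(1 / (2000 * n)) : ℝ) ≤ L → ∀ x δ : ℝ, X ^ (31 / 32 : ℝ) ≤ x → x ≤ X → e ≤ δ →
    δ ≤ 1 → ∑ m ∈ Ioc ⌊x⌋₊ ⌊x + δ * x⌋₊, g m ≤
      Cs * (L * Wp χ X * ∏ p ∈ pr (2 * X), U p) * (δ * x) := by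
  obtain ⟨C, X₀, hC, hS⟩ := hS
  obtain ⟨CW, hCW, hW⟩ := hW
  refine ⟨2 * C * CW, by positivity, fun C₀ c₀ hc₀ e he => ?_⟩
  have hn0 : (0 : ℝ) < n := by exact_mod_cast hn
  set κ : ℝ := 1 / (1000 * n) with hκ
  have hκ0 : 0 < κ := by positivity
  have hκ2 : (1 / (2000 * n) : ℝ) = κ / 2 := by rw [hκ]; field_simp; norm_num
  have E1 : ∀ᶠ X : ℝ in Filter.atTop, max X₀ 2 ≤ X ^ (31 / 32 : ℝ) :=
    (tendsto_rpow_atTop (by norm_num)).eventually_ge_atTop _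
  have E2 : ∀ᶠ X : ℝ in Filter.atTop, C₀ ≤ X ^ (1 / 40 : ℝ) :=
    (tendsto_rpow_atTop (by norm_num)).eventually_ge_atTop _
  have E3 : ∀ᶠ X : ℝ in Filter.atTop, c₀⁻¹ ≤ X ^ (15 * κ / 32) :=
    (tendsto_rpow_atTop (by positivity)).eventually_ge_atTop _
  have E4 : ∀ᶠ X : ℝ in Filter.atTop, e⁻¹ ≤ X ^ (31 / 32 * κ) :=
    (tendsto_rpow_atTop (by positivity)).eventually_ge_atTop _
  have E5 : ∀ᶠ X : ℝ in Filter.atTop, (2 : ℝ) ≤ X := Filter.eventually_ge_atTop _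
  obtain ⟨X₁, hX₁⟩ := Filter.eventually_atTop.1 (((E1.and E2).and (E3.and E4)).and E5)
  refine ⟨X₁, fun X hX Q L T χ g U hQC hL hGF hT hQ hcL x δ hx hxX hδ hδ1 => ?_⟩
  obtain ⟨⟨⟨h1, h2⟩, h3, h4⟩, h5⟩ := hX₁ X hX
  have hX0 : 0 < X := by linarith
  have hlX : 0 < Real.log X := Real.log_pos (by linarith)
  have h1a : X₀ ≤ X ^ (31 / 32 : ℝ) := (le_max_left _ _).trans h1
  have h1b : 2 ≤ X ^ (31 / 32 : ℝ) := (le_max_right _ _).trans h1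
  have hx2 : 2 ≤ x := h1b.trans hx
  have hx0 : 0 < x := by linarith
  have hδ0 : 0 < δ := lt_of_lt_of_le he hδ
  have hlx : 31 / 32 * Real.log X ≤ Real.log x := by
    rw [← Real.log_rpow hX0]
    exact Real.log_le_log (by positivity) hx
  have hlx0 : 0 < Real.log x := by nlinarith
  -- powers
  have h6 : x ^ (-κ) ≤ X ^ (-(31 / 32 * κ)) := by
    calc x ^ (-κ) ≤ (X ^ (31 / 32 : ℝ)) ^ (-κ) :=
          Real.rpow_le_rpow_of_nonpos (by positivity) hx (by linarith)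
      _ = X ^ (-(31 / 32 * κ)) := by
          rw [← Real.rpow_mul hX0.le]; congr 1; ring
  have h7 : X ^ (-(31 / 32 * κ)) ≤ c₀ * X ^ (-(κ / 2)) := by
    have h71 : X ^ (-(31 / 32 * κ)) = X ^ (-(κ / 2)) * (X ^ (15 * κ / 32))⁻¹ := by
      rw [← Real.rpow_neg hX0.le, ← Real.rpow_add hX0]; congr 1; ring
    have h72 : (X ^ (15 * κ / 32))⁻¹ ≤ c₀ := by
      rw [inv_le_comm₀ (by positivity) hc₀]; exact h3
    rw [h71, mul_comm]
    exact mul_le_mul_of_nonneg_right h72 (by positivity)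
  have h8 : X ^ (-(31 / 32 * κ)) ≤ e := by
    rw [Real.rpow_neg hX0.le, inv_le_comm₀ (by positivity) he]; exact h4
  have hL0 : 0 < L := lt_of_lt_of_le (by positivity) hcL
  have hSH : SH n B x (δ * x) Q L T χ g U := by
    refine ⟨hQC, hL, hGF, ?_, ?_, ?_, ?_, ?_⟩
    · linarith
    · calc Q ≤ C₀ * X ^ (3 / 4 : ℝ) := hQ
        _ ≤ X ^ (1 / 40 : ℝ) * X ^ (3 / 4 : ℝ) := mul_le_mul_of_nonneg_right h2 (by positivity)
        _ = (X ^ (31 / 32 : ℝ)) ^ (4 / 5 : ℝ) := by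
            rw [← Real.rpow_add hX0, ← Real.rpow_mul hX0.le]; norm_num
        _ ≤ x ^ (4 / 5 : ℝ) := Real.rpow_le_rpow (by positivity) hx (by norm_num)
    · rw [← hκ]
      rw [hκ2] at hcL
      exact h6.trans (h7.trans hcL)
    · rw [← hκ]
      have : x ^ (1 - κ) = x ^ (-κ) * x := by
        rw [sub_eq_add_neg, add_comm, Real.rpow_add hx0, Real.rpow_one]
      rw [this]
      exact mul_le_mul_of_nonneg_right (h6.trans (h8.trans hδ)) hx0.le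
    · nlinarith
  have h9 := hS x (δ * x) Q L T χ g U hSH (h1a.trans hx)
  have h10 : Wp χ x ≤ 2 * CW * Wp χ X := by
    have h101 := hW χ (qc_abs_le hQC) x X hx2 hxX
    have h102 : (Real.log X / Real.log x) ^ 2 ≤ 2 := by
      rw [div_pow, div_le_iff₀ (by positivity)]
      nlinarith
    have h103 := upper_Wp_pos (qc_abs_le hQC) X
    calc Wp χ x ≤ CW * (Real.log X / Real.log x) ^ 2 * Wp χ X := h101
      _ ≤ CW * 2 * Wp χ X := by gcongr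
      _ = 2 * CW * Wp χ X := by ring
  have h11 : ∏ p ∈ pr (2 * x), U p ≤ ∏ p ∈ pr (2 * X), U p := prodpr_mono hGF (by linarith)
  have h12 : 1 ≤ ∏ p ∈ pr (2 * x), U p := one_le_prodpr hGF _
  have h13 := upper_Wp_pos (qc_abs_le hQC) x
  have h14 := upper_Wp_pos (qc_abs_le hQC) X
  calc ∑ m ∈ Ioc ⌊x⌋₊ ⌊x + δ * x⌋₊, g m
      ≤ C * (L * (δ * x) * Wp χ x * ∏ p ∈ pr (2 * x), U p) := h9
    _ ≤ C * (L * (δ * x) * (2 * CW * Wp χ X) * ∏ p ∈ pr (2 * X), U p) := by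
        gcongr
    _ = 2 * C * CW * (L * Wp χ X * ∏ p ∈ pr (2 * X), U p) * (δ * x) := by ring

theorem up_lower (hW : WpRatioStmt) : ∃ c : ℝ, 0 < c ∧ ∀ χ : ℕ → ℝ, (∀ m, |χ m| ≤ 1) →
    ∀ x : ℝ, 2 ≤ x → c / Real.log x ^ 2 ≤ Wp χ x := by
  obtain ⟨C, hC, hW⟩ := hW
  have hl2 : 0 < Real.log 2 := Real.log_pos one_lt_two
  refine ⟨Real.log 2 ^ 2 / (4 * C), by positivity, fun χ hχ x hx => ?_⟩
  have h1 := hW χ hχ 2 x le_rfl hx
  have h2 : 1 / 4 ≤ Wp χ 2 := by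
    have h3 : pr 2 = {2} := by
      ext p
      simp only [pr, mem_filter, mem_range, mem_singleton]
      have h4 : ⌊(2 : ℝ)⌋₊ = 2 := by norm_num
      rw [h4]
      constructor
      · rintro ⟨h5, h6⟩
        have := h6.two_le
        omega
      · rintro rfl
        exact ⟨by norm_num, Nat.prime_two⟩
    rw [Wp, h3, Finset.prod_singleton]
    have h5 := (le_abs_self _).trans (hχ 2)
    push_cast
    linarith
  have hlx : 0 < Real.log x := Real.log_pos (by linarith)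
  rw [div_div, div_le_iff₀ (by positivity)]
  have h4 : C * (Real.log x / Real.log 2) ^ 2 * Wp χ x * Real.log 2 ^ 2 =
      C * Real.log x ^ 2 * Wp χ x := by field_simp
  have h5 : 1 / 4 * Real.log 2 ^ 2 ≤ C * (Real.log x / Real.log 2) ^ 2 * Wp χ x * Real.log 2 ^ 2 :=
    mul_le_mul_of_nonneg_right (h2.trans h1) (by positivity)
  nlinarith

theorem up_min (X Z : ℝ) (hX : 1 ≤ X) (h1 : 1 ≤ Z) :
    min Z (2 * X ^ (31 / 32 : ℝ)) ≤ 2 * (Z * (X / Z) ^ (1 / 8 : ℝ) * X ^ (-(1 / 256) : ℝ)) := by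
  have hX0 : 0 < X := by linarith
  have hZ0 : 0 < Z := by linarith
  rcases le_total Z (X ^ (31 / 32 : ℝ)) with h | h
  · refine (min_le_left _ _).trans ?_
    have h2 : X ^ (1 / 32 : ℝ) ≤ X / Z := by
      rw [le_div_iff₀ hZ0]
      calc X ^ (1 / 32 : ℝ) * Z ≤ X ^ (1 / 32 : ℝ) * X ^ (31 / 32 : ℝ) := by gcongr
        _ = X := by rw [← Real.rpow_add hX0]; norm_num
    have h3 : X ^ (1 / 256 : ℝ) ≤ (X / Z) ^ (1 / 8 : ℝ) := by
      calc X ^ (1 / 256 : ℝ) = (X ^ (1 / 32 : ℝ)) ^ (1 / 8 : ℝ) := by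
            rw [← Real.rpow_mul hX0.le]; norm_num
        _ ≤ (X / Z) ^ (1 / 8 : ℝ) := Real.rpow_le_rpow (by positivity) h2 (by norm_num)
    have h4 : 1 ≤ (X / Z) ^ (1 / 8 : ℝ) * X ^ (-(1 / 256) : ℝ) := by
      rw [Real.rpow_neg hX0.le, ← div_eq_mul_inv, one_le_div (by positivity)]
      exact h3
    nlinarith
  · refine (min_le_right _ _).trans ?_
    have h2 : X ^ (31 / 32 : ℝ) ≤ Z * (X / Z) ^ (1 / 8 : ℝ) * X ^ (-(1 / 256) : ℝ) := by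
      have h3 : Z * (X / Z) ^ (1 / 8 : ℝ) * X ^ (-(1 / 256) : ℝ) =
          Z ^ (7 / 8 : ℝ) * X ^ (31 / 256 : ℝ) := by
        rw [Real.div_rpow hX0.le hZ0.le, Real.rpow_neg hX0.le]
        have h4 : Z = Z ^ (7 / 8 : ℝ) * Z ^ (1 / 8 : ℝ) := by
          rw [← Real.rpow_add hZ0]; norm_num
        have h5 : X ^ (1 / 8 : ℝ) = X ^ (31 / 256 : ℝ) * X ^ (1 / 256 : ℝ) := by
          rw [← Real.rpow_add hX0]; norm_num
        have h6 : X ^ (1 / 256 : ℝ) ≠ 0 := by positivity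
        have h7 : Z ^ (1 / 8 : ℝ) ≠ 0 := by positivity
        rw [h5]
        nth_rewrite 1 [h4]
        field_simp
      rw [h3]
      calc X ^ (31 / 32 : ℝ) = (X ^ (31 / 32 : ℝ)) ^ (7 / 8 : ℝ) * X ^ (31 / 256 : ℝ) := by
            rw [← Real.rpow_mul hX0.le, ← Real.rpow_add hX0]; norm_num
        _ ≤ Z ^ (7 / 8 : ℝ) * X ^ (31 / 256 : ℝ) := by gcongr
    linarith

theorem up_core (n : ℕ) (hn : 1 ≤ n) (B : ℝ) (hS : ShiuStmt n B) (hW : WpRatioStmt)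
    (hcr : ∃ C₂ : ℝ, 0 < C₂ ∧ ∀ (T : Finset ℕ) (χ g U : ℕ → ℝ), GF n B T χ g U → ∀ Z : ℝ, 2 ≤ Z →
      ∑ m ∈ Icc 1 ⌊Z⌋₊, g m ≤ C₂ * Z / Real.log Z * ∏ p ∈ pr (2 * Z), U p) :
    ∃ C : ℝ, 0 < C ∧ ∀ C₀ c₀ : ℝ, 0 < c₀ → ∀ e : ℝ, 0 < e → ∃ X₁ : ℝ, ∀ X : ℝ, X₁ ≤ X →
    ∀ (Q L : ℝ) (T : Finset ℕ) (χ g U : ℕ → ℝ), QC Q χ → IsL χ Q L → GF n B T χ g U →
    (T.card : ℝ) ≤ 2 * Real.log X → Q ≤ C₀ * X ^ (3 / 4 : ℝ) →
    c₀ * X ^ (-(1 / (2000 * n)) : ℝ) ≤ L →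
    (∀ Z : ℝ, 1 ≤ Z → Z ≤ X → ∑ m ∈ Icc 1 ⌊Z⌋₊, g m ≤
      C * Z * (X / Z) ^ (1 / 8 : ℝ) * (L * Wp χ X * ∏ p ∈ pr (2 * X), U p)) ∧
    (∀ δ : ℝ, e ≤ δ → δ ≤ 1 → ∀ Y : ℝ, e * X ≤ Y → Y ≤ X →
      ∑ m ∈ Icc ⌈Y⌉₊ ⌊(1 + δ) * Y⌋₊, g m ≤
        C * δ * Y * (X / Y) ^ (1 / 8 : ℝ) * (L * Wp χ X * ∏ p ∈ pr (2 * X), U p)) := by
  obtain ⟨C₂, hC₂, hcr⟩ := hcr
  obtain ⟨Cs, hCs, hp⟩ := up_piece n hn B hS hW
  obtain ⟨c, hc, hlow⟩ := up_lower hW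
  have hl2 : 0 < Real.log 2 := Real.log_pos one_lt_two
  set K₂ : ℝ := C₂ / Real.log 2 + 1 with hK₂
  have hK₂0 : 0 < K₂ := by positivity
  refine ⟨2 * Cs + 2 * K₂, by positivity, fun C₀ c₀ hc₀ e he => ?_⟩
  obtain ⟨X₁, hX₁⟩ := hp C₀ c₀ hc₀ (min e 1) (lt_min he one_pos)
  have hn1 : (1 : ℝ) ≤ n := by exact_mod_cast hn
  have hn0 : (0 : ℝ) < n := by linarith
  have hcc : 0 < √(c₀ * c) := Real.sqrt_pos.2 (by positivity)
  have E1 : ∀ᶠ X : ℝ in Filter.atTop, ‖Real.log X‖ ≤ √(c₀ * c) * ‖X ^ (1 / 1024 : ℝ)‖ :=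
    (isLittleO_log_rpow_atTop (by norm_num)).bound hcc
  have E2 : ∀ᶠ X : ℝ in Filter.atTop, 2 / e ≤ X ^ (1 / 32 : ℝ) :=
    (tendsto_rpow_atTop (by norm_num)).eventually_ge_atTop _
  have E3 : ∀ᶠ X : ℝ in Filter.atTop, max (max X₁ 2) (max (2 / e) ((1 / e + 1) / e)) ≤ X :=
    Filter.eventually_ge_atTop _
  obtain ⟨X₂, hX₂⟩ := Filter.eventually_atTop.1 ((E1.and E2).and E3)
  refine ⟨X₂, fun X hX Q L T χ g U hQC hL hGF hT hQ hcL => ?_⟩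
  obtain ⟨⟨h1, h2⟩, h3⟩ := hX₂ X hX
  have h3a : X₁ ≤ X := (le_max_left _ _).trans ((le_max_left _ _).trans h3)
  have h3b : 2 ≤ X := (le_max_right _ _).trans ((le_max_left _ _).trans h3)
  have h3c : 2 / e ≤ X := (le_max_left _ _).trans ((le_max_right _ _).trans h3)
  have h3d : (1 / e + 1) / e ≤ X := (le_max_right _ _).trans ((le_max_right _ _).trans h3)
  have hX0 : 0 < X := by linarith
  have hlX : 0 < Real.log X := Real.log_pos (by linarith)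
  have hL0 : 0 < L := lt_of_lt_of_le (by positivity) hcL
  have hWX := upper_Wp_pos (qc_abs_le hQC) X
  have hPX : 1 ≤ ∏ p ∈ pr (2 * X), U p := one_le_prodpr hGF _
  set P : ℝ := ∏ p ∈ pr (2 * X), U p with hP
  set H : ℝ := L * Wp χ X * P with hH
  have hH0 : 0 < H := by positivity
  have hpc := hX₁ X h3a Q L T χ g U hQC hL hGF hT hQ hcL
  have hone : ∀ Z : ℝ, 0 < Z → Z ≤ X → 1 ≤ (X / Z) ^ (1 / 8 : ℝ) := fun Z hZ hZX =>
    Real.one_le_rpow (by rw [one_le_div hZ]; exact hZX) (by norm_num)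
  constructor
  · intro Z hZ1 hZX
    have hZ0 : 0 < Z := by linarith
    have h4 : ∑ m ∈ Icc 1 ⌊Z⌋₊, g m ≤ (Cs * H) * Z + (K₂ * P) * min Z (2 * X ^ (31 / 32 : ℝ)) := by
      refine up_dyadic g (Cs * H) (K₂ * P) X (X ^ (31 / 32 : ℝ)) (by positivity)
        (Real.one_le_rpow (by linarith) (by norm_num)) ?_ ?_ (by positivity) Z hZ1 hZX
      · intro x hx hxX
        have := hpc x 1 hx hxX (min_le_right _ _) le_rfl
        rwa [one_mul] at this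
      · intro W hW1 hWX
        by_cases hW2 : 2 ≤ W
        · have h5 := hcr T χ g U hGF W hW2
          have h6 : C₂ * W / Real.log W ≤ C₂ / Real.log 2 * W := by
            rw [div_mul_eq_mul_div]
            have : Real.log 2 ≤ Real.log W := Real.log_le_log (by norm_num) hW2
            gcongr
          have h7 : ∏ p ∈ pr (2 * W), U p ≤ P := prodpr_mono hGF (by linarith)
          have h8 : 1 ≤ ∏ p ∈ pr (2 * W), U p := one_le_prodpr hGF _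
          have hW0 : 0 < W := by linarith
          calc ∑ m ∈ Icc 1 ⌊W⌋₊, g m ≤ C₂ * W / Real.log W * ∏ p ∈ pr (2 * W), U p := h5
            _ ≤ (C₂ / Real.log 2 * W) * P := by gcongr
            _ ≤ K₂ * P * W := by
              rw [hK₂]
              nlinarith [mul_pos (zero_lt_one.trans_le hPX) hW0]
        · rw [not_le] at hW2
          have h5 : ⌊W⌋₊ = 1 := by
            rw [Nat.floor_eq_iff (by linarith)]
            norm_num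
            exact ⟨hW1, by linarith⟩
          rw [h5]
          simp only [Finset.Icc_self, Finset.sum_singleton]
          rw [hGF.one]
          have h6 : 1 ≤ K₂ := by
            rw [hK₂]
            have : 0 < C₂ / Real.log 2 := by positivity
            linarith
          calc (1 : ℝ) = 1 * 1 * 1 := by norm_num
            _ ≤ K₂ * P * W := by gcongr
    have h5 := up_min X Z (by linarith) hZ1
    have h6 : X ^ (-(1 / 256) : ℝ) ≤ L * Wp χ X := by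
      rw [Real.norm_of_nonneg hlX.le, Real.norm_of_nonneg (by positivity)] at h1
      have h7 : Real.log X ^ 2 ≤ (c₀ * c) * X ^ (1 / 512 : ℝ) := by
        calc Real.log X ^ 2 ≤ (√(c₀ * c) * X ^ (1 / 1024 : ℝ)) ^ 2 := by gcongr
          _ = (c₀ * c) * X ^ (1 / 512 : ℝ) := by
              rw [mul_pow, Real.sq_sqrt (by positivity), ← Real.rpow_natCast, ← Real.rpow_mul hX0.le]
              norm_num
      have h8 : X ^ (-(1 / 512) : ℝ) ≤ X ^ (-(1 / (2000 * n)) : ℝ) := by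
        apply Real.rpow_le_rpow_of_exponent_le (by linarith)
        rw [neg_le_neg_iff]
        apply one_div_le_one_div_of_le (by norm_num)
        linarith
      have h9 := hlow χ (qc_abs_le hQC) X h3b
      calc X ^ (-(1 / 256) : ℝ) = X ^ (-(1 / 512) : ℝ) * X ^ (-(1 / 512) : ℝ) := by
            rw [← Real.rpow_add hX0]; norm_num
        _ ≤ (c₀ * X ^ (-(1 / 512) : ℝ)) * (c / Real.log X ^ 2) := by
            have h10 : X ^ (-(1 / 512) : ℝ) ≤ c₀ * (c / Real.log X ^ 2) := by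
              rw [Real.rpow_neg hX0.le, ← mul_div_assoc, le_div_iff₀ (by positivity),
                inv_mul_le_iff₀ (by positivity)]
              linarith
            calc X ^ (-(1 / 512) : ℝ) * X ^ (-(1 / 512) : ℝ) ≤
                X ^ (-(1 / 512) : ℝ) * (c₀ * (c / Real.log X ^ 2)) :=
                  mul_le_mul_of_nonneg_left h10 (by positivity)
              _ = _ := by ring
        _ ≤ (c₀ * X ^ (-(1 / (2000 * n)) : ℝ)) * Wp χ X := by gcongr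
        _ ≤ L * Wp χ X := by gcongr
    have h7 := hone Z hZ0 hZX
    calc ∑ m ∈ Icc 1 ⌊Z⌋₊, g m ≤ (Cs * H) * Z + (K₂ * P) * min Z (2 * X ^ (31 / 32 : ℝ)) := h4
      _ ≤ (Cs * H) * Z * (X / Z) ^ (1 / 8 : ℝ) + (K₂ * P) *
          (2 * (Z * (X / Z) ^ (1 / 8 : ℝ) * (L * Wp χ X))) := by
          have h8 : (Cs * H) * Z ≤ (Cs * H) * Z * (X / Z) ^ (1 / 8 : ℝ) :=
            le_mul_of_one_le_right (by positivity) h7
          have h9 : min Z (2 * X ^ (31 / 32 : ℝ)) ≤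
              2 * (Z * (X / Z) ^ (1 / 8 : ℝ) * (L * Wp χ X)) := h5.trans (by gcongr)
          exact add_le_add h8 (mul_le_mul_of_nonneg_left h9 (by positivity))
      _ = (Cs + 2 * K₂) * Z * (X / Z) ^ (1 / 8 : ℝ) * H := by rw [hH]; ring
      _ ≤ (2 * Cs + 2 * K₂) * Z * (X / Z) ^ (1 / 8 : ℝ) * H := by
          have : Cs + 2 * K₂ ≤ 2 * Cs + 2 * K₂ := by linarith
          gcongr
  · intro δ hδ hδ1 Y hY hYX
    have hδ0 : 0 < δ := lt_of_lt_of_le he hδ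
    have h4 : X ^ (31 / 32 : ℝ) + 1 ≤ Y := by
      have h5 : X = X ^ (31 / 32 : ℝ) * X ^ (1 / 32 : ℝ) := by
        rw [← Real.rpow_add hX0]; norm_num
      have h6 : X ^ (31 / 32 : ℝ) ≤ e / 2 * X := by
        have h7 : 1 ≤ e / 2 * X ^ (1 / 32 : ℝ) := by
          rw [div_le_iff₀ he] at h2
          linarith
        calc X ^ (31 / 32 : ℝ) = X ^ (31 / 32 : ℝ) * 1 := by ring
          _ ≤ X ^ (31 / 32 : ℝ) * (e / 2 * X ^ (1 / 32 : ℝ)) := by gcongr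
          _ = e / 2 * (X ^ (31 / 32 : ℝ) * X ^ (1 / 32 : ℝ)) := by ring
          _ = e / 2 * X := by rw [← h5]
      have h8 : 1 ≤ e / 2 * X := by
        rw [div_le_iff₀ he] at h3c
        linarith
      linarith
    have h41 : 0 < X ^ (31 / 32 : ℝ) := by positivity
    have hY0 : 0 < Y := by linarith
    have h5 : 1 ≤ δ * (Y - 1) := by
      have h6 : 1 / e + 1 ≤ X * e := by
        rw [div_le_iff₀ he] at h3d
        exact h3d
      have h7 : 1 / e ≤ Y - 1 := by linarith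
      calc (1 : ℝ) = e * (1 / e) := by field_simp
        _ ≤ δ * (Y - 1) := by gcongr
    have h6 := up_short g hGF.nonneg (Cs * H) δ Y (by positivity) hδ0 (by linarith) h5
      (hpc Y δ (by linarith) hYX ((min_le_left _ _).trans hδ) hδ1)
      (hpc (Y - 1) δ (by linarith) (by linarith) ((min_le_left _ _).trans hδ) hδ1)
    have h7 := hone Y hY0 hYX
    calc ∑ m ∈ Icc ⌈Y⌉₊ ⌊(1 + δ) * Y⌋₊, g m ≤ 2 * (Cs * H) * (δ * Y) := h6
      _ = (2 * Cs) * δ * Y * 1 * H := by ring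
      _ ≤ (2 * Cs + 2 * K₂) * δ * Y * (X / Y) ^ (1 / 8 : ℝ) * H := by
          have : 2 * Cs ≤ 2 * Cs + 2 * K₂ := by linarith
          gcongr

open NumberField Vale.Agent.P007 Vale.Agent.P007.Z Vale.Agent.P007.N Vale.Agent.P007.R in
theorem upper_of (n : ℕ) (hn : 3 ≤ n) (hW : WpRatioStmt) (hS : ∀ B, ShiuStmt n B)
    (hG : RoGFStmt n) : UpperStmt n := by
  obtain ⟨B, hB⟩ := hG
  have hn0 : (0 : ℝ) < n := by exact_mod_cast (by omega : 0 < n)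
  have hcr : ∃ C₂ : ℝ, 0 < C₂ ∧ ∀ (T : Finset ℕ) (χ g U : ℕ → ℝ), GF n B T χ g U → ∀ Z : ℝ,
      2 ≤ Z → ∑ m ∈ Icc 1 ⌊Z⌋₊, g m ≤ C₂ * Z / Real.log Z * ∏ p ∈ pr (2 * Z), U p := by
    obtain ⟨C₂, hC₂, h⟩ := ht_crude n (by omega) B
    refine ⟨C₂, hC₂, fun T χ g U hg Z hZ => ?_⟩
    exact h g U ⟨hg.nonneg, hg.one, hg.sub, hg.pow, hg.U1, hg.sum⟩ Z hZ
  obtain ⟨C, hC, hcore⟩ := up_core n (by omega) B (hS B) hW hcr
  refine ⟨1 / (2000 * n), by positivity, fun C₀ c₀ hc₀ => ⟨C, hC, fun e he => ?_⟩⟩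
  obtain ⟨X₁, hX₁⟩ := hcore C₀ c₀ hc₀ e he
  refine ⟨⌈max X₁ 1⌉₊ ^ 2, fun D hD E hE hdE χ Q L hQD hcL _ => ?_⟩
  set X : ℝ := 3 ^ n * √(D.disc : ℝ) with hX
  have hD' : max X₁ 1 ≤ √(D.disc : ℝ) := by
    apply Real.le_sqrt_of_sq_le
    calc max X₁ 1 ^ 2 ≤ (⌈max X₁ 1⌉₊ : ℝ) ^ 2 := by
          have : 0 ≤ max X₁ 1 := zero_le_one.trans (le_max_right _ _)
          gcongr
          exact Nat.le_ceil _
      _ ≤ (D.disc : ℝ) := by exact_mod_cast hD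
  have hsq1 : 1 ≤ √(D.disc : ℝ) := (le_max_right _ _).trans hD'
  have h3n : (27 : ℝ) ≤ 3 ^ n := by
    calc (27 : ℝ) = 3 ^ 3 := by norm_num
      _ ≤ 3 ^ n := pow_le_pow_right₀ (by norm_num) hn
  have hsX : 2 * √(D.disc : ℝ) ≤ X := by
    rw [hX]
    nlinarith
  have hX0 : 0 < X := by linarith
  have hX2 : 2 ≤ X := by linarith
  have hlX : 0 < Real.log X := Real.log_pos (by linarith)
  have hdE0 : 0 < |(discr E : ℝ)| := by
    rw [abs_pos]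
    exact_mod_cast discr_ne_zero E
  have hdEX : |(discr E : ℝ)| ≤ X := by
    have := Real.le_sqrt_of_sq_le hdE
    linarith
  obtain ⟨T, hT, hGF⟩ := hB D E hE C₀ χ Q L hQD
  have hC₀ : 0 < C₀ := by
    by_contra hneg
    rw [not_lt] at hneg
    have h1 := hQD.Qle
    have h2 := hQD.qc.Q1
    have h3 : C₀ * |(discr E : ℝ)| ^ (3 / 4 : ℝ) ≤ 0 :=
      mul_nonpos_of_nonpos_of_nonneg hneg (by positivity)
    linarith
  have h1 := hX₁ X (by linarith [le_max_left X₁ 1]) Q L T χ (fun m => (rO D m : ℝ))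
    (fun p => (up D p)⁻¹) hQD.qc hQD.isL hGF
    (by
      have : Real.log (2 * √(D.disc : ℝ)) ≤ Real.log X := Real.log_le_log (by linarith) hsX
      linarith)
    (hQD.Qle.trans (by gcongr))
    (by
      refine le_trans ?_ hcL
      have : X ^ (-(1 / (2000 * n)) : ℝ) ≤ |(discr E : ℝ)| ^ (-(1 / (2000 * n)) : ℝ) :=
        Real.rpow_le_rpow_of_nonpos hdE0 hdEX (by
          rw [neg_nonpos]; positivity)
      gcongr)
  have h2 : L * Wp χ X * Real.log X * HO D X = L * Wp χ X * ∏ p ∈ pr (2 * X), (up D p)⁻¹ := by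
    have h3 : ∏ p ∈ P2 X, (up D p)⁻¹ = ∏ p ∈ pr (2 * X), (up D p)⁻¹ := rfl
    rw [HO, h3]
    field_simp
  rw [h2]
  exact h1

end Vale.Agent.P007.S11.Up

namespace Vale.Agent.P007.S11

theorem upper (n : ℕ) (hn : 3 ≤ n) (hS : ∀ B, ShiuStmt n B) (hG : RoGFStmt n) : UpperStmt n :=
  Up.upper_of n hn Wp_ratio hS hG

end Vale.Agent.P007.S11
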