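import Vale.Agent.P007.S11.Defs2

/-! The lower bound for the volume with an explicit dependence on the exceptional zero. -/

set_option autoImplicit false

open MeasureTheory Matrix NumberField Filter Topology IsDedekindDomain
open scoped ENNReal nonZeroDivisors

namespace Vale.Agent.P007.S11

open Vale.Agent.P007 Vale.Agent.P007.R Vale.Agent.P007.N Vale.Agent.P007.H11

variable {n : ℕ}

/-- The residue bound: `ρ ≥ c e^{-B} H(X)`. -/
theorem residue_ge_exp (n : ℕ) :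
    ∃ c : ℝ, 0 < c ∧ ∀ (D : Datum n) (X B : ℝ), √(D.disc : ℝ) ≤ X → 2 ≤ X →
      (∀ η : ℝ, 0 < η → η ≤ 1 → -Real.log η - B ≤
        Z.Del D.K (1 : DirichletCharacter ℂ 1) (2 * Real.log X) η) →
      c * Real.exp (-B) * HO (mx D) X ≤ dedekindZeta_residue D.K := by
  obtain ⟨C₁, hC₁⟩ := sum_neg_log_up n
  set A : ℝ := 4 * n + n * (1 / 2 + Real.log 8) + C₁ with hA
  refine ⟨(2 * Real.exp A)⁻¹, by positivity, fun D X B hXD hX2 hNE => ?_⟩
  have hX1 : 1 ≤ X := by linarith only [hX2]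
  have hX0 : 0 < X := by linarith only [hX2]
  have hl2 : (1 : ℝ) / 2 ≤ Real.log X := by
    have h1 := Real.log_le_log (by norm_num) hX2
    have h2 := Real.log_two_gt_d9
    linarith only [h1, h2]
  have hlX0 : 0 < Real.log X := by linarith only [hl2]
  set ℓ : ℝ := 2 * Real.log X with hℓ
  have hℓ1 : 1 ≤ ℓ := by linarith only [hℓ, hl2]
  have h1 := residue_ge_of_Del D.K (by linarith only [hℓ1] : 0 < ℓ) hNE
  rw [D.deg] at h1
  have h2 : HO (mx D) X ≤ (Real.log X)⁻¹ *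
      Real.exp (Z.PS D.K chi0 (1 + 1 / ℓ) + n * (1 / 2 + Real.log 8) + C₁) := by
    unfold HO
    refine mul_le_mul_of_nonneg_left ?_ (by positivity)
    have h3 : ∏ p ∈ P2 X, (up (mx D) p)⁻¹ = Real.exp (∑ p ∈ P2 X, -Real.log (up (mx D) p)) := by
      rw [Real.exp_sum]
      refine Finset.prod_congr rfl fun p hp => ?_
      rw [Real.exp_neg, Real.exp_log (up_mx_pos D (mem_P2.mp hp).2)]
    rw [h3]
    refine Real.exp_le_exp.mpr ?_
    refine (hC₁ D X).trans ?_
    have := sum_aN_div_le D hX1 hℓ1 (le_of_eq hℓ.symm)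
    linarith only [this]
  calc (2 * Real.exp A)⁻¹ * Real.exp (-B) * HO (mx D) X
      ≤ (2 * Real.exp A)⁻¹ * Real.exp (-B) * ((Real.log X)⁻¹ *
        Real.exp (Z.PS D.K chi0 (1 + 1 / ℓ) + n * (1 / 2 + Real.log 8) + C₁)) := by
        gcongr
    _ = ℓ⁻¹ * Real.exp (Z.PS D.K chi0 (1 + 1 / ℓ) - B - 4 * n) := by
        have h4 : Real.exp (Z.PS D.K chi0 (1 + 1 / ℓ) + n * (1 / 2 + Real.log 8) + C₁) =
            Real.exp (Z.PS D.K chi0 (1 + 1 / ℓ) - B - 4 * n) * Real.exp A * Real.exp B := by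
          rw [← Real.exp_add, ← Real.exp_add, hA]
          congr 1
          ring
        rw [h4, hℓ, Real.exp_neg]
        have := Real.exp_pos B
        field_simp
    _ ≤ _ := h1

/-- **[S12]** -/
theorem vol_exp (n : ℕ) (hn3 : 3 ≤ n) : VolStmt n := by
  obtain ⟨c₁, hc₁, h1⟩ := residue_ge_exp n
  obtain ⟨c₂, hc₂, h2⟩ := residue_le_vol n (by omega) (S_asymp n (by omega))
  refine ⟨c₂ * c₁, 0, by positivity, fun D _ B hB => ?_⟩
  have hd3 := three_le_disc D (by omega : 2 ≤ n)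
  have hs0 : 0 < √((mx D).disc : ℝ) := by
    apply Real.sqrt_pos.mpr
    have : 0 < (mx D).disc := by omega
    exact_mod_cast this
  have hs1 : 0 < √(D.disc : ℝ) := by
    refine lt_of_lt_of_le hs0 (Real.sqrt_le_sqrt ?_)
    exact_mod_cast disc_mx_le D
  have hs2 : 1 ≤ √(D.disc : ℝ) := by
    rw [Real.one_le_sqrt]
    have h4 := disc_mx_le D
    have : 1 ≤ D.disc := by omega
    exact_mod_cast this
  have h3n : (27 : ℝ) ≤ 3 ^ n := by
    calc (27 : ℝ) = 3 ^ 3 := by norm_num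
      _ ≤ 3 ^ n := pow_le_pow_right₀ (by norm_num) hn3
  set X : ℝ := 3 ^ n * √(D.disc : ℝ) with hXdef
  have hX : √(D.disc : ℝ) ≤ X := by nlinarith only [hs2, h3n]
  have hX2 : 2 ≤ X := by nlinarith only [hs2, h3n]
  have hle : √((mx D).disc : ℝ) ≤ X := by
    refine le_trans (Real.sqrt_le_sqrt ?_) hX
    exact_mod_cast disc_mx_le D
  have hres := h1 D X B hX hX2 hB
  have hv := h2 D
  have h5 : c₂ * c₁ * Real.exp (-B) * HO (mx D) X ≤ (vol (mx D)).toReal / √((mx D).disc : ℝ) := by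
    rw [le_div_iff₀ hs0]
    calc c₂ * c₁ * Real.exp (-B) * HO (mx D) X * √((mx D).disc : ℝ) =
        c₂ * √((mx D).disc : ℝ) * (c₁ * Real.exp (-B) * HO (mx D) X) := by ring
      _ ≤ c₂ * √((mx D).disc : ℝ) * dedekindZeta_residue D.K := by
          (clear * - hc₂ hres; gcongr)
      _ ≤ _ := hv
  have h3 : (0 : ℝ) ≤ ∏ p ∈ D.ind.primeFactors, (up (mx D) p / up D p) := by
    refine Finset.prod_nonneg fun p hp => ?_
    have hp' := (Nat.mem_primeFactors.mp hp).1
    exact div_nonneg (up_mx_pos D hp').le (up_pos D p hp').1.le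
  have h4 : (vol D).toReal = √(D.disc : ℝ) * ((vol D).toReal / √(D.disc : ℝ)) := by
    (clear * - hs1; field_simp)
  rw [h4, vol_compare D, HO_eq D hX (up_eq_of_not_dvd D)]
  calc c₂ * c₁ * Real.exp (-B) * √(D.disc : ℝ) *
        (HO (mx D) X * ∏ p ∈ D.ind.primeFactors, (up (mx D) p / up D p)) =
      √(D.disc : ℝ) * (c₂ * c₁ * Real.exp (-B) * HO (mx D) X *
        ∏ p ∈ D.ind.primeFactors, (up (mx D) p / up D p)) := by ring
    _ ≤ _ := by (clear * - hs1 h5 h3; gcongr)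

end Vale.Agent.P007.S11
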