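import Vale.Agent.P007.S11.MainRelAll
import Vale.Agent.P007.S11.Vol
import Vale.Agent.P007.S11.Key
import Vale.Agent.P007.S11.Char137
import Vale.Agent.P007.S11.ClassA
import Vale.Agent.P007.S11.ClassB384
import Vale.Agent.P007.S11.ClassC
import Vale.Agent.P007.S11.ClassD
import Vale.Agent.P007.S11.Euler
import Vale.Agent.P007.S11.PV137
import Vale.Agent.P007.S11.RankinSmall124
import Vale.Agent.P007.S11.Decomp
import Vale.Agent.P007.S11.DelExc
import Vale.Agent.P007.S11.DelAdd
import Vale.Agent.P007.S11.DiscSq
import Vale.Agent.P007.S11.DivBd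
import Vale.Agent.P007.S11.Divis
import Vale.Agent.P007.S11.Hyper
import Vale.Agent.P007.S11.QDb
import Vale.Agent.P007.S11.QuadChar
import Vale.Agent.P007.S11.Rankin
import Vale.Agent.P007.S11.Res
import Vale.Agent.P007.S11.ZetaUp
import Vale.Agent.P007.S11.RoGF
import Vale.Agent.P007.S11.Rough
import Vale.Agent.P007.S11.Shiu
import Vale.Agent.P007.S11.Sieve
import Vale.Agent.P007.S11.Upper
import Vale.Agent.P007.S11.Wp

/-! The key statement for all orders, from the blocks. -/

set_option autoImplicit false

namespace Vale.Agent.P007.S11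

/-- **The key statement**, for all orders of degree `n ≥ 3`. -/
theorem keyStmt (n : ℕ) (hn : 3 ≤ n) : KeyStmt n := by
  have hn1 : 1 ≤ n := by omega
  have hsieve : SieveStmt := sieve (divis hyper)
  have hA : ClassAStmt := classA_of (fun n B T χ g U h x S hS => euler_le h S hS) Wp_ratio Wp_lower
  have hshiu : ∀ B, ShiuStmt n B := fun B =>
    shiu_of n hn1 B (rough n hsieve) (rankin n hn1 B) (rankin_small124 n hn1 B) (div_bd n) decomp
      hA classB classC (classD_of Wp_ratio Wp_lower)
  exact key n hn (qd quad_char (char137 pv137)) (del_exc res zeta_up) (del_add n)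
    (upper n hn hshiu (ro_gf n (by omega))) (vol_exp n hn) disc_sq

end Vale.Agent.P007.S11
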