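import Vale.Agent.P007.S11.MainRelAll
import Vale.Agent.P007.S11.Vol
import Vale.Agent.P007.S11.Key
import Vale.Agent.P007.S11.Char137
import Vale.Agent.P007.S11.ClassD
import Vale.Agent.P007.S11.Decomp
import Vale.Agent.P007.S11.DelExc
import Vale.Agent.P007.S11.DelAdd
import Vale.Agent.P007.S11.DiscSq
import Vale.Agent.P007.S11.DivBd
import Vale.Agent.P007.S11.Divis
import Vale.Agent.P007.S11.Hyper
import Vale.Agent.P007.S11.QDb
import Vale.Agent.P007.S11.QuadChar
import Vale.Agent.P007.S11.Rankin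
import Vale.Agent.P007.S11.Res
import Vale.Agent.P007.S11.ZetaUp
import Vale.Agent.P007.S11.RoGF
import Vale.Agent.P007.S11.Rough
import Vale.Agent.P007.S11.Shiu
import Vale.Agent.P007.S11.Sieve
import Vale.Agent.P007.S11.Upper
import Vale.Agent.P007.S11.Wp

/-! The key statement, from the remaining blocks. -/

set_option autoImplicit false

namespace Vale.Agent.P007.S11

theorem keyStmt_of (hpv : PVStmt) (hrs : ∀ n : ℕ, 1 ≤ n → ∀ B : ℝ, RankinSmallStmt n B)
    (hA : ClassAStmt) (hB : ClassBStmt) (hC : ClassCStmt) (n : ℕ) (hn : 3 ≤ n) : KeyStmt n := by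
  have hn1 : 1 ≤ n := by omega
  have hsieve : SieveStmt := sieve (divis hyper)
  have hshiu : ∀ B, ShiuStmt n B := fun B =>
    shiu_of n hn1 B (rough n hsieve) (rankin n hn1 B) (hrs n hn1 B) (div_bd n) decomp hA hB hC
      (classD_of Wp_ratio Wp_lower)
  exact key n hn (qd quad_char (char137 hpv)) (del_exc res zeta_up) (del_add n)
    (upper n hn hshiu (ro_gf n (by omega))) (vol_exp n hn) disc_sq

end Vale.Agent.P007.S11
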