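import Vale.Agent.P007.S11.Defs2

/-! Non-concentration in the cusp and near the values of the norm form, from the key statement. -/

set_option autoImplicit false

open MeasureTheory Matrix NumberField Filter Topology IsDedekindDomain
open scoped ENNReal nonZeroDivisors

namespace Vale.Agent.P007.S11

open Vale.Agent.P007 Vale.Agent.P007.R Vale.Agent.P007.N Vale.Agent.P007.H11

variable {n : ℕ}

theorem rpow_combine' {X Z : ℝ} (hX : 0 < X) (hZ : 0 < Z) :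
    Z * (X / Z) ^ (1 / 8 : ℝ) * (X / Z) ^ (1 / 16 : ℝ) = X * (Z / X) ^ (13 / 16 : ℝ) := by
  have h1 : (X / Z) ^ (1 / 8 : ℝ) * (X / Z) ^ (1 / 16 : ℝ) = (X / Z) ^ (3 / 16 : ℝ) := by
    rw [← Real.rpow_add (by positivity)]; norm_num
  have h2 : X / Z = (Z / X)⁻¹ := by rw [inv_div]
  have h3 : (X / Z) ^ (3 / 16 : ℝ) = ((Z / X) ^ (3 / 16 : ℝ))⁻¹ := by
    rw [h2, Real.inv_rpow (by positivity)]
  have h4 : (Z / X) ^ (13 / 16 : ℝ) * (Z / X) ^ (3 / 16 : ℝ) = Z / X := by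
    rw [← Real.rpow_add (by positivity)]; norm_num
  have h5 : 0 < (Z / X) ^ (3 / 16 : ℝ) := by positivity
  rw [mul_assoc, h1, h3, ← div_eq_mul_inv, div_eq_iff h5.ne', mul_assoc, h4]
  field_simp

theorem half_rpow_le' : ((1 / 2 : ℝ)) ^ (13 / 16 : ℝ) ≤ 3 / 4 := by
  have h1 : ((1 / 2 : ℝ) ^ (13 / 16 : ℝ)) ^ 16 ≤ (3 / 4 : ℝ) ^ 16 := by
    rw [← Real.rpow_natCast, ← Real.rpow_mul (by norm_num)]
    norm_num
  exact le_of_pow_le_pow_left₀ (by norm_num) (by norm_num) h1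

/-- weighted crude bound -/
theorem crude_w {g : ℕ → ℝ} (hg : ∀ m, 0 ≤ g m) {C H X : ℝ} (hC0 : 0 < C) (hH : 0 < H)
    (hX : 2 ≤ X) (hC : ∀ Z : ℝ, 1 ≤ Z → Z ≤ X →
      ∑ m ∈ Finset.Icc 1 ⌊Z⌋₊, g m ≤ C * Z * (X / Z) ^ (1 / 8 : ℝ) * H)
    {Z : ℝ} (hZ : 0 < Z) (hZX : Z ≤ X) :
    ∑ m ∈ Finset.Icc 1 ⌊Z⌋₊, g m * (X / m) ^ (1 / 16 : ℝ) ≤
      8 * C * X * (Z / X) ^ (13 / 16 : ℝ) * H := by
  have hX0 : 0 < X := by linarith only [hX]
  obtain ⟨K, hK⟩ := pow_unbounded_of_one_lt Z (one_lt_two : (1 : ℝ) < 2)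
  -- pointwise
  have hpt : ∀ m ∈ Finset.Icc 1 ⌊Z⌋₊, (X / m) ^ (1 / 16 : ℝ) ≤
      2 * ∑ k ∈ Finset.range K, if (m : ℝ) * 2 ^ k ≤ Z then (X / (Z / 2 ^ k)) ^ (1 / 16 : ℝ)
        else 0 := by
    intro m hm
    rw [Finset.mem_Icc] at hm
    have hm1 : (1 : ℝ) ≤ m := by exact_mod_cast hm.1
    have hmZ : (m : ℝ) ≤ Z := (Nat.le_floor_iff hZ.le).1 hm.2
    have hex : ∃ k : ℕ, Z < (m : ℝ) * 2 ^ (k + 1) := by
      refine ⟨K, hK.trans_le ?_⟩
      have : (2 : ℝ) ^ K ≤ 2 ^ (K + 1) := pow_le_pow_right₀ (by norm_num) (by omega)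
      have h2 : (0 : ℝ) < 2 ^ (K + 1) := by positivity
      nlinarith only [hZ, hK, hm1, this]
    classical
    set k0 := Nat.find hex with hk0
    have h1 : Z < (m : ℝ) * 2 ^ (k0 + 1) := Nat.find_spec hex
    have h2 : (m : ℝ) * 2 ^ k0 ≤ Z := by
      rcases Nat.eq_zero_or_pos k0 with h | h
      · rw [h]; simpa only [pow_zero, mul_one] using hmZ
      · have := Nat.find_min hex (m := k0 - 1) (by omega)
        rw [not_lt] at this
        rwa [Nat.sub_add_cancel h] at this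
    have h3 : k0 < K := by
      by_contra hcon
      push Not at hcon
      have h4 : (2 : ℝ) ^ K ≤ 2 ^ k0 := pow_le_pow_right₀ (by norm_num) hcon
      have h5 : (0 : ℝ) < 2 ^ k0 := by positivity
      nlinarith only [hZ, hK, hm1, h2, h4]
    have h4 : X / m ≤ 2 * (X / (Z / 2 ^ k0)) := by
      have h5 : (0 : ℝ) < 2 ^ k0 := by positivity
      rw [div_div_eq_mul_div, div_le_iff₀ (by linarith only [hm1]), mul_comm 2, mul_assoc,
        div_mul_eq_mul_div, le_div_iff₀ hZ]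
      have h6 : Z ≤ (m : ℝ) * (2 * 2 ^ k0) := by rw [← pow_succ']; exact h1.le
      nlinarith only [hZ, hZX, h6]
    have h5 : (X / m) ^ (1 / 16 : ℝ) ≤ 2 * (X / (Z / 2 ^ k0)) ^ (1 / 16 : ℝ) := by
      refine (Real.rpow_le_rpow (by positivity) h4 (by norm_num)).trans ?_
      rw [Real.mul_rpow (by norm_num) (by positivity)]
      refine mul_le_mul_of_nonneg_right ?_ (by positivity)
      calc (2 : ℝ) ^ (1 / 16 : ℝ) ≤ 2 ^ (1 : ℝ) :=
            Real.rpow_le_rpow_of_exponent_le (by norm_num) (by norm_num)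
        _ = 2 := Real.rpow_one 2
    refine h5.trans (mul_le_mul_of_nonneg_left ?_ (by norm_num))
    have h6 := Finset.single_le_sum (s := Finset.range K)
      (f := fun k => if (m : ℝ) * 2 ^ k ≤ Z then (X / (Z / 2 ^ k)) ^ (1 / 16 : ℝ) else 0)
      (fun k _ => by
        split_ifs
        · positivity
        · exact le_rfl) (Finset.mem_range.2 h3)
    simp only [if_pos h2] at h6
    exact h6
  have hstep : ∀ k, ∑ m ∈ Finset.Icc 1 ⌊Z⌋₊, (if (m : ℝ) * 2 ^ k ≤ Z then g m else 0) ≤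
      C * (Z / 2 ^ k) * (X / (Z / 2 ^ k)) ^ (1 / 8 : ℝ) * H := by
    intro k
    have h2k : (0 : ℝ) < 2 ^ k := by positivity
    rw [← Finset.sum_filter]
    rcases le_or_gt 1 (Z / 2 ^ k) with h | h
    · have h1 : (Finset.Icc 1 ⌊Z⌋₊).filter (fun m : ℕ => (m : ℝ) * 2 ^ k ≤ Z) ⊆
          Finset.Icc 1 ⌊Z / 2 ^ k⌋₊ := by
        intro m hm
        rw [Finset.mem_filter, Finset.mem_Icc] at hm
        rw [Finset.mem_Icc]
        exact ⟨hm.1.1, Nat.le_floor (by rw [le_div_iff₀ h2k]; exact hm.2)⟩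
      refine (Finset.sum_le_sum_of_subset_of_nonneg h1 (fun m _ _ => hg m)).trans ?_
      refine hC _ h ?_
      have : (1 : ℝ) ≤ 2 ^ k := one_le_pow₀ (by norm_num)
      exact (div_le_self hZ.le this).trans hZX
    · have h1 : (Finset.Icc 1 ⌊Z⌋₊).filter (fun m : ℕ => (m : ℝ) * 2 ^ k ≤ Z) = ∅ := by
        rw [Finset.filter_eq_empty_iff]
        intro m hm
        rw [Finset.mem_Icc] at hm
        have hm1 : (1 : ℝ) ≤ m := by exact_mod_cast hm.1
        rw [div_lt_one h2k] at h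
        rw [not_le]
        nlinarith only [h2k, h, hm1]
      rw [h1, Finset.sum_empty]
      (clear * - hC0 hZ hX hH; positivity)
  calc ∑ m ∈ Finset.Icc 1 ⌊Z⌋₊, g m * (X / m) ^ (1 / 16 : ℝ)
      ≤ ∑ m ∈ Finset.Icc 1 ⌊Z⌋₊, g m * (2 * ∑ k ∈ Finset.range K,
          if (m : ℝ) * 2 ^ k ≤ Z then (X / (Z / 2 ^ k)) ^ (1 / 16 : ℝ) else 0) :=
        Finset.sum_le_sum fun m hm => mul_le_mul_of_nonneg_left (hpt m hm) (hg m)
    _ = 2 * ∑ k ∈ Finset.range K, (X / (Z / 2 ^ k)) ^ (1 / 16 : ℝ) *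
          ∑ m ∈ Finset.Icc 1 ⌊Z⌋₊, (if (m : ℝ) * 2 ^ k ≤ Z then g m else 0) := by
        simp only [Finset.mul_sum]
        rw [Finset.sum_comm]
        refine Finset.sum_congr rfl fun k _ => Finset.sum_congr rfl fun m _ => ?_
        split_ifs <;> ring
    _ ≤ 2 * ∑ k ∈ Finset.range K, (X / (Z / 2 ^ k)) ^ (1 / 16 : ℝ) *
          (C * (Z / 2 ^ k) * (X / (Z / 2 ^ k)) ^ (1 / 8 : ℝ) * H) := by
        gcongr with k _
        exact hstep k
    _ = 2 * C * H * ∑ k ∈ Finset.range K, X * ((Z / 2 ^ k) / X) ^ (13 / 16 : ℝ) := by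
        rw [Finset.mul_sum, Finset.mul_sum]
        refine Finset.sum_congr rfl fun k _ => ?_
        rw [← rpow_combine' hX0 (show 0 < Z / 2 ^ k by positivity)]
        ring
    _ ≤ 2 * C * H * ∑ k ∈ Finset.range K, X * ((Z / X) ^ (13 / 16 : ℝ) * (3 / 4) ^ k) := by
        gcongr with k _
        have h1 : Z / 2 ^ k / X = Z / X * (1 / 2) ^ k := by
          rw [one_div, inv_pow]; field_simp
        rw [h1, Real.mul_rpow (by positivity) (by positivity)]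
        gcongr
        rw [← Real.rpow_natCast, ← Real.rpow_mul (by norm_num), mul_comm ((k : ℕ) : ℝ),
          Real.rpow_mul (by norm_num), Real.rpow_natCast]
        exact pow_le_pow_left₀ (by positivity) half_rpow_le' k
    _ = 2 * C * H * (X * (Z / X) ^ (13 / 16 : ℝ)) * ∑ k ∈ Finset.range K, (3 / 4 : ℝ) ^ k := by
        rw [Finset.mul_sum, Finset.mul_sum]
        refine Finset.sum_congr rfl fun k _ => ?_
        ring
    _ ≤ 2 * C * H * (X * (Z / X) ^ (13 / 16 : ℝ)) * 4 := by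
        gcongr
        have h1 := geom_sum_eq (show (3 / 4 : ℝ) ≠ 1 by norm_num) K
        rw [h1]
        have h2 : (0 : ℝ) ≤ (3 / 4) ^ K := by positivity
        rw [div_le_iff_of_neg (by norm_num)]
        linarith only [h2]
    _ = _ := by ring

/-- weighted short interval bound -/
theorem short_w {g : ℕ → ℝ} (hg : ∀ m, 0 ≤ g m) {C δ H : ℝ}
    {Y X : ℝ} (hY0 : 0 < Y) (hYX : Y ≤ X)
    (hC : ∑ m ∈ Finset.Icc ⌈Y⌉₊ ⌊(1 + δ) * Y⌋₊, g m ≤
      C * δ * Y * (X / Y) ^ (1 / 8 : ℝ) * H) :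
    ∑ m ∈ Finset.Icc ⌈Y⌉₊ ⌊(1 + δ) * Y⌋₊, g m * (X / m) ^ (1 / 16 : ℝ) ≤
      C * δ * (X * (Y / X) ^ (13 / 16 : ℝ)) * H := by
  have hX0 : 0 < X := by linarith only [hY0, hYX]
  calc ∑ m ∈ Finset.Icc ⌈Y⌉₊ ⌊(1 + δ) * Y⌋₊, g m * (X / m) ^ (1 / 16 : ℝ)
      ≤ ∑ m ∈ Finset.Icc ⌈Y⌉₊ ⌊(1 + δ) * Y⌋₊, g m * (X / Y) ^ (1 / 16 : ℝ) := by
        refine Finset.sum_le_sum fun m hm => mul_le_mul_of_nonneg_left ?_ (hg m)
        rw [Finset.mem_Icc] at hm
        have h3 : Y ≤ m := (Nat.le_ceil Y).trans (by exact_mod_cast hm.1)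
        refine Real.rpow_le_rpow (by positivity) ?_ (by norm_num)
        exact div_le_div_of_nonneg_left hX0.le hY0 h3
    _ = (∑ m ∈ Finset.Icc ⌈Y⌉₊ ⌊(1 + δ) * Y⌋₊, g m) * (X / Y) ^ (1 / 16 : ℝ) := by
        rw [Finset.sum_mul]
    _ ≤ (C * δ * Y * (X / Y) ^ (1 / 8 : ℝ) * H) * (X / Y) ^ (1 / 16 : ℝ) := by
        gcongr
    _ = _ := by
        rw [← rpow_combine' hX0 hY0]
        ring

/-- the window lemma -/
theorem window_w {D : Datum n} {C H X ε : ℝ} (hC : 0 < C) (hH : 0 < H) (hX2 : 2 ≤ X)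
    (hε : 0 < ε) (hε1 : ε < 1) (hU : UpB D C (2 / 27 * √(√ε) ^ 3) X H) (y : ℝ) (W : Finset ℕ)
    (hW : W ⊆ Finset.Icc 1 ⌊X⌋₊) (hWy : ∀ m ∈ W, |(m : ℝ) - y| < ε * X / 27) :
    ∑ m ∈ W, (rO D m : ℝ) * (X / m) ^ (1 / 16 : ℝ) ≤ 9 * C * √ε * X * H := by
  obtain ⟨hcr, hsh⟩ := hU
  set e : ℝ := √(√ε) with he
  have hs0 : 0 < √ε := Real.sqrt_pos.2 hε
  have hs1 : √ε < 1 := by rw [Real.sqrt_lt' one_pos]; simpa using hε1
  have he0 : 0 < e := Real.sqrt_pos.2 hs0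
  have he1 : e < 1 := by rw [he, Real.sqrt_lt' one_pos]; simpa using hs1
  have he2 : e ^ 2 = √ε := Real.sq_sqrt hs0.le
  have he4 : e ^ 4 = ε := by
    have : e ^ 4 = (e ^ 2) ^ 2 := by ring
    rw [this, he2, Real.sq_sqrt hε.le]
  have he3 : e ^ 3 ≤ e ^ 2 := pow_le_pow_of_le_one he0.le he1.le (by norm_num)
  have he21 : e ^ 2 ≤ e := by
    calc e ^ 2 ≤ e ^ 1 := pow_le_pow_of_le_one he0.le he1.le (by norm_num)
      _ = e := pow_one e
  have he30 : 0 < e ^ 3 := by positivity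
  have hea : 2 / 27 * e ^ 3 ≤ √ε := by rw [← he2]; linarith only [he3, he30]
  have heb : 2 / 27 * e ^ 3 ≤ e := by linarith only [he3, he21, he30]
  have hX0 : 0 < X := by linarith only [hX2]
  have hg : ∀ m, (0 : ℝ) ≤ rO D m := fun m => Nat.cast_nonneg _
  have hterm : ∀ m : ℕ, 0 ≤ (rO D m : ℝ) * (X / m) ^ (1 / 16 : ℝ) := fun m =>
    mul_nonneg (hg m) (by (clear * - hX2; positivity))
  set Y : ℝ := y - ε * X / 27 with hY
  have hWlo : ∀ m ∈ W, Y < m := by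
    intro m hm
    have := (abs_lt.1 (hWy m hm)).1
    linarith only [hY, this]
  have hWhi : ∀ m ∈ W, (m : ℝ) < Y + 2 / 27 * e ^ 4 * X := by
    intro m hm
    have := (abs_lt.1 (hWy m hm)).2
    rw [he4]
    linarith only [hY, this]
  have hWX : ∀ m ∈ W, (m : ℝ) ≤ X := by
    intro m hm
    have := Finset.mem_Icc.1 (hW hm)
    exact (Nat.le_floor_iff hX0.le).1 this.2
  have hRHS : 0 ≤ C * (√ε * X * H) := by (clear * - hC hε hX2 hH; positivity)
  -- the short interval estimate at scale `δ`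
  have hgen : ∀ δ : ℝ, 0 < δ → 0 < Y → Y ≤ X →
      (∑ m ∈ Finset.Icc ⌈Y⌉₊ ⌊(1 + δ) * Y⌋₊, (rO D m : ℝ) ≤
        C * δ * Y * (X / Y) ^ (1 / 8 : ℝ) * H) → 2 / 27 * e ^ 4 * X ≤ δ * Y →
      ∑ m ∈ W, (rO D m : ℝ) * (X / m) ^ (1 / 16 : ℝ) ≤
        C * δ * (X * (Y / X) ^ (13 / 16 : ℝ)) * H := by
    intro δ hδ hY0 hYX hs hδY
    refine le_trans (Finset.sum_le_sum_of_subset_of_nonneg ?_ fun m _ _ => hterm m)
      (short_w hg hY0 hYX hs)
    intro m hm
    rw [Finset.mem_Icc]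
    refine ⟨Nat.ceil_le.2 (hWlo m hm).le, Nat.le_floor ?_⟩
    have := hWhi m hm
    linarith only [hδY, this]
  rcases lt_or_ge X Y with hXY | hYX
  · have : W = ∅ := by
      rw [Finset.eq_empty_iff_forall_notMem]
      intro m hm
      have h1 := hWlo m hm
      have h2 := hWX m hm
      linarith only [hXY, h1, h2]
    rw [this, Finset.sum_empty]
    linarith only [hRHS]
  rcases lt_or_ge Y (2 / 27 * e ^ 3 * X) with h3 | h3
  · -- crude
    have hsub : W ⊆ Finset.Icc 1 ⌊e ^ 3 * X⌋₊ := by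
      intro m hm
      rw [Finset.mem_Icc]
      refine ⟨(Finset.mem_Icc.1 (hW hm)).1, Nat.le_floor ?_⟩
      have h4 := hWhi m hm
      have h5 : e ^ 4 ≤ e ^ 3 := pow_le_pow_of_le_one he0.le he1.le (by norm_num)
      have h6 : 0 < e ^ 3 * X := by positivity
      nlinarith only [hε, hε1, he0, he1, h3, h4, h5, h6, hX0]
    have h4 := crude_w (Z := e ^ 3 * X) hg hC hH hX2 hcr (by positivity)
      (by
        have : e ^ 3 ≤ 1 := pow_le_one₀ he0.le he1.le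
        nlinarith only [hX2, this])
    refine (Finset.sum_le_sum_of_subset_of_nonneg hsub fun m _ _ => hterm m).trans (h4.trans ?_)
    have h5 : e ^ 3 * X / X = e ^ 3 := by (clear * - he0 hX2; field_simp)
    rw [h5]
    have h6 : (e ^ 3) ^ (13 / 16 : ℝ) ≤ √ε := by
      rw [← he2, ← Real.rpow_natCast, ← Real.rpow_mul he0.le, ← Real.rpow_natCast]
      exact Real.rpow_le_rpow_of_exponent_ge he0 he1.le (by norm_num)
    calc 8 * C * X * (e ^ 3) ^ (13 / 16 : ℝ) * H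
        ≤ 8 * C * X * √ε * H := by (clear * - hC hX2 hH h6; gcongr)
      _ ≤ 8 * C * X * √ε * H + C * (√ε * X * H) := by linarith only [hRHS]
      _ = _ := by ring
  · have hY0 : 0 < Y := by
      have : 0 < 2 / 27 * e ^ 3 * X := by positivity
      linarith only [this, h3]
    rcases lt_or_ge Y (2 / 27 * e ^ 2 * X) with h2 | h2
    · -- scale `e`
      have h4 := hgen e he0 hY0 hYX (hsh e heb he1.le Y h3 hYX) (by
        have : e * (2 / 27 * e ^ 3 * X) ≤ e * Y := mul_le_mul_of_nonneg_left h3 he0.le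
        nlinarith only [this])
      refine h4.trans ?_
      have h5 : (Y / X) ^ (13 / 16 : ℝ) ≤ e := by
        have h6 : Y / X ≤ e ^ 2 := by
          rw [div_le_iff₀ hX0]
          have : 0 < e ^ 2 * X := by positivity
          linarith only [this, h2]
        refine (Real.rpow_le_rpow (by positivity) h6 (by norm_num)).trans ?_
        rw [← Real.rpow_natCast, ← Real.rpow_mul he0.le]
        calc e ^ (((2 : ℕ) : ℝ) * (13 / 16)) ≤ e ^ (1 : ℝ) :=
              Real.rpow_le_rpow_of_exponent_ge he0 he1.le (by norm_num)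
          _ = e := Real.rpow_one e
      calc C * e * (X * (Y / X) ^ (13 / 16 : ℝ)) * H
          ≤ C * e * (X * e) * H := by (clear * - hC he0 hX0 hH h5; gcongr)
        _ = C * (√ε * X * H) := by rw [← he2]; ring
        _ ≤ C * (√ε * X * H) + 8 * (C * (√ε * X * H)) := by linarith only [hRHS]
        _ = _ := by ring
    · -- scale `√ε`
      have h4 := hgen (√ε) hs0 hY0 hYX (hsh (√ε) hea hs1.le Y h3 hYX) (by
        rw [← he2]
        have : e ^ 2 * (2 / 27 * e ^ 2 * X) ≤ e ^ 2 * Y := mul_le_mul_of_nonneg_left h2 (by positivity)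
        nlinarith only [this])
      refine h4.trans ?_
      have h5 : (Y / X) ^ (13 / 16 : ℝ) ≤ 1 :=
        Real.rpow_le_one (by positivity) (by rw [div_le_one hX0]; exact hYX) (by norm_num)
      calc C * √ε * (X * (Y / X) ^ (13 / 16 : ℝ)) * H
          ≤ C * √ε * (X * 1) * H := by (clear * - hC hs0 hX0 hH h5; gcongr)
        _ = C * (√ε * X * H) := by ring
        _ ≤ C * (√ε * X * H) + 8 * (C * (√ε * X * H)) := by linarith only [hRHS]
        _ = _ := by ring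

theorem star_all (n : ℕ) (hn3 : 3 ≤ n) (hkey : KeyStmt n) :
    ∃ C : ℝ, ∀ ε : ℝ, 0 < ε → ε < 1 →
      ∃ D₀ : ℕ, ∀ D : Datum n, D₀ ≤ D.disc → ∀ N0 : ℝ,
      D.packetMeas {x | ∃ v ∈ latx x, v ≠ 0 ∧ (∀ i, |v i| < 3) ∧ |∏ i, v i - N0| < ε} ≤
        ENNReal.ofReal (C * √ε) := by
  obtain ⟨c, C, hc, hC, hk⟩ := hkey
  refine ⟨2 ^ n * (16 * n : ℝ) ^ (n - 1) * (9 * C) * 3 ^ n / c, ?_⟩
  intro ε hε hε1
  obtain ⟨D₀, hD₀⟩ := hk (2 / 27 * √(√ε) ^ 3) (by
    have : 0 < √(√ε) := Real.sqrt_pos.2 (Real.sqrt_pos.2 hε)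
    positivity)
  refine ⟨max 4 D₀, fun D hD N0 => ?_⟩
  obtain ⟨H, hH, hv, hU⟩ := hD₀ D ((le_max_right _ _).trans hD)
  have hsd2 : 2 ≤ √(D.disc : ℝ) := by
    refine Real.le_sqrt_of_sq_le ?_
    have : (4 : ℝ) ≤ D.disc := by exact_mod_cast (le_max_left _ _).trans hD
    linarith only [this]
  have hsd : 0 < √(D.disc : ℝ) := by linarith only [hε, hε1, hsd2]
  set sd := √(D.disc : ℝ) with hsddef
  set X : ℝ := 3 ^ n * sd with hX
  have h3n : (27 : ℝ) ≤ 3 ^ n := by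
    calc (27 : ℝ) = 3 ^ 3 := by norm_num
      _ ≤ 3 ^ n := pow_le_pow_right₀ (by norm_num) hn3
  have hXsd : sd ≤ X := by nlinarith only [hε, hε1, hsd2, h3n]
  have hXpos : 0 < X := by linarith only [hε, hε1, hsd2, hXsd]
  classical
  set W : Finset ℕ := (Finset.Icc 1 ⌊X⌋₊).filter (fun m : ℕ => |(m : ℝ) - |N0| * sd| < ε * X / 27)
    with hWdef
  set V : Set (Fin n → ℝ) := {v | (∀ i, |v i| < 3) ∧ |∏ i, v i - N0| < ε} with hVdef
  have hVopen : IsOpen V := by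
    have h1 : V = (⋂ i : Fin n, {v : Fin n → ℝ | |v i| < 3}) ∩
        {v : Fin n → ℝ | |∏ i, v i - N0| < ε} := by
      ext v; simp only [hVdef, Set.mem_ofPred_eq, Set.mem_inter_iff, Set.mem_iInter]
    rw [h1]
    refine IsOpen.inter (isOpen_iInter_of_finite fun i => ?_) ?_
    · exact isOpen_lt ((continuous_apply i).abs) continuous_const
    · exact isOpen_lt (((continuous_finsetProd _ fun i _ => continuous_apply i).sub
        continuous_const).abs) continuous_const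
  have hb := packet_sum_bound D (by omega) (fun φ hφ => unfold D φ hφ) (rO_zero D) hsd hVopen
    (R := 3) (by norm_num)
    le_rfl (fun v hv => hv.1) W (by
      rintro m hm hlt ⟨w, u, hwu⟩
      have hm0 : (0 : ℝ) < m := by exact_mod_cast hm
      have ht : 0 < (m : ℝ) / sd := by (clear * - hsd2 hm; positivity)
      rw [hWdef, Finset.mem_filter, Finset.mem_Icc]
      refine ⟨⟨hm, Nat.le_floor ?_⟩, ?_⟩
      · rw [div_lt_iff₀ hsd] at hlt
        exact hlt.le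
      · have h1 : |∏ j : Fin n, ((↑m / sd) ^ ((n : ℝ)⁻¹) * ((w j : ℤ) : ℝ) *
            Real.exp (expo u j)) - N0| < ε := hwu.2
        rw [prod_vec (by omega) ht] at h1
        have h2 := abs_abs_sub_abs_le ((m : ℝ) / sd * ∏ j, ((w j : ℤ) : ℝ)) N0
        rw [abs_mul, abs_prod_sign, mul_one, abs_of_pos ht] at h2
        have h3 : abs ((m : ℝ) / sd - |N0|) < ε := h2.trans_lt h1
        have h4 : (m : ℝ) - |N0| * sd = ((m : ℝ) / sd - |N0|) * sd := by
          (clear * - hsd2; field_simp)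
        rw [h4, abs_mul, abs_of_pos hsd]
        have h5 : abs ((m : ℝ) / sd - |N0|) * sd < ε * sd := mul_lt_mul_of_pos_right h3 hsd
        refine h5.trans_le ?_
        rw [hX, le_div_iff₀ (by norm_num)]
        have : 0 < ε * sd := by (clear * - hε hsd2; positivity)
        nlinarith only [hε, hε1, h3n, this])
  refine hb.trans ?_
  have hw := window_w hC hH (by linarith only [hsd2, hXsd]) hε hε1 hU (|N0| * sd) W
    (Finset.filter_subset _ _) (by
      intro m hm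
      rw [hWdef, Finset.mem_filter] at hm
      exact hm.2)
  refine final_ineq hc hsd hH hv ?_
  calc 2 ^ n * (16 * n : ℝ) ^ (n - 1) *
        ∑ m ∈ W, (rO D m : ℝ) * (3 ^ n * sd / m) ^ (1 / 16 : ℝ)
      ≤ 2 ^ n * (16 * n : ℝ) ^ (n - 1) * (9 * C * √ε * X * H) := by
        (clear * - hn3 hw; gcongr)
    _ = _ := by rw [hX]; ring

theorem tight_all (n : ℕ) (hn3 : 3 ≤ n) (hkey : KeyStmt n) :
    ∃ C : ℝ, ∀ ε : ℝ, 0 < ε → ε < 1 → ∃ D₀ : ℕ, ∀ D : Datum n, D₀ ≤ D.disc →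
      D.packetMeas {x | ∃ v ∈ latx x, v ≠ 0 ∧ ∀ i, |v i| < ε} ≤ ENNReal.ofReal (C * √ε) := by
  obtain ⟨c, C, hc, hC, hk⟩ := hkey
  obtain ⟨D₀, hD₀⟩ := hk 1 one_pos
  refine ⟨2 ^ n * (16 * n : ℝ) ^ (n - 1) * (8 * C) * 3 ^ n / c, ?_⟩
  intro ε hε hε1
  refine ⟨max 4 D₀, fun D hD => ?_⟩
  obtain ⟨H, hH, hv, hU⟩ := hD₀ D ((le_max_right _ _).trans hD)
  have hsd2 : 2 ≤ √(D.disc : ℝ) := by
    refine Real.le_sqrt_of_sq_le ?_
    have : (4 : ℝ) ≤ D.disc := by exact_mod_cast (le_max_left _ _).trans hD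
    linarith only [this]
  have hsd : 0 < √(D.disc : ℝ) := by linarith only [hε, hε1, hsd2]
  set sd := √(D.disc : ℝ) with hsddef
  set X : ℝ := 3 ^ n * sd with hX
  have h3n : (27 : ℝ) ≤ 3 ^ n := by
    calc (27 : ℝ) = 3 ^ 3 := by norm_num
      _ ≤ 3 ^ n := pow_le_pow_right₀ (by norm_num) hn3
  have hXsd : sd ≤ X := by nlinarith only [hε, hε1, hsd2, h3n]
  have hXpos : 0 < X := by linarith only [hε, hε1, hsd2, hXsd]
  have hen : 0 < ε ^ n := by positivity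
  have hen1 : ε ^ n ≤ 1 := pow_le_one₀ hε.le hε1.le
  set V : Set (Fin n → ℝ) := {v | ∀ i, |v i| < ε} with hVdef
  have hVopen : IsOpen V := by
    have h1 : V = ⋂ i : Fin n, {v : Fin n → ℝ | |v i| < ε} := by
      ext v; simp only [hVdef, Set.mem_ofPred_eq, Set.mem_iInter]
    rw [h1]
    exact isOpen_iInter_of_finite fun i => isOpen_lt ((continuous_apply i).abs) continuous_const
  have hb := packet_sum_bound D (by omega) (fun φ hφ => unfold D φ hφ) (rO_zero D) hsd hVopen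
    (R := ε) hε
    (by linarith only [hε, hε1]) (fun v hv => hv) (Finset.Icc 1 ⌊ε ^ n * sd⌋₊) (by
      rintro m hm hlt ⟨w, u, hwu⟩
      rw [Finset.mem_Icc]
      refine ⟨hm, Nat.le_floor ?_⟩
      rw [div_lt_iff₀ hsd] at hlt
      exact hlt.le)
  refine hb.trans ?_
  refine final_ineq hc hsd hH hv ?_
  have hw := crude_w (g := fun m => (rO D m : ℝ)) (Z := ε ^ n * sd) (X := X)
    (fun m => Nat.cast_nonneg _) hC hH (by linarith only [hsd2, hXsd]) hU.1 (by positivity)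
    (by nlinarith only [hε, hε1, hsd2, h3n, hen1])
  have h1 : (ε ^ n * sd / X) ^ (13 / 16 : ℝ) ≤ √ε := by
    have h2 : ε ^ n * sd / X ≤ ε := by
      rw [div_le_iff₀ hXpos]
      have h3 : ε ^ n ≤ ε := by
        calc ε ^ n ≤ ε ^ 1 := pow_le_pow_of_le_one hε.le hε1.le (by omega)
          _ = ε := pow_one ε
      calc ε ^ n * sd ≤ ε * sd := by (clear * - hsd h3; gcongr)
        _ ≤ ε * X := by (clear * - hε hXsd; gcongr)
    calc (ε ^ n * sd / X) ^ (13 / 16 : ℝ) ≤ ε ^ (13 / 16 : ℝ) :=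
          Real.rpow_le_rpow (by positivity) h2 (by norm_num)
      _ ≤ ε ^ (1 / 2 : ℝ) := Real.rpow_le_rpow_of_exponent_ge hε hε1.le (by norm_num)
      _ = √ε := (Real.sqrt_eq_rpow ε).symm
  calc 2 ^ n * (16 * n : ℝ) ^ (n - 1) *
        ∑ m ∈ Finset.Icc 1 ⌊ε ^ n * sd⌋₊, (rO D m : ℝ) * (3 ^ n * sd / m) ^ (1 / 16 : ℝ)
      ≤ 2 ^ n * (16 * n : ℝ) ^ (n - 1) *
        (8 * C * X * (ε ^ n * sd / X) ^ (13 / 16 : ℝ) * H) := by
        (clear * - hn3 hw; gcongr)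
    _ ≤ 2 ^ n * (16 * n : ℝ) ^ (n - 1) * (8 * C * X * √ε * H) := by
        (clear * - hn3 hC hXpos hH h1; gcongr)
    _ = _ := by rw [hX]; ring

end Vale.Agent.P007.S11
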