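import Vale.Agent.P007.S11.MainAll
import Vale.Agent.P007.S11.RelAll
import Vale.Agent.P007.H11.MainRel

/-! Equidistribution relative to a fixed subfield, in terms of the definitions of `StmtF`, `Defs` and
`Defs2`. -/

set_option autoImplicit false

open MeasureTheory Matrix NumberField Filter Topology
open scoped ENNReal nonZeroDivisors CompactlySupported

namespace Vale.Agent.P007.F.O3

variable {n : ℕ}

section Seq

variable {K : ℕ → Type} [∀ i, Field (K i)] [∀ i, NumberField (K i)]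
  {O : ∀ i, Subring (𝓞 (K i))} {σ : ∀ i, Fin n ≃ (K i →+* ℝ)} {μ : ℕ → Measure (X n)}

/-- **Equidistribution relative to a fixed subfield.** -/
theorem relative {f : Polynomial ℤ} {l : ℕ} (hf : f.Monic) (hfi : Irreducible f)
    (hf1 : 1 < f.natDegree) (hl : l.Prime) (hln : f.natDegree * l = n)
    (hkey : S11.KeyStmt n)
    {p : Fin n → ℝ} (hroot : ∀ j, Polynomial.aeval (p j) f = 0)
    (h : ∀ i, PacketMeas (K i) (O i) (σ i) (μ i))
    (hp : ∀ i, ∃ a ∈ O i, ∀ j, σ i j a = p j)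
    (hdisc : Tendsto (fun i => disc (K i) (O i)) atTop atTop) :
    (∀ i, μ i (Stab p) = 1) ∧
    (∀ ε > 0, ∃ C : Set (X n), IsCompact C ∧ ∀ᶠ i in atTop, μ i Cᶜ ≤ ε) ∧
    ∀ x ∈ Stab p, IsClosed (orbC p x) ∧
      ((∃ κ, Homog p κ ∧ κ (orbC p x) = 1 ∧ ∀ F : C_c(X n, ℝ),
        Tendsto (fun i => ∫ y in orbC p x, F y ∂μ i - (μ i (orbC p x)).toReal * ∫ y, F y ∂κ)
          atTop (𝓝 0)) ∨
        Tendsto (fun i => (μ i (orbC p x)).toReal) atTop (𝓝 0)) := by
  have hn3 : 3 ≤ n := by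
    have := hl.two_le
    nlinarith
  have h1 := seq_eq h
  have hsg : ∀ i, ∀ g ∈ H11.W n, ((T.mkD (isDatum (h i).1)).packetMeas).map
      (Vale.Agent.P007.tr g) = (T.mkD (isDatum (h i).1)).packetMeas := by
    rintro i g ⟨w, hw⟩
    have h2 := packetMeas_sign (h i) w g hw
    rw [congrFun h1 i] at h2
    exact h2
  have hY : ∀ i, (T.mkD (isDatum (h i).1)).packetMeas (Vale.Agent.P007.Yd (n := n) p)ᶜ = 0 := by
    intro i
    obtain ⟨a, ha, hap⟩ := hp i
    refine packetMeas_null _ (Vale.Agent.P007.isClosed_Yd p).measurableSet ?_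
    rintro S ⟨x, hx, rfl⟩
    have h5 := orb_subset_Yd (T.mkD (isDatum (h i).1)) hx ⟨a, ha⟩
    have h6 : (fun j => (T.mkD (isDatum (h i).1)).σ j ((⟨a, ha⟩ : (T.mkD (isDatum (h i).1)).O) :
        𝓞 (T.mkD (isDatum (h i).1)).K)) = p := funext fun j => hap j
    rw [h6] at h5
    exact h5
  obtain ⟨m, hm, -⟩ := exists_isInvProb n (by omega)
  refine ⟨fun i => ?_, fun ε hε => ?_, fun x hx => ?_⟩
  · rw [stab_eq]
    have hpr : IsProbabilityMeasure (T.mkD (isDatum (h i).1)).packetMeas :=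
      packetMeas_prob (T.mkD (isDatum (h i).1))
    have h2 := (prob_compl_eq_zero_iff (μ := (T.mkD (isDatum (h i).1)).packetMeas)
      (Vale.Agent.P007.isClosed_Yd (n := n) p).measurableSet).1 (hY i)
    rw [congrFun h1 i]
    exact h2
  · obtain ⟨C, hC, hCe⟩ := S11.O3.tightness_fam (n := n) hn3 hkey
      (fun i => T.mkD (isDatum (h i).1)) hdisc ε hε
    refine ⟨C, hC, ?_⟩
    rw [h1]
    exact hCe
  · rw [stab_eq] at hx
    refine ⟨H11.isClosed_ZO (n := n) (p := p) hx, ?_⟩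
    have h2 := S11.O3.rel_equi (n := n) hn3 hkey (fun i => T.mkD (isDatum (h i).1))
      hdisc hsg hf hfi hroot hf1 hl hln hY (m := m) hm (x := x) hx
    rw [h1]
    rcases h2 with ⟨κ, h3, h4, h5⟩ | h3
    · exact Or.inl ⟨κ, homog_iff p κ h3, h4, h5⟩
    · exact Or.inr h3

end Seq

end Vale.Agent.P007.F.O3
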