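import Vale.Agent.P007.S11.MainRelAll

/-! A necessary condition for the convergence: every monic irreducible polynomial of degree `d`,
`1 < d < n`, has a root in finitely many of the orders only. -/

set_option autoImplicit false

open MeasureTheory Matrix NumberField Filter Topology
open scoped ENNReal nonZeroDivisors CompactlySupported

namespace Vale.Agent.P007.F.O3

variable {n : ℕ}

/-- the packet measure is carried by the lattices stable under the elements of the order -/
theorem stab_one {K : Type} [Field K] [NumberField K] {O : Subring (𝓞 K)}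
    {σ : Fin n ≃ (K →+* ℝ)} {μ : Measure (X n)} (h : PacketMeas K O σ μ) {p : Fin n → ℝ}
    (hp : ∃ a ∈ O, ∀ j, σ j a = p j) : μ (Stab p) = 1 := by
  have h1 : μ = (T.mkD (isDatum h.1)).packetMeas :=
    (T.pktMeas_iff (isDatum h.1) _).mp ((packetMeas_iff μ).mp h).2
  have hY : (T.mkD (isDatum h.1)).packetMeas (Vale.Agent.P007.Yd (n := n) p)ᶜ = 0 := by
    obtain ⟨a, ha, hap⟩ := hp
    refine packetMeas_null _ (Vale.Agent.P007.isClosed_Yd p).measurableSet ?_
    rintro S ⟨x, hx, rfl⟩
    have h5 := orb_subset_Yd (T.mkD (isDatum h.1)) hx ⟨a, ha⟩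
    have h6 : (fun j => (T.mkD (isDatum h.1)).σ j ((⟨a, ha⟩ : (T.mkD (isDatum h.1)).O) :
        𝓞 (T.mkD (isDatum h.1)).K)) = p := funext fun j => hap j
    rw [h6] at h5
    exact h5
  rw [stab_eq]
  have hpr : IsProbabilityMeasure (T.mkD (isDatum h.1)).packetMeas :=
    packetMeas_prob (T.mkD (isDatum h.1))
  have h2 := (prob_compl_eq_zero_iff (μ := (T.mkD (isDatum h.1)).packetMeas)
    (Vale.Agent.P007.isClosed_Yd (n := n) p).measurableSet).1 hY
  rw [h1]
  exact h2

section Seq

variable {K : ℕ → Type} [∀ i, Field (K i)] [∀ i, NumberField (K i)]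
  {O : ∀ i, Subring (𝓞 (K i))} {σ : ∀ i, Fin n ≃ (K i →+* ℝ)} {μ : ℕ → Measure (X n)}

/-- **Necessary condition.** If the packet measures converge to the invariant probability, then
every monic irreducible polynomial of degree strictly between `1` and `n` has a root in finitely
many of the orders only. -/
theorem no_roots (hn3 : 3 ≤ n) (hkey : S11.KeyStmt n)
    (h : ∀ i, PacketMeas (K i) (O i) (σ i) (μ i))
    (hdisc : Tendsto (fun i => disc (K i) (O i)) atTop atTop) {m : Measure (X n)}
    (hm : IsInvProb m) (hW : WeakTo μ m) {f : Polynomial ℤ} (hf : f.Monic) (hfi : Irreducible f)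
    (hf1 : 1 < f.natDegree) (hfn : f.natDegree < n) :
    ∀ᶠ i in atTop, ∀ a ∈ O i, Polynomial.aeval a f ≠ 0 := by
  classical
  have hf0 : f.map (Int.castRingHom ℝ) ≠ 0 := (hf.map _).ne_zero
  set P : Finset (Fin n → ℝ) :=
    Fintype.piFinset fun _ => (f.map (Int.castRingHom ℝ)).roots.toFinset with hP
  have hmem : ∀ p : Fin n → ℝ, p ∈ P ↔ ∀ j, Polynomial.aeval (p j) f = 0 := by
    intro p
    rw [hP, Fintype.mem_piFinset]
    refine forall_congr' fun j => ?_
    rw [Multiset.mem_toFinset, Polynomial.mem_roots hf0, Polynomial.IsRoot.def,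
      Polynomial.eval_map, ← algebraMap_int_eq, ← Polynomial.aeval_def]
  have hev : ∀ᶠ i in atTop, ∀ p ∈ P, μ i (Stab p) ≤ 1 / 2 := by
    rw [Filter.eventually_all_finset]
    intro p hp
    have hmult : IsMult p := ⟨f, hf, hfi, hf1, hfn, (hmem p).1 hp⟩
    have hcl : IsClosed (Stab p : Set (X n)) := by
      rw [stab_eq]
      exact Vale.Agent.P007.isClosed_Yd p
    obtain ⟨C, hC, hCe⟩ := hW.2 (1 / 2 / 2) (by norm_num)
    obtain ⟨V, -, hLV, hV⟩ := (criterion_fam hn3 hkey h hdisc hm).1 hW p hmult (C ∩ Stab p)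
      Set.inter_subset_right (hC.inter_right hcl) (1 / 2 / 2) (by norm_num)
    filter_upwards [hCe, hV] with i h1 h2
    have h3 : Stab p ⊆ V ∪ Cᶜ := by
      intro x hx
      by_cases hxC : x ∈ C
      · exact Or.inl (hLV ⟨hxC, hx⟩)
      · exact Or.inr hxC
    calc μ i (Stab p) ≤ μ i (V ∪ Cᶜ) := measure_mono h3
      _ ≤ μ i V + μ i Cᶜ := measure_union_le _ _
      _ ≤ 1 / 2 / 2 + 1 / 2 / 2 := add_le_add h2 h1
      _ = 1 / 2 := ENNReal.add_halves _
  filter_upwards [hev] with i hi a ha hfa
  have hp : (fun j => σ i j a) ∈ P := by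
    rw [hmem]
    intro j
    have h1 : Polynomial.aeval ((σ i j) (a : K i)) f = σ i j (Polynomial.aeval (a : K i) f) := by
      rw [Polynomial.aeval_def, Polynomial.aeval_def, Polynomial.hom_eval₂]
      congr 1
      exact Subsingleton.elim _ _
    have h2 : Polynomial.aeval (a : K i) f = 0 := by
      have h3 := Polynomial.aeval_algebraMap_apply (K i) a f
      have h4 : (algebraMap (𝓞 (K i)) (K i)) a = (a : K i) := rfl
      rw [h4, hfa, map_zero] at h3
      exact h3
    rw [h1, h2, map_zero]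
  have h1 := hi _ hp
  rw [stab_one (h i) ⟨a, ha, fun j => rfl⟩] at h1
  norm_num at h1

end Seq

end Vale.Agent.P007.F.O3
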