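import Vale.Agent.P007.S11.Defs
import Vale.Agent.P007.S11.PvBase

/-! [S5] the inequality of Pólya and Vinogradov for all nonprincipal Dirichlet characters. -/

set_option autoImplicit false
set_option linter.all false

open Finset

namespace Vale.Agent.P007.S11

namespace PVB

/-- a primitive Dirichlet character satisfies the hypothesis of `polya_vinogradov` -/
theorem prim_spec {f : ℕ} [NeZero f] (ψ : DirichletCharacter ℂ f) (hψ : ψ.IsPrimitive) (r : ℕ)
    (hr : r.Prime) (hrf : r ∣ f) :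
    ∃ u : ℕ, Nat.Coprime u f ∧ u ≡ 1 [MOD f / r] ∧ ψ (u : ZMod f) ≠ 1 := by
  by_contra hcon
  push Not at hcon
  have hf0 : 0 < f := Nat.pos_of_ne_zero (NeZero.ne f)
  have hd : f / r ∣ f := Nat.div_dvd_of_dvd hrf
  have h1 : ψ.FactorsThrough (f / r) := by
    rw [DirichletCharacter.factorsThrough_iff_ker_unitsMap hd]
    intro x hx
    rw [MonoidHom.mem_ker] at hx ⊢
    have hco : Nat.Coprime (x : ZMod f).val f := ZMod.val_coe_unit_coprime x
    have hx2 : (((x : ZMod f).val : ℕ) : ZMod (f / r)) = 1 := by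
      have h2 := congrArg (fun y : (ZMod (f / r))ˣ => (y : ZMod (f / r))) hx
      simp only [ZMod.unitsMap_val, Units.val_one] at h2
      rw [ZMod.natCast_val]
      exact h2
    have h3 : (x : ZMod f).val ≡ 1 [MOD f / r] := by
      rw [← ZMod.natCast_eq_natCast_iff, Nat.cast_one]
      exact hx2
    have h4 := hcon _ hco h3
    rw [ZMod.natCast_zmod_val] at h4
    rw [Units.ext_iff, MulChar.coe_toUnitHom, Units.val_one]
    exact h4
  have h5 : ψ.conductor ≤ f / r := Nat.sInf_le h1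
  rw [hψ] at h5
  have h6 : f / r < f := Nat.div_lt_self hf0 hr.one_lt
  omega

/-- the inequality for primitive characters -/
theorem pv_prim {f : ℕ} [NeZero f] (hf : 1 < f) (ψ : DirichletCharacter ℂ f) (hψ : ψ.IsPrimitive)
    (N : ℕ) : ‖∑ m ∈ Finset.Icc 1 N, ψ (m : ZMod f)‖ ≤ Real.sqrt f * (1 + Real.log f) := by
  have h := polya_vinogradov (fun m => ψ (m : ZMod f)) f hf
    (fun m n => by simp only [Nat.cast_mul, map_mul]) (by simp)
    (fun m n hmn => by
      have : (m : ZMod f) = (n : ZMod f) := (ZMod.natCast_eq_natCast_iff _ _ _).2 hmn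
      simp only [this])
    (prim_spec ψ hψ)
    (fun n hn => by
      apply ψ.map_nonunit
      rwa [ZMod.isUnit_iff_coprime])
    (N + 1)
  have h0 : ψ ((0 : ℕ) : ZMod f) = 0 := by
    rw [Nat.cast_zero]
    exact DirichletCharacter.map_zero' ψ (by omega)
  have h1 : ∑ m ∈ Finset.range (N + 1), ψ (m : ZMod f) = ∑ m ∈ Finset.Icc 1 N, ψ (m : ZMod f) := by
    rw [Finset.range_eq_Ico, Finset.sum_eq_sum_Ico_succ_bot (by omega), h0, zero_add]
    rfl
  rw [← h1]
  exact h

/-- the number of divisors is at most `2 √n` -/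
theorem card_div_le (n : ℕ) (hn : n ≠ 0) : (n.divisors.card : ℝ) ≤ 2 * Real.sqrt n := by
  have h1 : n.divisors ⊆ (Finset.Icc 1 n.sqrt) ∪ (Finset.Icc 1 n.sqrt).image (fun d => n / d) := by
    intro d hd
    rw [Nat.mem_divisors] at hd
    obtain ⟨⟨e, he⟩, _⟩ := hd
    have hd0 : 0 < d := Nat.pos_of_ne_zero (by rintro rfl; simp at he; exact hn he)
    have he0 : 0 < e := Nat.pos_of_ne_zero (by rintro rfl; simp at he; exact hn he)
    rw [Finset.mem_union, Finset.mem_Icc, Finset.mem_image]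
    rcases le_or_gt d n.sqrt with h | h
    · exact Or.inl ⟨hd0, h⟩
    · refine Or.inr ⟨e, ?_, ?_⟩
      · rw [Finset.mem_Icc]
        refine ⟨he0, ?_⟩
        by_contra hcon
        push Not at hcon
        have h2 : (n.sqrt + 1) * (n.sqrt + 1) ≤ d * e := Nat.mul_le_mul h hcon
        have h3 := Nat.lt_succ_sqrt n
        rw [← he] at h2
        exact absurd h3 (not_lt.2 h2)
      · rw [he]
        exact Nat.mul_div_cancel _ he0
  have h2 : n.divisors.card ≤ 2 * n.sqrt := by
    calc n.divisors.card ≤ _ := Finset.card_le_card h1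
      _ ≤ (Finset.Icc 1 n.sqrt).card + ((Finset.Icc 1 n.sqrt).image (fun d => n / d)).card :=
        Finset.card_union_le _ _
      _ ≤ (Finset.Icc 1 n.sqrt).card + (Finset.Icc 1 n.sqrt).card :=
        Nat.add_le_add_left Finset.card_image_le _
      _ = 2 * n.sqrt := by rw [Nat.card_Icc]; omega
  have h3 : (n.sqrt : ℝ) ≤ Real.sqrt n := Real.nat_sqrt_le_real_sqrt
  have h4 : (n.divisors.card : ℝ) ≤ 2 * (n.sqrt : ℝ) := by exact_mod_cast h2
  linarith

/-- removing the primes of `q` -/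
theorem sum_coprime (q : ℕ) (hq : q ≠ 0) (F : ℕ → ℂ) (hmul : ∀ m n, F (m * n) = F m * F n)
    (N : ℕ) :
    ∑ m ∈ (Finset.Icc 1 N).filter (fun m => Nat.Coprime m q), F m =
      ∑ d ∈ q.divisors, ((ArithmeticFunction.moebius d : ℤ) : ℂ) * F d *
        ∑ k ∈ Finset.Icc 1 (N / d), F k := by
  have h1 : ∀ m ∈ Finset.Icc 1 N, (if Nat.Coprime m q then F m else 0) =
      ∑ d ∈ q.divisors, if d ∣ m then ((ArithmeticFunction.moebius d : ℤ) : ℂ) * F m else 0 := by
    intro m hm
    rw [Finset.mem_Icc] at hm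
    have hm0 : m ≠ 0 := by omega
    have hg0 : Nat.gcd m q ≠ 0 := fun h => hm0 (Nat.eq_zero_of_gcd_eq_zero_left h)
    have h2 : ∑ d ∈ (Nat.gcd m q).divisors, ArithmeticFunction.moebius d =
        if Nat.gcd m q = 1 then 1 else 0 := by
      have := ArithmeticFunction.coe_zeta_mul_moebius
      have h3 := congrArg (fun g : ArithmeticFunction ℤ => g (Nat.gcd m q)) this
      simp only [ArithmeticFunction.coe_zeta_mul_apply, ArithmeticFunction.one_apply] at h3
      exact h3
    have h4 : q.divisors.filter (fun d => d ∣ m) = (Nat.gcd m q).divisors := by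
      ext d
      simp only [Finset.mem_filter, Nat.mem_divisors, Nat.dvd_gcd_iff]
      tauto
    rw [← Finset.sum_filter, h4, ← Finset.sum_mul]
    have h5 : ∑ d ∈ (Nat.gcd m q).divisors, ((ArithmeticFunction.moebius d : ℤ) : ℂ) =
        if Nat.gcd m q = 1 then 1 else 0 := by
      have := congrArg (fun z : ℤ => (z : ℂ)) h2
      simp only [Int.cast_sum, Int.cast_ite, Int.cast_one, Int.cast_zero] at this
      exact this
    rw [h5]
    simp only [Nat.Coprime, ite_mul, one_mul, zero_mul]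
  rw [Finset.sum_filter, Finset.sum_congr rfl h1, Finset.sum_comm]
  refine Finset.sum_congr rfl fun d hd => ?_
  have hd0 : 0 < d := Nat.pos_of_mem_divisors hd
  rw [← Finset.sum_filter, Finset.mul_sum]
  refine Finset.sum_nbij' (fun m => m / d) (fun k => d * k) ?_ ?_ ?_ ?_ ?_
  · intro m hm
    simp only [Finset.mem_filter, Finset.mem_Icc] at hm ⊢
    exact ⟨Nat.div_pos (Nat.le_of_dvd (by omega) hm.2) hd0, Nat.div_le_div_right hm.1.2⟩
  · intro k hk
    simp only [Finset.mem_filter, Finset.mem_Icc] at hk ⊢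
    refine ⟨⟨Nat.mul_pos hd0 hk.1, ?_⟩, Dvd.intro _ rfl⟩
    calc d * k ≤ d * (N / d) := Nat.mul_le_mul_left _ hk.2
      _ ≤ N := Nat.mul_div_le _ _
  · intro m hm
    simp only [Finset.mem_filter, Finset.mem_Icc] at hm
    exact Nat.mul_div_cancel' hm.2
  · intro k hk
    exact Nat.mul_div_cancel_left _ hd0
  · intro m hm
    simp only [Finset.mem_filter, Finset.mem_Icc] at hm
    obtain ⟨k, rfl⟩ := hm.2
    rw [Nat.mul_div_cancel_left _ hd0, hmul]
    ring

theorem pv_all (q : ℕ) [NeZero q] (χ : DirichletCharacter ℂ q) (hχ : χ ≠ 1) (N : ℕ) :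
    ‖∑ m ∈ Finset.Icc 1 N, χ (m : ZMod q)‖ ≤ 2 * Real.sqrt q * (1 + Real.log q) := by
  have hq : q ≠ 0 := NeZero.ne q
  set f := χ.conductor with hfdef
  have hf0 : f ≠ 0 := DirichletCharacter.conductor_ne_zero χ
  haveI : NeZero f := ⟨hf0⟩
  have hf1 : f ≠ 1 := fun h => hχ (DirichletCharacter.eq_one_iff_conductor_eq_one.2 h)
  have hf : 1 < f := by omega
  have hfq : f ∣ q := DirichletCharacter.conductor_dvd_level χ
  let ψ : DirichletCharacter ℂ f := χ.primitiveCharacter
  have hψ : ψ.IsPrimitive := DirichletCharacter.primitiveCharacter_isPrimitive χ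
  have h1 : ∑ m ∈ Finset.Icc 1 N, χ (m : ZMod q) =
      ∑ m ∈ (Finset.Icc 1 N).filter (fun m => Nat.Coprime m q), ψ (m : ZMod f) := by
    rw [Finset.sum_filter]
    refine Finset.sum_congr rfl fun m hm => ?_
    split_ifs with h
    · have := DirichletCharacter.primitiveCharacter_apply_of_isCoprime χ (a := (m : ℤ))
        (Nat.isCoprime_iff_coprime.2 h)
      simp only [Int.cast_natCast] at this
      exact this.symm
    · apply χ.map_nonunit
      rwa [ZMod.isUnit_iff_coprime]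
  rw [h1, sum_coprime q hq (fun m => ψ (m : ZMod f)) (fun m n => by
    simp only [Nat.cast_mul, map_mul]) N]
  have hlf : 0 ≤ Real.log f := Real.log_natCast_nonneg f
  have hB : 0 ≤ Real.sqrt f * (1 + Real.log f) := by positivity
  have h2 : ∀ d ∈ q.divisors, ‖((ArithmeticFunction.moebius d : ℤ) : ℂ) * ψ (d : ZMod f) *
      ∑ k ∈ Finset.Icc 1 (N / d), ψ (k : ZMod f)‖ ≤
      if d ∈ (q / f).divisors then Real.sqrt f * (1 + Real.log f) else 0 := by
    intro d hd
    have hdq := Nat.dvd_of_mem_divisors hd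
    by_cases hc : Nat.Coprime d f
    · have hm : d ∈ (q / f).divisors := by
        rw [Nat.mem_divisors]
        refine ⟨?_, (Nat.div_pos (Nat.le_of_dvd (Nat.pos_of_ne_zero hq) hfq)
          (Nat.pos_of_ne_zero hf0)).ne'⟩
        have h3 : d * f ∣ q := Nat.Coprime.mul_dvd_of_dvd_of_dvd hc hdq hfq
        exact (Nat.dvd_div_iff_mul_dvd hfq).2 (by rwa [mul_comm] at h3)
      rw [if_pos hm, norm_mul, norm_mul]
      have h3 : ‖((ArithmeticFunction.moebius d : ℤ) : ℂ)‖ ≤ 1 := by
        rw [Complex.norm_intCast]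
        have := ArithmeticFunction.abs_moebius_le_one (n := d)
        exact_mod_cast this
      have h4 : ‖ψ (d : ZMod f)‖ ≤ 1 := DirichletCharacter.norm_le_one ψ _
      have h5 := pv_prim hf ψ hψ (N / d)
      have h6 : ‖((ArithmeticFunction.moebius d : ℤ) : ℂ)‖ * ‖ψ (d : ZMod f)‖ ≤ 1 :=
        mul_le_one₀ h3 (norm_nonneg _) h4
      calc _ ≤ 1 * ‖∑ k ∈ Finset.Icc 1 (N / d), ψ (k : ZMod f)‖ :=
            mul_le_mul_of_nonneg_right h6 (norm_nonneg _)
        _ ≤ _ := by rw [one_mul]; exact h5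
    · have h3 : ψ (d : ZMod f) = 0 := by
        apply ψ.map_nonunit
        rwa [ZMod.isUnit_iff_coprime]
      rw [h3, mul_zero, zero_mul, norm_zero]
      split_ifs
      · exact hB
      · exact le_rfl
  refine (norm_sum_le _ _).trans ((Finset.sum_le_sum h2).trans ?_)
  rw [← Finset.sum_filter, Finset.sum_const, nsmul_eq_mul]
  have hqf0 : q / f ≠ 0 := (Nat.div_pos (Nat.le_of_dvd (Nat.pos_of_ne_zero hq) hfq)
          (Nat.pos_of_ne_zero hf0)).ne'
  have h3 : ((q.divisors.filter (fun d => d ∈ (q / f).divisors)).card : ℝ) ≤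
      2 * Real.sqrt ((q / f : ℕ) : ℝ) := by
    refine le_trans ?_ (card_div_le _ hqf0)
    exact_mod_cast Finset.card_le_card (fun d hd => (Finset.mem_filter.1 hd).2)
  have h4 : Real.sqrt ((q / f : ℕ) : ℝ) * Real.sqrt f = Real.sqrt q := by
    rw [← Real.sqrt_mul (by positivity)]
    congr 1
    exact_mod_cast Nat.div_mul_cancel hfq
  have h5 : Real.log f ≤ Real.log q := by
    apply Real.log_le_log (by exact_mod_cast Nat.pos_of_ne_zero hf0)
    exact_mod_cast Nat.le_of_dvd (Nat.pos_of_ne_zero hq) hfq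
  calc _ ≤ 2 * Real.sqrt ((q / f : ℕ) : ℝ) * (Real.sqrt f * (1 + Real.log f)) :=
        mul_le_mul_of_nonneg_right h3 hB
    _ = 2 * (Real.sqrt ((q / f : ℕ) : ℝ) * Real.sqrt f) * (1 + Real.log f) := by ring
    _ = 2 * Real.sqrt q * (1 + Real.log f) := by rw [h4]
    _ ≤ 2 * Real.sqrt q * (1 + Real.log q) := by
        apply mul_le_mul_of_nonneg_left _ (by positivity)
        linarith

end PVB

/-- [S5] -/
theorem pv : PVStmt := by
  refine ⟨10, by norm_num, fun q _ χ hχ N => (PVB.pv_all q χ hχ N).trans ?_⟩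
  have hq : (1 : ℝ) ≤ q := by exact_mod_cast Nat.one_le_iff_ne_zero.2 (NeZero.ne q)
  have hq0 : (0 : ℝ) < q := by linarith
  have h1 : Real.log q ≤ 4 * (q : ℝ) ^ (1 / 4 : ℝ) := by
    have := Real.log_le_rpow_div hq0.le (show (0 : ℝ) < 1 / 4 by norm_num)
    linarith
  have h2 : (1 : ℝ) ≤ (q : ℝ) ^ (1 / 4 : ℝ) := Real.one_le_rpow hq (by norm_num)
  have h3 : Real.sqrt q * (q : ℝ) ^ (1 / 4 : ℝ) = (q : ℝ) ^ (3 / 4 : ℝ) := by
    rw [Real.sqrt_eq_rpow, ← Real.rpow_add hq0]
    norm_num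
  have h4 : 0 ≤ Real.sqrt q := Real.sqrt_nonneg _
  calc 2 * Real.sqrt q * (1 + Real.log q) ≤ 2 * Real.sqrt q * (5 * (q : ℝ) ^ (1 / 4 : ℝ)) := by
        apply mul_le_mul_of_nonneg_left _ (by positivity)
        linarith
    _ = 10 * (Real.sqrt q * (q : ℝ) ^ (1 / 4 : ℝ)) := by ring
    _ = 10 * (q : ℝ) ^ (3 / 4 : ℝ) := by rw [h3]

end Vale.Agent.P007.S11
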