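import Vale.Agent.P007.S11.Rankin

/-! Rankin's trick for very smooth numbers. -/

set_option autoImplicit false

namespace Vale.Agent.P007.S11

namespace Rk

open Finset

theorem local_all {n : ℕ} {B : ℝ} {T : Finset ℕ} {χ g U : ℕ → ℝ} (hn : 1 ≤ n)
    (h : GF n B T χ g U) {y q : ℝ} (hq : q = (2 : ℝ) ^ (-(1 / (4 * n)) : ℝ))
    {p : ℕ} (hp : p.Prime) (hpT : (p : ℝ) ≤ y ∨ p ∈ T) (M : ℕ) :
    ∑ k ∈ range M, FF T g y (1 / (10 * n)) p k ≤
      1 + 2 * B * (1 - q)⁻¹ * ((p : ℝ) ^ (1 / 10 : ℝ) / p) := by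
  have hn0 : (0 : ℝ) < n := by exact_mod_cast hn
  have hB := B_nonneg' hn h
  have hq0 : 0 ≤ q := by rw [hq]; positivity
  have hq1 : q < 1 := by rw [hq]; exact two_rpow_neg_lt n hn
  have hp0 : (0 : ℝ) < p := by exact_mod_cast hp.pos
  have hp1 : (1 : ℝ) ≤ p := by exact_mod_cast hp.one_le
  have hθ0 : (0 : ℝ) ≤ 1 / (10 * n) := by positivity
  have hθ : (1 : ℝ) / (10 * n) ≤ 1 / (4 * n) := by
    apply one_div_le_one_div_of_le (by positivity)
    linarith
  have hr0 : 0 ≤ (p : ℝ) ^ (1 / 10 : ℝ) := Real.rpow_nonneg hp0.le _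
  have hE1 : 1 ≤ (p : ℝ) ^ (1 / 10 : ℝ) := Real.one_le_rpow hp1 (by norm_num)
  have hE : (p : ℝ) ^ ((n : ℝ) * (1 / (10 * n))) ≤ (p : ℝ) ^ (1 / 10 : ℝ) := by
    apply Real.rpow_le_rpow_of_exponent_le hp1
    apply le_of_eq
    field_simp
  have h1 : ∀ k ∈ range M, FF T g y (1 / (10 * n)) p k ≤ (if k = 0 then 1 else 0) +
      2 * B * ((p : ℝ) ^ (1 / 10 : ℝ) / p) * q ^ k := by
    intro k _
    rcases Nat.eq_zero_or_pos k with hk | hk
    · rw [hk, FF_zero h.one, if_pos rfl]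
      have : 0 ≤ 2 * B * ((p : ℝ) ^ (1 / 10 : ℝ) / p) * q ^ 0 := by positivity
      linarith only [this]
    · unfold FF
      rw [if_pos hpT, if_neg hk.ne', zero_add]
      have h7 := loc2 (E := (p : ℝ) ^ (1 / 10 : ℝ)) hn hk hp.two_le hθ0 hθ hE1 hE
      rw [← hq] at h7
      have h8 := g_div_le h hp hk
      have hr1 : 0 ≤ (p : ℝ) ^ ((k : ℝ) * (1 / (10 * n))) := Real.rpow_nonneg hp0.le _
      calc g (p ^ k) / (p : ℝ) ^ k * (p : ℝ) ^ ((k : ℝ) * (1 / (10 * n)))
          ≤ B * ((p : ℝ) ^ ((k + n - 1) / n : ℕ))⁻¹ * (p : ℝ) ^ ((k : ℝ) * (1 / (10 * n))) :=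
            mul_le_mul_of_nonneg_right h8 hr1
        _ = B * (((p : ℝ) ^ ((k + n - 1) / n : ℕ))⁻¹ *
              (p : ℝ) ^ ((k : ℝ) * (1 / (10 * n)))) := by ring
        _ ≤ B * (2 * (p : ℝ) ^ (1 / 10 : ℝ) * (1 / p) * q ^ k) :=
            mul_le_mul_of_nonneg_left h7 hB
        _ = _ := by ring
  refine (Finset.sum_le_sum h1).trans ?_
  rw [Finset.sum_add_distrib, ← Finset.mul_sum]
  have h2 := geo_sum_le hq0 hq1 M
  have h3 : 0 ≤ 2 * B * ((p : ℝ) ^ (1 / 10 : ℝ) / p) := by positivity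
  have h4 := mul_le_mul_of_nonneg_left h2 h3
  have h5 : ∑ k ∈ range M, (if k = 0 then (1 : ℝ) else 0) ≤ 1 := by
    rw [Finset.sum_ite_eq']
    split_ifs <;> norm_num
  calc _ ≤ 1 + 2 * B * ((p : ℝ) ^ (1 / 10 : ℝ) / p) * (1 - q)⁻¹ := add_le_add h5 h4
    _ = _ := by ring

theorem local_else' {T : Finset ℕ} {g : ℕ → ℝ} {y θ : ℝ} {p : ℕ}
    (hp' : ¬((p : ℝ) ≤ y ∨ p ∈ T)) (M : ℕ) :
    ∑ k ∈ range M, FF T g y θ p k ≤ 1 := by
  have h1 : ∀ k ∈ range M, FF T g y θ p k = if k = 0 then (1 : ℝ) else 0 := by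
    intro k _
    unfold FF
    rw [if_neg hp']
  rw [Finset.sum_congr rfl h1, Finset.sum_ite_eq']
  split_ifs <;> norm_num

end Rk

open Finset Rk

open Classical in
theorem rankin_small (n : ℕ) (hn : 1 ≤ n) (B : ℝ) : RankinSmallStmt n B := by
  intro ε hε
  have hn0 : (0 : ℝ) < n := by exact_mod_cast hn
  set q : ℝ := (2 : ℝ) ^ (-(1 / (4 * n)) : ℝ) with hq
  have hq0 : 0 ≤ q := by rw [hq]; positivity
  have hq1 : q < 1 := by rw [hq]; exact two_rpow_neg_lt n hn
  have h1q : 0 < 1 - q := by linarith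
  set C : ℝ := 2 * |B| * (1 - q)⁻¹ with hC
  have hC0 : 0 ≤ C := by positivity
  have hl2 : (1 / 2 : ℝ) < Real.log 2 := by
    have := Real.log_two_gt_d9
    linarith
  have hl4 : Real.log 4 ≤ 2 := by
    have h1 : Real.log 4 = 2 * Real.log 2 := by
      rw [show (4 : ℝ) = 2 ^ 2 by norm_num, Real.log_pow]
      norm_num
    have := Real.log_two_lt_d9
    rw [h1]
    linarith
  refine ⟨Real.exp (max 1 ((C * 88 / ε) ^ 2)), ?_⟩
  intro T χ g U h x hx hT S hS
  have hB := B_nonneg' hn h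
  rw [abs_of_nonneg hB] at hC
  have hx0 : 0 < x := (Real.exp_pos _).trans_le hx
  have hlx : max 1 ((C * 88 / ε) ^ 2) ≤ Real.log x := by
    rw [Real.le_log_iff_exp_le hx0]
    exact hx
  set l : ℝ := Real.log x with hl
  have hl1 : 1 ≤ l := (le_max_left _ _).trans hlx
  have hl0 : 0 < l := by linarith
  have hlC : C * 88 * l ^ (1 / 2 : ℝ) ≤ ε * l := by
    have h1 : (C * 88 / ε) ^ 2 ≤ l := (le_max_right _ _).trans hlx
    have h2 : C * 88 / ε ≤ l ^ (1 / 2 : ℝ) := by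
      rw [← Real.sqrt_eq_rpow]
      exact Real.le_sqrt_of_sq_le h1
    have h3 : l ^ (1 / 2 : ℝ) * l ^ (1 / 2 : ℝ) = l := by
      rw [← Real.rpow_add hl0]
      norm_num
    rw [div_le_iff₀ hε] at h2
    have h4 : 0 ≤ l ^ (1 / 2 : ℝ) := by positivity
    nlinarith
  set y : ℝ := l ^ 4 with hy
  have hy1 : 1 ≤ y := one_le_pow₀ hl1
  have hy0 : 0 < y := by linarith
  set e : ℕ → ℝ := fun p => (if (p : ℝ) ≤ y then C * ((p : ℝ) ^ (1 / 10 : ℝ) / p) else 0) +
    (if p ∈ T ∧ y < (p : ℝ) then C * ((p : ℝ) ^ (1 / 10 : ℝ) / p) else 0) with he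
  have he0 : ∀ p : ℕ, 0 ≤ e p := by
    intro p
    rw [he]
    dsimp only
    split_ifs <;> positivity
  have hV : ∀ p M : ℕ, p.Prime → ∑ k ∈ range M, FF T g y (1 / (10 * n)) p k ≤ 1 + e p := by
    intro p M hp
    by_cases hpp : (p : ℝ) ≤ y ∨ p ∈ T
    · refine (local_all hn h hq hp hpp M).trans ?_
      rw [← hC]
      apply add_le_add_right
      rw [he]
      dsimp only
      rcases le_or_gt (p : ℝ) y with hpy | hpy
      · rw [if_pos hpy]
        have : 0 ≤ (if p ∈ T ∧ y < (p : ℝ) then C * ((p : ℝ) ^ (1 / 10 : ℝ) / p) else 0) := by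
          split_ifs <;> positivity
        linarith
      · have hpT : p ∈ T := hpp.resolve_left (not_le.mpr hpy)
        rw [if_neg (not_le.mpr hpy), if_pos ⟨hpT, hpy⟩, zero_add]
    · refine (local_else' hpp M).trans ?_
      linarith [he0 p]
  have hesum : ∑ p ∈ pr (2 * x), e p ≤ ε * l := by
    have hprime : ∀ p ∈ pr (2 * x), p.Prime := by
      intro p hp
      unfold pr at hp
      exact (mem_filter.mp hp).2
    refine le_trans ?_ hlC
    have hsplit : C * 88 * l ^ (1 / 2 : ℝ) = C * (84 * l ^ (1 / 2 : ℝ)) + C * (4 * l ^ (1 / 2 : ℝ)) := by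
      ring
    rw [he, hsplit]
    dsimp only
    rw [Finset.sum_add_distrib]
    apply add_le_add
    · rw [← Finset.sum_filter, ← Finset.mul_sum]
      apply mul_le_mul_of_nonneg_left _ hC0
      have h1 := sum_log_le hy1 ((pr (2 * x)).filter (fun p : ℕ => (p : ℝ) ≤ y)) (by
        intro p hp
        rw [mem_filter] at hp
        exact ⟨hprime p hp.1, hp.2⟩)
      have h2 : ∀ p ∈ (pr (2 * x)).filter (fun p : ℕ => (p : ℝ) ≤ y),
          (p : ℝ) ^ (1 / 10 : ℝ) / p ≤ 2 * l ^ (2 / 5 : ℝ) * (Real.log p / p) := by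
        intro p hp
        rw [mem_filter] at hp
        have hpp := hprime p hp.1
        have hp0 : (0 : ℝ) < p := by exact_mod_cast hpp.pos
        have hp2 : (2 : ℝ) ≤ p := by exact_mod_cast hpp.two_le
        have h3 : (1 / 2 : ℝ) ≤ Real.log p := by
          have := Real.log_le_log (by norm_num) hp2
          linarith
        have h4 : (p : ℝ) ^ (1 / 10 : ℝ) ≤ l ^ (2 / 5 : ℝ) := by
          calc (p : ℝ) ^ (1 / 10 : ℝ) ≤ y ^ (1 / 10 : ℝ) :=
                Real.rpow_le_rpow hp0.le hp.2 (by norm_num)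
            _ = l ^ (2 / 5 : ℝ) := by
                rw [hy, ← Real.rpow_natCast, ← Real.rpow_mul hl0.le]
                norm_num
        rw [div_le_iff₀ hp0]
        have h5 : 2 * l ^ (2 / 5 : ℝ) * (Real.log p / p) * p = 2 * l ^ (2 / 5 : ℝ) * Real.log p := by
          field_simp
        rw [h5]
        have h6 : 0 ≤ l ^ (2 / 5 : ℝ) := by positivity
        nlinarith
      refine (Finset.sum_le_sum h2).trans ?_
      rw [← Finset.mul_sum]
      have h7 : Real.log y + Real.log 4 ≤ 42 * l ^ (1 / 10 : ℝ) := by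
        have h8 : Real.log y = 4 * Real.log l := by
          rw [hy, Real.log_pow]
          norm_num
        have h9 : Real.log l ≤ l ^ (1 / 10 : ℝ) / (1 / 10) :=
          Real.log_le_rpow_div hl0.le (by norm_num)
        have h10 : 1 ≤ l ^ (1 / 10 : ℝ) := Real.one_le_rpow hl1 (by norm_num)
        rw [h8]
        linarith
      calc 2 * l ^ (2 / 5 : ℝ) * ∑ p ∈ (pr (2 * x)).filter (fun p : ℕ => (p : ℝ) ≤ y),
            Real.log p / p ≤ 2 * l ^ (2 / 5 : ℝ) * (42 * l ^ (1 / 10 : ℝ)) :=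
            mul_le_mul_of_nonneg_left (h1.trans h7) (by positivity)
        _ = 84 * (l ^ (2 / 5 : ℝ) * l ^ (1 / 10 : ℝ)) := by ring
        _ = 84 * l ^ (1 / 2 : ℝ) := by
            rw [← Real.rpow_add hl0]
            norm_num
    · rw [← Finset.sum_filter]
      have h1 : ∀ p ∈ (pr (2 * x)).filter (fun p : ℕ => p ∈ T ∧ y < (p : ℝ)),
          C * ((p : ℝ) ^ (1 / 10 : ℝ) / p) ≤ C * l⁻¹ := by
        intro p hp
        rw [mem_filter] at hp
        apply mul_le_mul_of_nonneg_left _ hC0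
        have hp0 : (0 : ℝ) < p := by linarith [hp.2.2]
        have h2 : l ^ 4 ≤ (p : ℝ) := hp.2.2.le
        have h3 : (p : ℝ) ^ (1 / 10 : ℝ) / p = (p : ℝ) ^ (-(9 / 10) : ℝ) := by
          rw [← Real.rpow_sub_one hp0.ne']
          norm_num
        rw [h3]
        have h4 : (p : ℝ) ^ (-(9 / 10) : ℝ) ≤ (l ^ 4) ^ (-(9 / 10) : ℝ) :=
          Real.rpow_le_rpow_of_nonpos (by positivity) h2 (by norm_num)
        refine h4.trans ?_
        rw [← Real.rpow_natCast, ← Real.rpow_mul hl0.le, ← Real.rpow_neg_one]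
        apply Real.rpow_le_rpow_of_exponent_le hl1
        norm_num
      refine (Finset.sum_le_card_nsmul _ _ _ h1).trans ?_
      rw [nsmul_eq_mul]
      have h2 : (((pr (2 * x)).filter (fun p : ℕ => p ∈ T ∧ y < (p : ℝ))).card : ℝ) ≤ 4 * l := by
        refine le_trans ?_ hT
        have : (pr (2 * x)).filter (fun p : ℕ => p ∈ T ∧ y < (p : ℝ)) ⊆ T := by
          intro p hp
          exact (mem_filter.mp hp).2.1
        exact_mod_cast Finset.card_le_card this
      have h3 : 0 ≤ C * l⁻¹ := by positivity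
      calc _ ≤ 4 * l * (C * l⁻¹) := mul_le_mul_of_nonneg_right h2 h3
        _ = C * (4 * 1) := by field_simp
        _ ≤ C * (4 * l ^ (1 / 2 : ℝ)) := by
            apply mul_le_mul_of_nonneg_left _ hC0
            apply mul_le_mul_of_nonneg_left _ (by norm_num)
            exact Real.one_le_rpow hl1 (by norm_num)
  have hprod : ∏ p ∈ pr (2 * x), (1 + e p) ≤ x ^ ε := by
    have h1 : ∏ p ∈ pr (2 * x), (1 + e p) ≤ ∏ p ∈ pr (2 * x), Real.exp (e p) := by
      apply Finset.prod_le_prod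
      · intro p _
        linarith [he0 p]
      · intro p _
        have h3 := Real.add_one_le_exp (e p)
        linarith
    refine h1.trans ?_
    rw [← Real.exp_sum, Real.rpow_def_of_pos hx0]
    apply Real.exp_le_exp.mpr
    rw [← hl]
    exact hesum.trans (le_of_eq (mul_comm _ _))
  have hmain : ∑ b ∈ S, b.factorization.prod (FF T g y (1 / (10 * n))) ≤
      ∏ p ∈ pr (2 * x), (1 + e p) := by
    have h1 := euler_gen (FF T g y (1 / (10 * n))) (FF_nonneg h.nonneg y _) (FF_zero h.one y _)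
      (fun p => 1 + e p) hV ⌊2 * x⌋₊ S (by
        intro b hb
        obtain ⟨hb1, hb2, _⟩ := hS b hb
        exact ⟨hb1, Nat.le_floor hb2⟩)
    exact h1
  refine le_trans (Finset.sum_le_sum ?_) (hmain.trans hprod)
  intro b hb
  obtain ⟨hb1, hb2, hb3⟩ := hS b hb
  have hb0 : (0 : ℝ) < b := by exact_mod_cast (by omega : 0 < b)
  refine le_trans (le_of_eq ?_) (le_fprod h (θ := 1 / (10 * n)) b hb1 hb3)
  rw [Real.rpow_sub hb0, Real.rpow_one]
  field_simp

end Vale.Agent.P007.S11
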